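import Vale.Agent.P042.H74.Tiny2

set_option autoImplicit false

/-!
P042, block [D]: the total sum of the local transforms, indexed by finite sets of primes.
-/

namespace Vale.Agent.P042.H74
open Polynomial Finset Vale.Agent.P042.SS

section SeamD

variable {ι : Type*} [Fintype ι] [DecidableEq ι]

theorem prm_coprime {prm : ι → ℕ} (hp : ∀ i, (prm i).Prime) (hinj : Function.Injective prm)
    {i j : ι} (h : i ≠ j) : Nat.Coprime (prm i) (prm j) :=
  (Nat.coprime_primes (hp i) (hp j)).2 fun e => h (hinj e)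

theorem prm_dvd_prod {prm : ι → ℕ} (hp : ∀ i, (prm i).Prime) (hinj : Function.Injective prm)
    (B : Finset ι) (i : ι) : prm i ∣ ∏ j ∈ B, prm j ↔ i ∈ B := by
  constructor
  · intro h
    obtain ⟨j, hj, hd⟩ := (Prime.dvd_finset_prod_iff (hp i).prime _).1 h
    have := (Nat.prime_dvd_prime_iff_eq (hp i) (hp j)).1 hd
    rw [hinj this]
    exact hj
  · intro h
    exact dvd_prod_of_mem _ h

/-- the product of the indexed primes dividing `m` divides `m` -/
theorem prod_filter_dvd {prm : ι → ℕ} (hp : ∀ i, (prm i).Prime) (hinj : Function.Injective prm)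
    (m : ℕ) (B : Finset ι) (hB : ∀ i ∈ B, prm i ∣ m) : ∏ i ∈ B, prm i ∣ m := by
  apply Finset.prod_dvd_of_isRelPrime
  · intro i _ j _ hij
    exact Nat.coprime_iff_isRelPrime.1 (prm_coprime hp hinj hij)
  · exact hB

theorem Ram_index (g : ℤ[X]) (PP : Finset ℕ) (hPP : NS g PP) (prm : ι → ℕ)
    (hinj : Function.Injective prm) (hprm : ∀ i, prm i ∈ PP) (B : Finset ι) (m2 : ℕ)
    (hm2 : 1 ≤ m2) (h : ∀ i ∈ B, ¬ prm i ∣ m2) (t : ℤ) :
    Ram g PP ((∏ i ∈ B, prm i) * m2) t =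
      ((∏ i ∈ B, kN g (prm i) t : ℝ) : ℂ) * Ram g PP m2 t := by
  have hp : ∀ i, (prm i).Prime := fun i => (hPP _ (hprm i)).1
  have h1 : ∏ p ∈ B.image prm, p = ∏ i ∈ B, prm i :=
    prod_image fun i _ j _ e => hinj e
  have h2 : ∏ p ∈ B.image prm, kN g p t = ∏ i ∈ B, kN g (prm i) t :=
    prod_image (f := fun p => kN g p t) fun i _ j _ e => hinj e
  have h3 := Ram_prod g PP hPP m2 hm2 t (B.image prm)
    (fun p hp => by
      obtain ⟨i, _, rfl⟩ := mem_image.1 hp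
      exact hprm i)
    (fun p hp' => by
      obtain ⟨i, hi, rfl⟩ := mem_image.1 hp'
      exact ((hp i).coprime_iff_not_dvd).2 (h i hi))
  rw [h1, h2] at h3
  rw [mul_comm (∏ i ∈ B, prm i) m2, h3, mul_comm]

/-- the sum over all moduli, indexed by the set of primes of the product space -/
theorem sum_Ram_index (g : ℤ[X]) (PP T : Finset ℕ) (hPP : NS g PP) (hT : ∀ p ∈ T, p.Prime)
    (hdis : Disjoint T PP) (prm : ι → ℕ) (hinj : Function.Injective prm)
    (hprm : ∀ i, prm i ∈ PP) (M : ℕ) (t : ℤ) :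
    ∑ m ∈ (Icc 1 M).filter (fun m => ∀ p ∈ T, ¬ p ∣ m), Ram g PP m t =
      ∑ B : Finset ι, ∑ m2 ∈ (Icc 1 M).filter (fun m2 => (∏ i ∈ B, prm i) * m2 ≤ M ∧
        (∀ p ∈ T, ¬ p ∣ m2) ∧ ∀ i, ¬ prm i ∣ m2),
        ((∏ i ∈ B, kN g (prm i) t : ℝ) : ℂ) * Ram g PP m2 t := by
  classical
  have hp : ∀ i, (prm i).Prime := fun i => (hPP _ (hprm i)).1
  have hpos : ∀ B : Finset ι, 1 ≤ ∏ i ∈ B, prm i := fun B =>
    Nat.one_le_iff_ne_zero.2 (prod_ne_zero_iff.2 fun i _ => (hp i).ne_zero)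
  -- remove the moduli divisible by a square
  have h1 : ∑ m ∈ (Icc 1 M).filter (fun m => ∀ p ∈ T, ¬ p ∣ m), Ram g PP m t =
      ∑ m ∈ ((Icc 1 M).filter (fun m => ∀ p ∈ T, ¬ p ∣ m)).filter
        (fun m => ∀ i, ¬ (prm i) ^ 2 ∣ m), Ram g PP m t := by
    symm
    apply sum_filter_of_ne
    intro m hm hne i hd
    rw [mem_filter, mem_Icc] at hm
    exact hne (Ram_zero g PP hPP m (prm i) (hprm i) hm.1.1 hd t)
  rw [h1, sum_sigma']
  symm
  refine sum_bij' (fun x _ => (∏ i ∈ x.1, prm i) * x.2)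
    (fun m _ => ⟨univ.filter (fun i => prm i ∣ m), m / ∏ i ∈ univ.filter (fun i => prm i ∣ m), prm i⟩)
    ?_ ?_ ?_ ?_ ?_
  · rintro ⟨B, m2⟩ hx
    simp only [mem_sigma, mem_univ, true_and, mem_filter, mem_Icc] at hx ⊢
    obtain ⟨⟨hx1, hx2⟩, hx3, hx4, hx5⟩ := hx
    refine ⟨⟨⟨Nat.mul_pos (hpos B) hx1, hx3⟩, ?_⟩, ?_⟩
    · intro p hpT hd
      rcases (hT p hpT).dvd_mul.1 hd with h2 | h2
      · obtain ⟨j, _, hd2⟩ := (Prime.dvd_finset_prod_iff (hT p hpT).prime _).1 h2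
        have h3 := (Nat.prime_dvd_prime_iff_eq (hT p hpT) (hp j)).1 hd2
        exact (Finset.disjoint_left.1 hdis hpT) (h3 ▸ hprm j)
      · exact hx4 p hpT h2
    · intro i hd
      have h2 : prm i ∣ (∏ j ∈ B, prm j) * m2 := (dvd_pow_self _ two_ne_zero).trans hd
      have h3 : prm i ∣ ∏ j ∈ B, prm j := by
        rcases (hp i).dvd_mul.1 h2 with h4 | h4
        · exact h4
        · exact absurd h4 (hx5 i)
      have hiB := (prm_dvd_prod hp hinj B i).1 h3
      rw [← mul_prod_erase B prm hiB, sq, mul_assoc] at hd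
      have h4 : prm i ∣ (∏ j ∈ B.erase i, prm j) * m2 :=
        Nat.dvd_of_mul_dvd_mul_left (hp i).pos hd
      rcases (hp i).dvd_mul.1 h4 with h5 | h5
      · exact (notMem_erase i B) ((prm_dvd_prod hp hinj _ i).1 h5)
      · exact hx5 i h5
  · intro m hm
    simp only [mem_sigma, mem_univ, true_and, mem_filter, mem_Icc] at hm ⊢
    obtain ⟨⟨⟨hm1, hm2⟩, hm3⟩, hm4⟩ := hm
    set B := univ.filter (fun i => prm i ∣ m) with hB
    have hBd : ∏ i ∈ B, prm i ∣ m :=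
      prod_filter_dvd hp hinj m B fun i hi => (mem_filter.1 hi).2
    have hmul : (∏ i ∈ B, prm i) * (m / ∏ i ∈ B, prm i) = m := Nat.mul_div_cancel' hBd
    have hq1 : 1 ≤ m / ∏ i ∈ B, prm i := Nat.div_pos (Nat.le_of_dvd hm1 hBd) (hpos B)
    refine ⟨⟨hq1, (Nat.div_le_self _ _).trans hm2⟩, by rw [hmul]; exact hm2, ?_, ?_⟩
    · intro p hpT hd
      exact hm3 p hpT (hd.trans ⟨_, (by rw [mul_comm]; exact hmul.symm)⟩)
    · intro i hd
      by_cases hi : i ∈ B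
      · apply hm4 i
        rw [← hmul, sq]
        exact mul_dvd_mul (dvd_prod_of_mem _ hi) hd
      · apply hi
        rw [hB, mem_filter]
        exact ⟨mem_univ _, hd.trans ⟨_, (by rw [mul_comm]; exact hmul.symm)⟩⟩
  · rintro ⟨B, m2⟩ hx
    simp only [mem_sigma, mem_univ, true_and, mem_filter, mem_Icc] at hx
    obtain ⟨⟨hx1, hx2⟩, hx3, hx4, hx5⟩ := hx
    have hB : univ.filter (fun i => prm i ∣ (∏ i ∈ B, prm i) * m2) = B := by
      ext i
      rw [mem_filter]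
      constructor
      · intro h
        rcases (hp i).dvd_mul.1 h.2 with h4 | h4
        · exact (prm_dvd_prod hp hinj B i).1 h4
        · exact absurd h4 (hx5 i)
      · intro h
        exact ⟨mem_univ _, Dvd.dvd.mul_right (dvd_prod_of_mem _ h) _⟩
    simp only [hB, Nat.mul_div_cancel_left m2 (hpos B)]
  · intro m hm
    simp only [mem_filter, mem_Icc] at hm
    exact Nat.mul_div_cancel' (prod_filter_dvd hp hinj m _ fun i hi => (mem_filter.1 hi).2)
  · rintro ⟨B, m2⟩ hx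
    simp only [mem_sigma, mem_univ, true_and, mem_filter, mem_Icc] at hx
    exact (Ram_index g PP hPP prm hinj hprm B m2 hx.1.1 (fun i _ => hx.2.2.2 i) t).symm

/-- the full transform at a difference in the right class: tiny primes and product space split -/
theorem sum_Ram_full {f : ℤ[X]} {T : Finset ℕ} {V : ℕ → ℕ} {q1 : ℕ} {z0 : ℤ}
    (h : TinyD f T V q1 z0) {PP : Finset ℕ} (hPP : NS (fer f q1 z0) PP)
    (hdis : Disjoint T PP) (prm : ι → ℕ) (hinj : Function.Injective prm)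
    (hprm : ∀ i, prm i ∈ PP) (Q : ℕ) {t : ℤ} (ht : ((qnul f q1 z0 : ℕ) : ℤ) ∣ t - f.eval z0) :
    ∑ q ∈ Icc 1 Q, Ram (fer f q1 z0) PP q t =
      ∑ d ∈ (qnul f q1 z0).divisors, (d.totient : ℂ) *
        ∑ B : Finset ι, ∑ m2 ∈ (Icc 1 (Q / d)).filter (fun m2 => (∏ i ∈ B, prm i) * m2 ≤ Q / d ∧
          (∀ p ∈ T, ¬ p ∣ m2) ∧ ∀ i, ¬ prm i ∣ m2),
          ((∏ i ∈ B, kN (fer f q1 z0) (prm i) t : ℝ) : ℂ) * Ram (fer f q1 z0) PP m2 t := by
  rw [sum_Ram_tiny h hPP hdis Q ht]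
  refine sum_congr rfl fun d _ => ?_
  rw [sum_Ram_index (fer f q1 z0) PP T hPP h.prime hdis prm hinj hprm (Q / d) t]

end SeamD

end Vale.Agent.P042.H74
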