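import Vale.Agent.P042.H74.Tiny
import Vale.Agent.P042.H245.ZS

set_option autoImplicit false

/-!
P042, block [D]: the local data of the substituted polynomial at the other primes.
-/

namespace Vale.Agent.P042.H74
open Polynomial Finset Vale.Agent.P042.SS

/-- an affine bijection of the residues mod `p` -/
theorem sum_affine {p q1 : ℕ} (hp : 1 ≤ p) (hc : Nat.Coprime q1 p) (z0 : ℤ) (F : ℤ → ℂ)
    (hF : Per p F) : ∑ z ∈ range p, F (q1 * (z : ℤ) + z0) = ∑ z ∈ range p, F (z : ℤ) := by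
  classical
  have hp0 : (0 : ℤ) < p := by exact_mod_cast hp
  have hF' : ∀ x y : ℤ, (p : ℤ) ∣ x - y → F x = F y := by
    intro x y hd
    obtain ⟨c, hc⟩ := hd
    have hx : x = y + p * c := by linarith
    rcases le_or_gt 0 c with h0 | h0
    · obtain ⟨n, rfl⟩ := Int.eq_ofNat_of_zero_le h0
      rw [hx, hF.mul_nat]
    · obtain ⟨n, hn⟩ := Int.eq_ofNat_of_zero_le (show 0 ≤ -c by omega)
      have : y = x + p * n := by
        rw [hx, ← hn]
        ring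
      rw [this, hF.mul_nat]
  obtain ⟨u2, u1, hu⟩ : ∃ u2 u1 : ℤ, u2 * q1 + u1 * p = 1 := Nat.isCoprime_iff_coprime.2 hc
  refine sum_bij' (fun z _ => ((q1 * (z : ℤ) + z0) % p).toNat)
    (fun z _ => ((u2 * ((z : ℤ) - z0)) % p).toNat) ?_ ?_ ?_ ?_ ?_
  · intro z _
    rw [mem_range]
    have h1 := Int.emod_nonneg ((q1 : ℤ) * (z : ℤ) + z0) hp0.ne'
    have h2 := Int.emod_lt_of_pos ((q1 : ℤ) * (z : ℤ) + z0) hp0
    omega
  · intro z _
    rw [mem_range]
    have h1 := Int.emod_nonneg (u2 * ((z : ℤ) - z0)) hp0.ne'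
    have h2 := Int.emod_lt_of_pos (u2 * ((z : ℤ) - z0)) hp0
    omega
  · intro z hz
    rw [mem_range] at hz
    have h1 := Int.emod_nonneg ((q1 : ℤ) * (z : ℤ) + z0) hp0.ne'
    rw [Int.toNat_of_nonneg h1]
    have h2 : u2 * (((q1 : ℤ) * (z : ℤ) + z0) % p - z0) ≡ (z : ℤ) [ZMOD p] := by
      have h3 : ((q1 : ℤ) * (z : ℤ) + z0) % p ≡ (q1 : ℤ) * (z : ℤ) + z0 [ZMOD p] := Int.mod_modEq _ _
      have h4 := (h3.sub_right z0).mul_left u2
      refine h4.trans ?_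
      have h5 : u2 * ((q1 : ℤ) * (z : ℤ) + z0 - z0) = z + p * (-(u1 * z)) := by
        linear_combination (z : ℤ) * hu
      rw [h5]
      exact Int.ModEq.symm (Int.modEq_iff_dvd.2 ⟨-(u1 * z), by ring⟩)
    have h3 : (u2 * (((q1 : ℤ) * (z : ℤ) + z0) % p - z0)) % p = z := by
      rw [h2]
      exact Int.emod_eq_of_lt (by omega) (by omega)
    rw [h3]
    rfl
  · intro z hz
    rw [mem_range] at hz
    have h1 := Int.emod_nonneg (u2 * ((z : ℤ) - z0)) hp0.ne'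
    rw [Int.toNat_of_nonneg h1]
    have h2 : (q1 : ℤ) * ((u2 * ((z : ℤ) - z0)) % p) + z0 ≡ (z : ℤ) [ZMOD p] := by
      have h3 : (u2 * ((z : ℤ) - z0)) % p ≡ u2 * ((z : ℤ) - z0) [ZMOD p] := Int.mod_modEq _ _
      have h4 := (h3.mul_left (q1 : ℤ)).add_right z0
      refine h4.trans ?_
      have h5 : (q1 : ℤ) * (u2 * ((z : ℤ) - z0)) + z0 = z + p * (-(u1 * (z - z0))) := by
        linear_combination ((z : ℤ) - z0) * hu
      rw [h5]
      exact Int.ModEq.symm (Int.modEq_iff_dvd.2 ⟨-(u1 * (z - z0)), by ring⟩)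
    have h3 : ((q1 : ℤ) * ((u2 * ((z : ℤ) - z0)) % p) + z0) % p = z := by
      rw [h2]
      exact Int.emod_eq_of_lt (by omega) (by omega)
    rw [h3]
    rfl
  · intro z _
    have h1 := Int.emod_nonneg ((q1 : ℤ) * (z : ℤ) + z0) hp0.ne'
    rw [Int.toNat_of_nonneg h1]
    apply hF'
    exact Int.dvd_self_sub_emod

theorem card_affine {p q1 : ℕ} (hp : 1 ≤ p) (hc : Nat.Coprime q1 p) (z0 : ℤ) (A : ℤ → Prop)
    [DecidablePred A] (hA : ∀ z : ℤ, A (z + p) ↔ A z) :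
    ((range p).filter (fun z : ℕ => A (q1 * (z : ℤ) + z0))).card =
      ((range p).filter (fun z : ℕ => A (z : ℤ))).card := by
  have h1 := sum_affine hp hc z0 (fun z => if A z then (1 : ℂ) else 0) (fun z => by
    simp only [hA z])
  rw [← Finset.sum_filter, ← Finset.sum_filter, sum_const, sum_const, nsmul_eq_mul, mul_one,
    nsmul_eq_mul, mul_one] at h1
  exact_mod_cast h1

theorem eval_dvd_shift (g : ℤ[X]) (p : ℕ) (z : ℤ) :
    ((p : ℤ) ∣ g.eval (z + p)) ↔ ((p : ℤ) ∣ g.eval z) := by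
  apply eval_dvd_congr
  exact ⟨1, by ring⟩

theorem dvd_deriv_fer (f : ℤ[X]) {p q1 : ℕ} (hp : p.Prime) (hc : ¬ p ∣ q1) (z0 z : ℤ) :
    ((p : ℤ) ∣ (derivative (fer f q1 z0)).eval z) ↔
      ((p : ℤ) ∣ (derivative f).eval (q1 * z + z0)) := by
  rw [deriv_fer_eval]
  have hpi : Prime (p : ℤ) := Nat.prime_iff_prime_int.1 hp
  constructor
  · intro h
    rcases hpi.dvd_or_dvd h with h1 | h1
    · exact absurd (by exact_mod_cast h1) hc
    · exact h1
  · intro h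
    exact Dvd.dvd.mul_left h _

theorem dns_fer (f : ℤ[X]) {p q1 : ℕ} (hp : p.Prime) (hc : ¬ p ∣ q1) (z0 : ℤ) :
    dns (fer f q1 z0) p = dns f p := by
  unfold dns
  have h1 := card_affine hp.one_le (((Nat.Prime.coprime_iff_not_dvd hp).2 hc).symm) z0
    (fun z => ¬ (p : ℤ) ∣ (derivative f).eval z) (fun z => by rw [eval_dvd_shift])
  rw [← h1]
  congr 3
  ext z
  rw [mem_filter, mem_filter, dvd_deriv_fer f hp hc]

theorem kN_fer (f : ℤ[X]) {p q1 : ℕ} (hp : p.Prime) (hc : ¬ p ∣ q1) (z0 t : ℤ) :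
    kN (fer f q1 z0) p t = kN f p t := by
  unfold kN
  rw [dns_fer f hp hc]
  have h1 := card_affine hp.one_le (((Nat.Prime.coprime_iff_not_dvd hp).2 hc).symm) z0
    (fun z => ¬ (p : ℤ) ∣ (derivative f).eval z ∧ (p : ℤ) ∣ f.eval z - t) (fun z => by
      have h2 : ∀ x : ℤ, f.eval x - t = (f - C t).eval x := fun x => by simp
      rw [eval_dvd_shift, h2, h2, eval_dvd_shift])
  rw [← h1]
  congr 4
  ext z
  rw [mem_filter, mem_filter, dvd_deriv_fer f hp hc, fer_eval]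

theorem dns_ge (f : ℤ[X]) (p : ℕ) (hp : p.Prime) (hk1 : 1 ≤ f.natDegree) (hkp : f.natDegree < p)
    (hnc : ∃ j : ℕ, 1 ≤ j ∧ ¬ (p : ℤ) ∣ f.coeff j) :
    1 - ((f.natDegree : ℝ) - 1) / p ≤ dns f p := by
  have h1 := H245.sing_card f f.natDegree p hp hk1 rfl hkp hnc
  have h2 := card_filter_add_card_filter_not (s := range p)
    (fun z : ℕ => (p : ℤ) ∣ (derivative f).eval (z : ℤ))
  rw [card_range] at h2
  have hp0 : (0 : ℝ) < p := by exact_mod_cast hp.pos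
  unfold dns
  rw [le_div_iff₀ hp0, sub_mul, div_mul_cancel₀ _ hp0.ne', one_mul]
  have h3 : (((range p).filter (fun z : ℕ => (p : ℤ) ∣ (derivative f).eval (z : ℤ))).card : ℝ) ≤
      (f.natDegree : ℝ) - 1 := by
    have : (((range p).filter (fun z : ℕ => (p : ℤ) ∣ (derivative f).eval (z : ℤ))).card : ℝ) ≤
      ((f.natDegree - 1 : ℕ) : ℝ) := by exact_mod_cast h1
    rw [Nat.cast_sub hk1] at this
    simpa using this
  have h4 : (((range p).filter (fun z : ℕ => (p : ℤ) ∣ (derivative f).eval (z : ℤ))).card : ℝ) +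
      (((range p).filter (fun z : ℕ => ¬ (p : ℤ) ∣ (derivative f).eval (z : ℤ))).card : ℝ) = p := by
    exact_mod_cast h2
  linarith

theorem dns_pos (f : ℤ[X]) (p : ℕ) (hp : p.Prime) (hk1 : 1 ≤ f.natDegree) (hkp : f.natDegree < p)
    (hnc : ∃ j : ℕ, 1 ≤ j ∧ ¬ (p : ℤ) ∣ f.coeff j) : 0 < dns f p := by
  refine lt_of_lt_of_le ?_ (dns_ge f p hp hk1 hkp hnc)
  have hp0 : (0 : ℝ) < p := by exact_mod_cast hp.pos
  rw [sub_pos, div_lt_one hp0]
  have : (f.natDegree : ℝ) < p := by exact_mod_cast hkp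
  linarith

/-- nonsingular residues exist at all primes of `PP` for the substituted polynomial -/
theorem NS_fer (f : ℤ[X]) (q1 : ℕ) (z0 : ℤ) (PP : Finset ℕ) (hk1 : 1 ≤ f.natDegree)
    (h : ∀ p ∈ PP, p.Prime ∧ f.natDegree < p ∧ ¬ p ∣ q1 ∧ ∃ j : ℕ, 1 ≤ j ∧ ¬ (p : ℤ) ∣ f.coeff j) :
    NS (fer f q1 z0) PP := by
  intro p hp
  obtain ⟨h1, h2, h3, h4⟩ := h p hp
  refine ⟨h1, ?_⟩
  rw [dns_fer f h1 h3]
  exact dns_pos f p h1 hk1 h2 h4

/-- a prime outside `T` does not divide the modulus of the substitution -/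
theorem TinyD.not_dvd_q1 {f : ℤ[X]} {T : Finset ℕ} {V : ℕ → ℕ} {q1 : ℕ} {z0 : ℤ}
    (h : TinyD f T V q1 z0) {p : ℕ} (hp : p.Prime) (hpT : p ∉ T) : ¬ p ∣ q1 := by
  intro hd
  apply hpT
  apply h.mem_of_dvd_qnul hp
  unfold qnul
  exact Dvd.dvd.mul_right hd _

/-- nonconstancy mod `p` is inherited -/
theorem nonconst_fer (f : ℤ[X]) {p q1 : ℕ} (hp : p.Prime) (hc : ¬ p ∣ q1) (z0 : ℤ)
    (h : ∃ j : ℕ, 1 ≤ j ∧ ¬ (p : ℤ) ∣ f.coeff j) :
    ∃ j : ℕ, 1 ≤ j ∧ ¬ (p : ℤ) ∣ (fer f q1 z0).coeff j := by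
  by_contra hcon
  push Not at hcon
  obtain ⟨j, hj1, hj⟩ := h
  apply hj
  set k := f.natDegree with hk
  have h3 : f.coeff j = ∑ i ∈ range (k + 1),
      (taylor z0 f).coeff i * ((-z0) ^ (i - j) * (i.choose j : ℤ)) := by
    have h4 : f = taylor (-z0) (taylor z0 f) := by
      rw [taylor_taylor]
      simp
    conv_lhs => rw [h4]
    rw [taylor_coeff_sum, natDegree_taylor]
  rw [h3]
  refine dvd_sum fun i _ => ?_
  by_cases hij : i < j
  · rw [Nat.choose_eq_zero_of_lt hij]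
    simp
  · have h5 := hcon i (by omega)
    rw [fer_coeff] at h5
    have hpi : Prime (p : ℤ) := Nat.prime_iff_prime_int.1 hp
    rcases hpi.dvd_or_dvd h5 with h6 | h6
    · exact Dvd.dvd.mul_right h6 _
    · have := hpi.dvd_of_dvd_pow h6
      exact absurd (by exact_mod_cast this) hc

end Vale.Agent.P042.H74
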