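import Vale.Agent.P042.H74.SeamG
import Vale.Agent.P042.H944.SeamNum

set_option autoImplicit false

/-!
P042, target S: the numbers of the lower bound (arbitrary exponent of the tiny primes).
The first part is `H944.seam_num` with an arbitrary exponent `E`.
-/

namespace Vale.Agent.P042.H74.NumS
open Finset Vale.Agent.P042.H944

/-- the conditions on `l` -/
structure NumE (E : ℕ) (C2 C3 CA c1 c2 C4 l : ℝ) : Prop where
  h1 : 3 ≤ l
  h2 : C3 / c1 ≤ l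
  h3 : 2 * CA / c1 ≤ l
  h4 : 5 * C3 / c2 ≤ l
  h5 : 10 * CA / c2 ≤ l
  h6 : 4 * C2 / c1 * l ^ (E + 1) ≤ Real.exp l
  h7 : (|Real.log C4| + Real.log 2 + 5) / c1 * l ^ 1 ≤ Real.exp l
  h8 : 20 * C2 / c2 * l ^ (E + 2) ≤ Real.exp l
  h9 : 5 * (|Real.log C4| + Real.log 2) / c2 * l ^ 2 ≤ Real.exp l

theorem numE_ev (E : ℕ) (C2 C3 CA c1 c2 C4 : ℝ) : ∃ l0 : ℝ, ∀ l : ℝ, l0 ≤ l → NumE E C2 C3 CA c1 c2 C4 l := by
  have key : ∀ᶠ l : ℝ in Filter.atTop, NumE E C2 C3 CA c1 c2 C4 l := by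
    filter_upwards [Filter.eventually_ge_atTop 3, Filter.eventually_ge_atTop (C3 / c1),
      Filter.eventually_ge_atTop (2 * CA / c1), Filter.eventually_ge_atTop (5 * C3 / c2),
      Filter.eventually_ge_atTop (10 * CA / c2), ev_pow_exp (4 * C2 / c1) (E + 1),
      ev_pow_exp ((|Real.log C4| + Real.log 2 + 5) / c1) 1, ev_pow_exp (20 * C2 / c2) (E + 2),
      ev_pow_exp (5 * (|Real.log C4| + Real.log 2) / c2) 2] with l h1 h2 h3 h4 h5 h6 h7 h8 h9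
    exact ⟨h1, h2, h3, h4, h5, h6, h7, h8, h9⟩
  obtain ⟨l0, hl0⟩ := Filter.eventually_atTop.1 key
  exact ⟨l0, hl0⟩

section
variable {E : ℕ} {C2 C3 CA c1 c2 C4 l : ℝ}

theorem NumE.pos (N : NumE E C2 C3 CA c1 c2 C4 l) : 0 < l := by linarith [N.h1]

theorem NumE.le_pow (N : NumE E C2 C3 CA c1 c2 C4 l) {n : ℕ} (hn : 1 ≤ n) : l ≤ l ^ n := by
  have := N.h1
  calc l = l ^ 1 := (pow_one l).symm
    _ ≤ l ^ n := pow_le_pow_right₀ (by linarith) hn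

theorem NumE.a1 (N : NumE E C2 C3 CA c1 c2 C4 l) (hc1 : 0 < c1) :
    C3 * Real.exp l / l ^ 5 ≤ c1 * Real.exp l / l := by
  have hl := N.pos
  have h := (div_le_iff₀ hc1).1 N.h2
  have h' : C3 ≤ c1 * l ^ 4 := by
    have := mul_le_mul_of_nonneg_left (N.le_pow (n := 4) (by norm_num)) hc1.le
    linarith
  rw [div_le_div_iff₀ (by positivity) hl]
  have : C3 * Real.exp l * l ≤ (c1 * l ^ 4) * Real.exp l * l := by gcongr
  calc _ ≤ _ := this
    _ = _ := by ring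

theorem NumE.a2 (N : NumE E C2 C3 CA c1 c2 C4 l) (hc1 : 0 < c1) :
    2 * CA * Real.exp l / l ^ 3 ≤ c1 * Real.exp l / l := by
  have hl := N.pos
  have h := (div_le_iff₀ hc1).1 N.h3
  have h' : 2 * CA ≤ c1 * l ^ 2 := by
    have := mul_le_mul_of_nonneg_left (N.le_pow (n := 2) (by norm_num)) hc1.le
    linarith
  rw [div_le_div_iff₀ (by positivity) hl]
  have : 2 * CA * Real.exp l * l ≤ (c1 * l ^ 2) * Real.exp l * l := by gcongr
  calc _ ≤ _ := this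
    _ = _ := by ring

theorem NumE.a3 (N : NumE E C2 C3 CA c1 c2 C4 l) (hc1 : 0 < c1) :
    4 * C2 * l ^ E ≤ c1 * Real.exp l / l := by
  have hl := N.pos
  rw [le_div_iff₀ hl]
  have h := mul_le_mul_of_nonneg_left N.h6 hc1.le
  calc 4 * C2 * l ^ E * l = c1 * (4 * C2 / c1 * l ^ (E + 1)) := by
        field_simp
        ring
    _ ≤ c1 * Real.exp l := h

theorem NumE.a4 (N : NumE E C2 C3 CA c1 c2 C4 l) (hc1 : 0 < c1) :
    |Real.log C4| + Real.log 2 + 5 ≤ c1 * Real.exp l / l := by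
  have hl := N.pos
  rw [le_div_iff₀ hl]
  have h := mul_le_mul_of_nonneg_left N.h7 hc1.le
  calc (|Real.log C4| + Real.log 2 + 5) * l
      = c1 * ((|Real.log C4| + Real.log 2 + 5) / c1 * l ^ 1) := by field_simp
    _ ≤ c1 * Real.exp l := h

theorem NumE.b1 (N : NumE E C2 C3 CA c1 c2 C4 l) (hc2 : 0 < c2) :
    C3 * Real.exp l / l ^ 10 ≤ c2 * Real.exp l / l ^ 2 / 5 := by
  have hl := N.pos
  have h := (div_le_iff₀ hc2).1 N.h4
  have h' : 5 * C3 ≤ c2 * l ^ 8 := by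
    have := mul_le_mul_of_nonneg_left (N.le_pow (n := 8) (by norm_num)) hc2.le
    linarith
  rw [div_div, div_le_div_iff₀ (by positivity) (by positivity)]
  have : 5 * C3 * Real.exp l * l ^ 2 ≤ (c2 * l ^ 8) * Real.exp l * l ^ 2 := by gcongr
  calc C3 * Real.exp l * (l ^ 2 * 5) = 5 * C3 * Real.exp l * l ^ 2 := by ring
    _ ≤ _ := this
    _ = _ := by ring

theorem NumE.b2 (N : NumE E C2 C3 CA c1 c2 C4 l) (hc2 : 0 < c2) :
    2 * CA * Real.exp l / l ^ 3 ≤ c2 * Real.exp l / l ^ 2 / 5 := by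
  have hl := N.pos
  have h := (div_le_iff₀ hc2).1 N.h5
  rw [div_div, div_le_div_iff₀ (by positivity) (by positivity)]
  have : (10 * CA) * Real.exp l * l ^ 2 ≤ (l * c2) * Real.exp l * l ^ 2 := by gcongr
  calc 2 * CA * Real.exp l * (l ^ 2 * 5) = (10 * CA) * Real.exp l * l ^ 2 := by ring
    _ ≤ _ := this
    _ = _ := by ring

theorem NumE.b3 (N : NumE E C2 C3 CA c1 c2 C4 l) (hc2 : 0 < c2) :
    4 * C2 * l ^ E ≤ c2 * Real.exp l / l ^ 2 / 5 := by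
  have hl := N.pos
  rw [div_div, le_div_iff₀ (by positivity)]
  have h := mul_le_mul_of_nonneg_left N.h8 hc2.le
  calc 4 * C2 * l ^ E * (l ^ 2 * 5) = c2 * (20 * C2 / c2 * l ^ (E + 2)) := by field_simp; ring
    _ ≤ c2 * Real.exp l := h

theorem NumE.b4 (N : NumE E C2 C3 CA c1 c2 C4 l) (hc2 : 0 < c2) :
    |Real.log C4| + Real.log 2 ≤ c2 * Real.exp l / l ^ 2 / 5 := by
  have hl := N.pos
  rw [div_div, le_div_iff₀ (by positivity)]
  have h := mul_le_mul_of_nonneg_left N.h9 hc2.le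
  calc (|Real.log C4| + Real.log 2) * (l ^ 2 * 5)
      = c2 * (5 * (|Real.log C4| + Real.log 2) / c2 * l ^ 2) := by field_simp
    _ ≤ c2 * Real.exp l := h

theorem NumE.rankin (N : NumE E C2 C3 CA c1 c2 C4 l) {m0 : ℕ}
    (hm : c1 * Real.exp l / l ≤ m0 + 1) :
    (l ^ 5)⁻¹ ^ m0 ≤ Real.exp (-(5 * (c1 * Real.exp l / l) - 5)) := by
  have hl := N.pos
  have hlog : 1 ≤ Real.log l := by
    rw [Real.le_log_iff_exp_le hl]
    exact (Real.exp_one_lt_d9.le.trans (by norm_num)).trans N.h1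
  have h0 : (l ^ 5)⁻¹ = Real.exp (-(5 * Real.log l)) := by
    rw [Real.exp_neg]
    congr 1
    rw [mul_comm, Real.exp_mul, Real.exp_log hl]
    norm_cast
  rw [h0, ← Real.exp_nat_mul, Real.exp_le_exp]
  have h8' : (m0 : ℝ) * 1 ≤ m0 * Real.log l := mul_le_mul_of_nonneg_left hlog (by positivity)
  have h9' : (m0 : ℝ) * -(5 * Real.log l) = -(5 * (m0 * Real.log l)) := by ring
  rw [h9']
  linarith

/-- first part of the error -/
theorem NumE.t1 (N : NumE E C2 C3 CA c1 c2 C4 l) (hc1 : 0 < c1) (hC4 : 0 < C4) {m0 : ℕ}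
    {S A qn : ℝ} (hS : S ≤ C3 * Real.exp l / l ^ 10) (hA0 : 0 ≤ A)
    (hA : A ≤ Real.exp (CA * Real.exp l / l ^ 3)) (hq1 : 1 ≤ qn)
    (hq : qn ≤ Real.exp (C2 * l ^ E)) (hm : c1 * Real.exp l / l ≤ m0 + 1) :
    C4 * qn ^ 4 * A ^ 2 * ((l ^ 5)⁻¹ ^ m0 * Real.exp (l ^ 5 * S)) ≤ 1 / 2 := by
  have hl := N.pos
  have hC4e : C4 ≤ Real.exp |Real.log C4| := by
    calc C4 = Real.exp (Real.log C4) := (Real.exp_log hC4).symm
      _ ≤ _ := Real.exp_le_exp.2 (le_abs_self _)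
  have hq4 : qn ^ 4 ≤ Real.exp (4 * C2 * l ^ E) := by
    have h := pow_le_pow_left₀ (by linarith) hq 4
    rw [← Real.exp_nat_mul] at h
    refine h.trans (le_of_eq ?_)
    congr 1
    push_cast
    ring
  have hA2 : A ^ 2 ≤ Real.exp (2 * CA * Real.exp l / l ^ 3) := by
    have h := pow_le_pow_left₀ hA0 hA 2
    rw [← Real.exp_nat_mul] at h
    refine h.trans (le_of_eq ?_)
    congr 1
    push_cast
    ring
  have hR := N.rankin hm
  have hexp1 : Real.exp (l ^ 5 * S) ≤ Real.exp (C3 * Real.exp l / l ^ 5) := by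
    rw [Real.exp_le_exp]
    have h := mul_le_mul_of_nonneg_left hS (show 0 ≤ l ^ 5 by positivity)
    refine h.trans (le_of_eq ?_)
    field_simp
  have hp : 0 ≤ (l ^ 5)⁻¹ ^ m0 := by positivity
  calc C4 * qn ^ 4 * A ^ 2 * ((l ^ 5)⁻¹ ^ m0 * Real.exp (l ^ 5 * S))
      ≤ Real.exp |Real.log C4| * Real.exp (4 * C2 * l ^ E) *
        Real.exp (2 * CA * Real.exp l / l ^ 3) *
        (Real.exp (-(5 * (c1 * Real.exp l / l) - 5)) * Real.exp (C3 * Real.exp l / l ^ 5)) := by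
        gcongr
    _ = Real.exp (|Real.log C4| + 4 * C2 * l ^ E + 2 * CA * Real.exp l / l ^ 3 +
        (-(5 * (c1 * Real.exp l / l) - 5) + C3 * Real.exp l / l ^ 5)) := by
        rw [Real.exp_add, Real.exp_add, Real.exp_add, Real.exp_add]
    _ ≤ Real.exp (-Real.log 2) := by
        rw [Real.exp_le_exp]
        have h1 := N.a1 hc1
        have h2 := N.a2 hc1
        have h3 := N.a3 hc1
        have h4 := N.a4 hc1
        have h10 : 0 < c1 * Real.exp l / l := by positivity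
        linarith
    _ = 1 / 2 := by
        rw [Real.exp_neg, Real.exp_log (by norm_num)]
        norm_num

/-- second part of the error -/
theorem NumE.t2 (N : NumE E C2 C3 CA c1 c2 C4 l) (hc2 : 0 < c2) (hC4 : 0 < C4)
    {S A qn δ : ℝ} (hS : S ≤ C3 * Real.exp l / l ^ 10) (hA0 : 0 ≤ A)
    (hA : A ≤ Real.exp (CA * Real.exp l / l ^ 3)) (hq1 : 1 ≤ qn)
    (hq : qn ≤ Real.exp (C2 * l ^ E)) (hδ0 : 0 ≤ δ)
    (hδ : δ ≤ Real.exp (-(c2 * Real.exp l / l ^ 2))) :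
    C4 * qn ^ 4 * A ^ 2 * (δ * Real.exp S) ≤ 1 / 2 := by
  have hl := N.pos
  have hC4e : C4 ≤ Real.exp |Real.log C4| := by
    calc C4 = Real.exp (Real.log C4) := (Real.exp_log hC4).symm
      _ ≤ _ := Real.exp_le_exp.2 (le_abs_self _)
  have hq4 : qn ^ 4 ≤ Real.exp (4 * C2 * l ^ E) := by
    have h := pow_le_pow_left₀ (by linarith) hq 4
    rw [← Real.exp_nat_mul] at h
    refine h.trans (le_of_eq ?_)
    congr 1
    push_cast
    ring
  have hA2 : A ^ 2 ≤ Real.exp (2 * CA * Real.exp l / l ^ 3) := by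
    have h := pow_le_pow_left₀ hA0 hA 2
    rw [← Real.exp_nat_mul] at h
    refine h.trans (le_of_eq ?_)
    congr 1
    push_cast
    ring
  have hexp2 : Real.exp S ≤ Real.exp (C3 * Real.exp l / l ^ 10) := Real.exp_le_exp.2 hS
  calc C4 * qn ^ 4 * A ^ 2 * (δ * Real.exp S)
      ≤ Real.exp |Real.log C4| * Real.exp (4 * C2 * l ^ E) *
        Real.exp (2 * CA * Real.exp l / l ^ 3) *
        (Real.exp (-(c2 * Real.exp l / l ^ 2)) * Real.exp (C3 * Real.exp l / l ^ 10)) := by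
        gcongr
    _ = Real.exp (|Real.log C4| + 4 * C2 * l ^ E + 2 * CA * Real.exp l / l ^ 3 +
        (-(c2 * Real.exp l / l ^ 2) + C3 * Real.exp l / l ^ 10)) := by
        rw [Real.exp_add, Real.exp_add, Real.exp_add, Real.exp_add]
    _ ≤ Real.exp (-Real.log 2) := by
        rw [Real.exp_le_exp]
        have h1 := N.b1 hc2
        have h2 := N.b2 hc2
        have h3 := N.b3 hc2
        have h4 := N.b4 hc2
        have h10 : 0 < c2 * Real.exp l / l ^ 2 := by positivity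
        linarith
    _ = 1 / 2 := by
        rw [Real.exp_neg, Real.exp_log (by norm_num)]
        norm_num

end

/-- **numbers of the seam** -/
theorem seam_numE (E : ℕ) (C2 C3 CA c1 c2 C4 : ℝ) (hc1 : 0 < c1) (hc2 : 0 < c2) (hC4 : 0 < C4) :
    ∃ l0 : ℝ, ∀ l : ℝ, l0 ≤ l → ∀ (m0 : ℕ) (S A qn δ : ℝ), 0 ≤ S → S ≤ C3 * Real.exp l / l ^ 10 →
      0 ≤ A → A ≤ Real.exp (CA * Real.exp l / l ^ 3) → 1 ≤ qn → qn ≤ Real.exp (C2 * l ^ E) →
      c1 * Real.exp l / l ≤ m0 + 1 → 0 ≤ δ → δ ≤ Real.exp (-(c2 * Real.exp l / l ^ 2)) →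
      C4 * qn ^ 4 * A ^ 2 * ((l ^ 5)⁻¹ ^ m0 * Real.exp (l ^ 5 * S) + δ * Real.exp S) ≤ 1 := by
  obtain ⟨l0, hl0⟩ := numE_ev E C2 C3 CA c1 c2 C4
  refine ⟨l0, fun l hl m0 S A qn δ _ hS hA0 hA hq1 hq hm hδ0 hδ => ?_⟩
  have N := hl0 l hl
  have t1 := N.t1 hc1 hC4 hS hA0 hA hq1 hq hm
  have t2 := N.t2 hc2 hC4 hS hA0 hA hq1 hq hδ0 hδ
  rw [mul_add]
  linarith


/-- polynomial terms are small -/
theorem ev_le (a b : ℝ) (n : ℕ) (hb : 0 < b) :
    ∀ᶠ l : ℝ in Filter.atTop, a * l ^ n ≤ b * Real.exp l := by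
  filter_upwards [ev_pow_exp (a / b) n] with l h
  have h1 := mul_le_mul_of_nonneg_left h hb.le
  calc a * l ^ n = b * (a / b * l ^ n) := by field_simp
    _ ≤ _ := h1

theorem ev_div (a b : ℝ) (n : ℕ) (hb : 0 < b) (hn : 1 ≤ n) :
    ∀ᶠ l : ℝ in Filter.atTop, a * Real.exp l / l ^ n ≤ b * Real.exp l := by
  filter_upwards [Filter.eventually_ge_atTop (a / b), Filter.eventually_ge_atTop 1] with l h h1
  have hl : 0 < l := by linarith
  have h2 : a ≤ b * l := by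
    rw [div_le_iff₀ hb] at h
    linarith
  have h3 : l ≤ l ^ n := by
    calc l = l ^ 1 := (pow_one l).symm
      _ ≤ l ^ n := pow_le_pow_right₀ h1 hn
  rw [div_le_iff₀ (by positivity)]
  have h4 : b * l ≤ b * l ^ n := mul_le_mul_of_nonneg_left h3 hb.le
  have h5 := mul_le_mul_of_nonneg_right (h2.trans h4) (Real.exp_pos l).le
  linarith

/-- **the moduli of the seam fit** -/
theorem hQ_num (E : ℕ) (C2 thQ : ℝ) (hthQ : 0 < thQ) :
    ∃ l0 : ℝ, ∀ l : ℝ, l0 ≤ l → ∀ (m0 Y0 M0 qn : ℕ), (Y0 : ℝ) ≤ Real.exp (2 * l * m0) →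
      2 * l * m0 ≤ thQ / 2 * Real.exp l → (M0 : ℝ) ≤ Real.exp (Real.exp l / l ^ 2) →
      (qn : ℝ) ≤ Real.exp (C2 * l ^ E) → Y0 * M0 * qn ≤ ⌊Real.exp (thQ * Real.exp l)⌋₊ := by
  have key : ∀ᶠ l : ℝ in Filter.atTop, 1 * Real.exp l / l ^ 2 ≤ thQ / 4 * Real.exp l ∧
      C2 * l ^ E ≤ thQ / 4 * Real.exp l :=
    (ev_div 1 (thQ / 4) 2 (by positivity) (by norm_num)).and (ev_le C2 (thQ / 4) E (by positivity))
  obtain ⟨l0, hl0⟩ := Filter.eventually_atTop.1 key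
  refine ⟨l0, fun l hl m0 Y0 M0 qn hY hm hM hq => ?_⟩
  obtain ⟨h1, h2⟩ := hl0 l hl
  rw [one_mul] at h1
  apply Nat.le_floor
  push_cast
  calc (Y0 : ℝ) * M0 * qn ≤ Real.exp (2 * l * m0) * Real.exp (Real.exp l / l ^ 2) *
        Real.exp (C2 * l ^ E) := by gcongr
    _ = Real.exp (2 * l * m0 + Real.exp l / l ^ 2 + C2 * l ^ E) := by
        rw [Real.exp_add, Real.exp_add]
    _ ≤ Real.exp (thQ * Real.exp l) := by
        apply Real.exp_le_exp.2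
        linarith

/-- the fourth power of the largest modulus -/
theorem Q4_num {κ thQ P : ℝ} {N' : ℕ} (hκ : κ ≤ 1 / 8) (hthQ : thQ ≤ 1 / 16) (hP : 0 ≤ P)
    (hN : Real.exp ((1 - κ) * P) ≤ N') : ⌊Real.exp (thQ * P)⌋₊ ^ 4 ≤ N' := by
  have h1 : ((⌊Real.exp (thQ * P)⌋₊ ^ 4 : ℕ) : ℝ) ≤ N' := by
    push_cast
    calc (⌊Real.exp (thQ * P)⌋₊ : ℝ) ^ 4 ≤ Real.exp (thQ * P) ^ 4 := by
          gcongr
          exact Nat.floor_le (Real.exp_pos _).le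
      _ = Real.exp (4 * (thQ * P)) := by
          rw [← Real.exp_nat_mul]
          norm_num
      _ ≤ Real.exp ((1 - κ) * P) := by
          apply Real.exp_le_exp.2
          nlinarith
      _ ≤ N' := hN
  exact_mod_cast h1

theorem Q1_num {thQ P : ℝ} (hthQ : 0 ≤ thQ) (hP : 0 ≤ P) : 1 ≤ ⌊Real.exp (thQ * P)⌋₊ := by
  apply Nat.le_floor
  rw [Nat.cast_one]
  exact Real.one_le_exp (mul_nonneg hthQ hP)

/-- products of at most `m0` primes fit in the interval -/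
theorem Y0_le {Y0 M0 qn Q N' : ℕ} (h : Y0 * M0 * qn ≤ Q) (hM0 : 1 ≤ M0) (hqn : 1 ≤ qn)
    (hQ : Q ^ 4 ≤ N') : Y0 ≤ N' := by
  have h1 : Y0 ≤ Y0 * M0 * qn := by
    rw [mul_assoc]
    exact Nat.le_mul_of_pos_right _ (Nat.mul_pos hM0 hqn)
  have h2 : Q ≤ Q ^ 4 := Nat.le_self_pow (by norm_num) Q
  omega

/-- **the hypothesis `hlow` of `lowat_of`** -/
theorem low_num (E : ℕ) (C2 c0 κ0 : ℝ) (hc0 : 0 < c0) (hκ0 : 0 < κ0) :
    ∃ l0 : ℝ, ∀ l : ℝ, l0 ≤ l → ∀ (N' : ℕ) (qn dn mm : ℝ), 1 ≤ qn →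
      qn ≤ Real.exp (C2 * l ^ E) → Real.exp (-(κ0 / 4 * Real.exp l)) ≤ dn →
      (c0 * N' / qn) ^ 2 ≤ mm →
      Real.exp (-(κ0 * Real.exp l)) * (N' : ℝ) ^ 2 ≤ dn * (qn * (1 / 16 * mm)) := by
  have key : ∀ᶠ l : ℝ in Filter.atTop, |Real.log (16 / c0 ^ 2)| * l ^ 0 ≤ κ0 / 4 * Real.exp l ∧
      C2 * l ^ E ≤ κ0 / 4 * Real.exp l :=
    (ev_le _ (κ0 / 4) 0 (by positivity)).and (ev_le C2 (κ0 / 4) E (by positivity))
  obtain ⟨l0, hl0⟩ := Filter.eventually_atTop.1 key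
  refine ⟨l0, fun l hl N' qn dn mm hq1 hq hdn hmm => ?_⟩
  obtain ⟨h1, h2⟩ := hl0 l hl
  rw [pow_zero, mul_one] at h1
  have hq0 : 0 < qn := by linarith
  have h3 : 16 / c0 ^ 2 ≤ Real.exp (κ0 / 4 * Real.exp l) := by
    calc 16 / c0 ^ 2 = Real.exp (Real.log (16 / c0 ^ 2)) := (Real.exp_log (by positivity)).symm
      _ ≤ _ := Real.exp_le_exp.2 ((le_abs_self _).trans h1)
  have h4 : Real.exp (-(κ0 * Real.exp l)) * (16 / c0 ^ 2) * qn ≤
      Real.exp (-(κ0 / 4 * Real.exp l)) := by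
    calc Real.exp (-(κ0 * Real.exp l)) * (16 / c0 ^ 2) * qn
        ≤ Real.exp (-(κ0 * Real.exp l)) * Real.exp (κ0 / 4 * Real.exp l) *
          Real.exp (κ0 / 4 * Real.exp l) := by
          gcongr
          exact hq.trans (Real.exp_le_exp.2 h2)
      _ = Real.exp (-(κ0 * Real.exp l) + κ0 / 4 * Real.exp l + κ0 / 4 * Real.exp l) := by
          rw [Real.exp_add, Real.exp_add]
      _ ≤ Real.exp (-(κ0 / 4 * Real.exp l)) := by
          apply Real.exp_le_exp.2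
          have := Real.exp_pos l
          nlinarith [mul_pos hκ0 this]
  have h5 : qn * (1 / 16 * (c0 * N' / qn) ^ 2) ≤ qn * (1 / 16 * mm) := by gcongr
  have h6 : 0 ≤ qn * (1 / 16 * (c0 * N' / qn) ^ 2) := by positivity
  calc Real.exp (-(κ0 * Real.exp l)) * (N' : ℝ) ^ 2
      = (Real.exp (-(κ0 * Real.exp l)) * (16 / c0 ^ 2) * qn) *
        (qn * (1 / 16 * (c0 * N' / qn) ^ 2)) := by
        field_simp
    _ ≤ Real.exp (-(κ0 / 4 * Real.exp l)) * (qn * (1 / 16 * (c0 * N' / qn) ^ 2)) :=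
        mul_le_mul_of_nonneg_right h4 h6
    _ ≤ dn * (qn * (1 / 16 * mm)) := mul_le_mul hdn h5 h6 ((Real.exp_pos _).le.trans hdn)

/-- **the hypothesis `herr` of `lowat_of`**, `R = l ^ 5` -/
theorem err_num (E : ℕ) (C2 C3 CA c1 c2 c0 : ℝ) (hc1 : 0 < c1) (hc2 : 0 < c2) (hc0 : 0 < c0) :
    ∃ l0 : ℝ, ∀ l : ℝ, l0 ≤ l → ∀ (m0 N' : ℕ) (S A qn δ mm : ℝ), 0 ≤ S →
      S ≤ C3 * Real.exp l / l ^ 10 → 0 ≤ A → A ≤ Real.exp (CA * Real.exp l / l ^ 3) → 1 ≤ qn →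
      qn ≤ Real.exp (C2 * l ^ E) → c1 * Real.exp l / l ≤ m0 + 1 → 0 ≤ δ →
      δ ≤ Real.exp (-(c2 * Real.exp l / l ^ 2)) → (c0 * N' / qn) ^ 2 ≤ mm →
      4 * (N' : ℝ) ^ 2 * A ^ 2 * ((l ^ 5)⁻¹ ^ m0 * Real.exp (l ^ 5 * S) + δ * Real.exp S) ≤
        1 / 16 * mm := by
  obtain ⟨l0, hl0⟩ := seam_numE E C2 C3 CA c1 c2 (64 / c0 ^ 2) hc1 hc2 (by positivity)
  refine ⟨max l0 1, fun l hl m0 N' S A qn δ mm hS0 hS hA0 hA hq1 hq hm hδ0 hδ hmm => ?_⟩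
  have h1 := hl0 l ((le_max_left _ _).trans hl) m0 S A qn δ hS0 hS hA0 hA hq1 hq hm hδ0 hδ
  have hl1 : (0 : ℝ) < l := lt_of_lt_of_le one_pos ((le_max_right _ _).trans hl)
  have hq0 : 0 < qn := by linarith
  set X := (l ^ 5)⁻¹ ^ m0 * Real.exp (l ^ 5 * S) + δ * Real.exp S with hX
  have hX0 : 0 ≤ X := by rw [hX]; positivity
  have h2 : 64 / c0 ^ 2 * qn ^ 2 * A ^ 2 * X ≤ 1 := by
    refine le_trans ?_ h1
    gcongr
    norm_num
  calc 4 * (N' : ℝ) ^ 2 * A ^ 2 * X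
      = (1 / 16 * (c0 * N' / qn) ^ 2) * (64 / c0 ^ 2 * qn ^ 2 * A ^ 2 * X) := by
        field_simp
        ring
    _ ≤ (1 / 16 * (c0 * N' / qn) ^ 2) * 1 := by gcongr
    _ ≤ 1 / 16 * mm := by linarith

/-- **the hypothesis `hsq` of `lowat_of`** -/
theorem sq_num (C3 CA κ0 : ℝ) (hκ0 : 0 < κ0) :
    ∃ l0 : ℝ, ∀ l : ℝ, l0 ≤ l → ∀ (N' : ℕ) (S A : ℝ), S ≤ C3 * Real.exp l / l ^ 10 → 0 ≤ A →
      A ≤ Real.exp (CA * Real.exp l / l ^ 3) →
      A ^ 2 * (2 * N' * Real.exp (2 * S)) ≤ Real.exp (κ0 * Real.exp l) * N' := by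
  have key : ∀ᶠ l : ℝ in Filter.atTop, Real.log 2 * l ^ 0 ≤ κ0 / 4 * Real.exp l ∧
      CA * Real.exp l / l ^ 3 ≤ κ0 / 8 * Real.exp l ∧
      C3 * Real.exp l / l ^ 10 ≤ κ0 / 8 * Real.exp l :=
    (ev_le _ (κ0 / 4) 0 (by positivity)).and ((ev_div CA (κ0 / 8) 3 (by positivity)
      (by norm_num)).and (ev_div C3 (κ0 / 8) 10 (by positivity) (by norm_num)))
  obtain ⟨l0, hl0⟩ := Filter.eventually_atTop.1 key
  refine ⟨l0, fun l hl N' S A hS hA0 hA => ?_⟩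
  obtain ⟨h1, h2, h3⟩ := hl0 l hl
  rw [pow_zero, mul_one] at h1
  have h4 : A ^ 2 ≤ Real.exp (2 * (κ0 / 8 * Real.exp l)) := by
    calc A ^ 2 ≤ Real.exp (κ0 / 8 * Real.exp l) ^ 2 := by
          gcongr
          exact hA.trans (Real.exp_le_exp.2 h2)
      _ = _ := by
          rw [← Real.exp_nat_mul]
          norm_num
  have h5 : Real.exp (2 * S) ≤ Real.exp (2 * (κ0 / 8 * Real.exp l)) :=
    Real.exp_le_exp.2 (by linarith)
  have h6 : (2 : ℝ) ≤ Real.exp (κ0 / 4 * Real.exp l) := by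
    calc (2 : ℝ) = Real.exp (Real.log 2) := (Real.exp_log (by norm_num)).symm
      _ ≤ _ := Real.exp_le_exp.2 h1
  calc A ^ 2 * (2 * N' * Real.exp (2 * S))
      ≤ Real.exp (2 * (κ0 / 8 * Real.exp l)) * (Real.exp (κ0 / 4 * Real.exp l) * N' *
        Real.exp (2 * (κ0 / 8 * Real.exp l))) := by gcongr
    _ = Real.exp (2 * (κ0 / 8 * Real.exp l) + κ0 / 4 * Real.exp l +
        2 * (κ0 / 8 * Real.exp l)) * N' := by
        rw [Real.exp_add, Real.exp_add]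
        ring
    _ ≤ Real.exp (κ0 * Real.exp l) * N' := by
        gcongr
        have := Real.exp_pos l
        nlinarith [mul_pos hκ0 this]

/-- the rate at the moduli above `M0 = ⌊exp (P / l ^ 2)⌋` -/
theorem delta_num (c X : ℝ) (hc : 0 ≤ c) (m : ℕ) (hm : ⌊Real.exp X⌋₊ < m) :
    (m : ℝ) ^ (-c) ≤ Real.exp (-(c * X)) := by
  have h1 : Real.exp X < m := (Nat.floor_lt (Real.exp_pos _).le).1 hm
  calc (m : ℝ) ^ (-c) ≤ (Real.exp X) ^ (-c) :=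
        Real.rpow_le_rpow_of_nonpos (Real.exp_pos _) h1.le (by linarith)
    _ = Real.exp (-(c * X)) := by
        rw [← Real.exp_mul]
        congr 1
        ring

/-- total rate of the primes up to `exp (2 l) / l ^ A'`, `20 ≤ A'` -/
theorem sum_rateE {ι : Type*} [Fintype ι] (prm : ι → ℕ) (hinj : Function.Injective prm)
    (hpos : ∀ i, 1 ≤ prm i) (l : ℝ) (hl : 1 ≤ l) (A' : ℕ) (hA : 20 ≤ A')
    (hle : ∀ i, (prm i : ℝ) ≤ Real.exp (2 * l) / l ^ A') (K : ℝ) (hK : 0 ≤ K) :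
    ∑ i, K / Real.sqrt (prm i) ≤ 2 * K * Real.exp l / l ^ 10 := by
  have h1 := sum_rate prm hinj hpos l (by linarith) (fun i => (hle i).trans (by gcongr))
  calc ∑ i, K / Real.sqrt (prm i) = K * ∑ i, 1 / Real.sqrt (prm i) := by
        rw [mul_sum]
        exact sum_congr rfl fun i _ => by ring
    _ ≤ K * (2 * Real.exp l / l ^ 10) := mul_le_mul_of_nonneg_left h1 hK
    _ = _ := by ring

/-- the cap of the state -/
theorem cap_num (C : ℕ) (hC : 3 ≤ C) :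
    ∃ l0 : ℝ, ∀ l : ℝ, l0 ≤ l → 50 * (Real.exp l / l ^ C) + 1 ≤ 51 * Real.exp l / l ^ 3 := by
  obtain ⟨l0, hl0⟩ := Filter.eventually_atTop.1 ((ev_pow_exp 1 3).and
    (Filter.eventually_ge_atTop 1))
  refine ⟨l0, fun l hl => ?_⟩
  obtain ⟨h1, h2⟩ := hl0 l hl
  have hl1 : 0 < l := by linarith
  have h3 : Real.exp l / l ^ C ≤ Real.exp l / l ^ 3 := by gcongr
  have h4 : 1 ≤ Real.exp l / l ^ 3 := by
    rw [le_div_iff₀ (by positivity)]
    linarith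
  have h5 : 51 * Real.exp l / l ^ 3 = 50 * (Real.exp l / l ^ 3) + Real.exp l / l ^ 3 := by ring
  rw [h5]
  linarith

end Vale.Agent.P042.H74.NumS
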