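import Vale.Agent.P042.H74.Tiny2
import Mathlib.NumberTheory.Harmonic.Bounds
import Mathlib.Analysis.SpecialFunctions.Pow.Asymptotics
import Mathlib.Analysis.SpecialFunctions.Log.Deriv

set_option autoImplicit false

/-!
P042: the product of the densities of nonsingular residues is not too small.
-/

namespace Vale.Agent.P042.H74
open Polynomial Finset

theorem dns_le_one (f : ℤ[X]) (p : ℕ) : dns f p ≤ 1 := by
  unfold dns
  apply div_le_one_of_le₀ _ (Nat.cast_nonneg _)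
  have h := card_filter_le (range p) (fun z : ℕ => ¬ (p : ℤ) ∣ (derivative f).eval (z : ℤ))
  rw [card_range] at h
  exact_mod_cast h

theorem dns_nonneg (f : ℤ[X]) (p : ℕ) : 0 ≤ dns f p := by
  unfold dns
  positivity

/-- exponential form of the density bound -/
theorem dns_ge_exp (f : ℤ[X]) (p : ℕ) (hp : p.Prime) (hkp : f.natDegree < p)
    (hnc : ∃ j : ℕ, 1 ≤ j ∧ ¬ (p : ℤ) ∣ f.coeff j) :
    Real.exp (-((f.natDegree : ℝ) ^ 2 * (1 / p))) ≤ dns f p := by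
  have hk1 : 1 ≤ f.natDegree := by
    obtain ⟨j, hj1, hj⟩ := hnc
    have hne : f.coeff j ≠ 0 := by
      intro h0
      exact hj (h0 ▸ dvd_zero _)
    exact hj1.trans (le_natDegree_of_ne_zero hne)
  have h1 := dns_ge f p hp hk1 hkp hnc
  refine le_trans ?_ h1
  set k : ℝ := (f.natDegree : ℝ) with hk
  have hk1' : (1 : ℝ) ≤ k := by
    rw [hk]
    exact_mod_cast hk1
  have hp1 : k + 1 ≤ (p : ℝ) := by
    rw [hk]
    exact_mod_cast hkp
  have hp0 : (0 : ℝ) < p := by linarith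
  have hy : 0 < 1 - (k - 1) / p := by
    rw [sub_pos, div_lt_one hp0]
    linarith
  rw [← Real.le_log_iff_exp_le hy]
  have h2 := Real.one_sub_inv_le_log_of_pos hy
  refine le_trans ?_ h2
  have h3 : 1 - (k - 1) / p = (p - (k - 1)) / p := by field_simp
  rw [h3, inv_div]
  have h4 : (0 : ℝ) < p - (k - 1) := by linarith
  have h5 : 1 - (p : ℝ) / (p - (k - 1)) = -((k - 1) / (p - (k - 1))) := by
    field_simp
    ring
  rw [h5]
  apply neg_le_neg
  rw [mul_one_div, div_le_div_iff₀ h4 hp0]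
  nlinarith [mul_nonneg (sub_nonneg.2 hk1') (sub_nonneg.2 hp1), mul_nonneg (sub_nonneg.2 hk1') (sub_nonneg.2 hk1'),
    mul_nonneg (mul_nonneg (sub_nonneg.2 hk1') (sub_nonneg.2 hk1')) (sub_nonneg.2 hp1)]

/-- the product of the densities is at least `exp(-k^2 (1 + C1 log P))` -/
theorem prod_dns_ge_aux (f : ℤ[X]) (PP : Finset ℕ) (C1 P : ℝ) (hP : 1 ≤ P) (hC1 : 0 ≤ C1)
    (h : ∀ p ∈ PP, p.Prime ∧ f.natDegree < p ∧ (∃ j : ℕ, 1 ≤ j ∧ ¬ (p : ℤ) ∣ f.coeff j) ∧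
      (p : ℝ) ≤ P ^ C1) :
    Real.exp (-((f.natDegree : ℝ) ^ 2 * (1 + C1 * Real.log P))) ≤ ∏ p ∈ PP, dns f p := by
  have h1 : Real.exp (-((f.natDegree : ℝ) ^ 2 * ∑ p ∈ PP, (1 / (p : ℝ)))) ≤ ∏ p ∈ PP, dns f p := by
    rw [mul_sum, ← sum_neg_distrib, Real.exp_sum]
    apply prod_le_prod
    · intro p _
      exact (Real.exp_pos _).le
    · intro p hp
      obtain ⟨h2, h3, h4, -⟩ := h p hp
      exact dns_ge_exp f p h2 h3 h4
  refine le_trans ?_ h1
  apply Real.exp_le_exp.2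
  apply neg_le_neg
  apply mul_le_mul_of_nonneg_left _ (sq_nonneg _)
  have hX1 : (1 : ℝ) ≤ P ^ C1 := Real.one_le_rpow hP hC1
  have h2 : PP ⊆ Icc 1 ⌊P ^ C1⌋₊ := by
    intro p hp
    obtain ⟨h2, -, -, h5⟩ := h p hp
    rw [mem_Icc]
    exact ⟨h2.one_le, Nat.le_floor h5⟩
  calc ∑ p ∈ PP, (1 / (p : ℝ)) ≤ ∑ p ∈ Icc 1 ⌊P ^ C1⌋₊, (1 / (p : ℝ)) :=
        sum_le_sum_of_subset_of_nonneg h2 (fun p _ _ => by positivity)
    _ = ((harmonic ⌊P ^ C1⌋₊ : ℚ) : ℝ) := by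
        rw [harmonic_eq_sum_Icc]
        push_cast
        apply sum_congr rfl
        intro p _
        rw [one_div]
    _ ≤ 1 + Real.log (P ^ C1) := harmonic_floor_le_one_add_log _ hX1
    _ = 1 + C1 * Real.log P := by rw [Real.log_rpow (by linarith)]

theorem log_small (A B κ : ℝ) (hκ : 0 < κ) :
    ∃ P0 : ℝ, ∀ P : ℝ, P0 ≤ P → 1 ≤ P ∧ A + B * Real.log P ≤ κ * P := by
  have h1 : (fun x : ℝ => Real.log x) =o[Filter.atTop] (fun x : ℝ => x) := Real.isLittleO_log_id_atTop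
  have hc : 0 < κ / (2 * (|B| + 1)) := by positivity
  have h2 := h1.def hc
  rw [Filter.eventually_atTop] at h2
  obtain ⟨P1, hP1⟩ := h2
  refine ⟨max (max P1 1) (2 * |A| / κ), fun P hP => ?_⟩
  have hP1' : P1 ≤ P := (le_max_left _ _).trans ((le_max_left _ _).trans hP)
  have hP2 : 1 ≤ P := (le_max_right _ _).trans ((le_max_left _ _).trans hP)
  have hP3 : 2 * |A| / κ ≤ P := (le_max_right _ _).trans hP
  refine ⟨hP2, ?_⟩
  have h3 := hP1 P hP1'
  rw [Real.norm_eq_abs, Real.norm_eq_abs, abs_of_nonneg (Real.log_nonneg hP2),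
    abs_of_nonneg (by linarith : (0 : ℝ) ≤ P)] at h3
  have hl : 0 ≤ Real.log P := Real.log_nonneg hP2
  have h4 : |B| * Real.log P ≤ κ * P / 2 := by
    calc |B| * Real.log P ≤ |B| * (κ / (2 * (|B| + 1)) * P) :=
          mul_le_mul_of_nonneg_left h3 (abs_nonneg _)
      _ = (|B| / (|B| + 1)) * (κ * P / 2) := by
          field_simp
      _ ≤ 1 * (κ * P / 2) := by
          apply mul_le_mul_of_nonneg_right _ (by positivity)
          rw [div_le_one (by positivity)]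
          linarith
      _ = κ * P / 2 := one_mul _
  have h5 : |A| ≤ κ * P / 2 := by
    rw [div_le_iff₀ hκ] at hP3
    linarith
  have h6 : B * Real.log P ≤ |B| * Real.log P := mul_le_mul_of_nonneg_right (le_abs_self _) hl
  linarith [le_abs_self A]

/-- **the product of the densities is subexponentially small at worst** -/
theorem prod_dns_ge (k : ℕ) (C1 κ : ℝ) (hC1 : 0 ≤ C1) (hκ : 0 < κ) :
    ∃ P0 : ℝ, ∀ P : ℝ, P0 ≤ P → ∀ (f : ℤ[X]) (PP : Finset ℕ), f.natDegree = k →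
      (∀ p ∈ PP, p.Prime ∧ f.natDegree < p ∧ (∃ j : ℕ, 1 ≤ j ∧ ¬ (p : ℤ) ∣ f.coeff j) ∧
        p ≤ ⌊P ^ C1⌋₊) →
      Real.exp (-(κ * P)) ≤ ∏ p ∈ PP, dns f p ∧ ∏ p ∈ PP, dns f p ≤ 1 := by
  obtain ⟨P0, hP0⟩ := log_small ((k : ℝ) ^ 2) ((k : ℝ) ^ 2 * C1) κ hκ
  refine ⟨P0, fun P hP f PP hk hPP => ?_⟩
  obtain ⟨h1, h2⟩ := hP0 P hP
  constructor
  · refine le_trans ?_ (prod_dns_ge_aux f PP C1 P h1 hC1 (fun p hp => ?_))
    · apply Real.exp_le_exp.2
      apply neg_le_neg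
      rw [hk]
      linarith
    · obtain ⟨h3, h4, h5, h6⟩ := hPP p hp
      refine ⟨h3, h4, h5, ?_⟩
      exact (Nat.le_floor_iff (by positivity)).1 h6
  · apply prod_le_one
    · intro p _
      exact dns_nonneg f p
    · intro p _
      exact dns_le_one f p

end Vale.Agent.P042.H74
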