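import Vale.Agent.P042.H74.Tiny2
import Vale.Agent.P042.H74.ProdDns

set_option autoImplicit false

/-!
P042, the rates of the seam: size of the normalised weighted complete sums of the substituted
polynomial, for all moduli, with the same rate function.
-/

namespace Vale.Agent.P042.H74
open Polynomial Finset Vale.Agent.P042.SS

theorem Gam_fer (f : ℤ[X]) {q1 q : ℕ} (hq : 1 ≤ q) (hc : Nat.Coprime q1 q) (z0 a : ℤ) :
    Gam (fer f q1 z0) a q = Gam f a q := by
  unfold Gam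
  congr 1
  have h1 := sum_affine hq hc z0 (fun z => e (a * ((f.eval z : ℤ) : ℝ) / q)) (ef_per f a q hq)
  rw [← h1]
  refine sum_congr rfl fun x _ => ?_
  rw [fer_eval]

theorem norm_Gam_le_one (f : ℤ[X]) (a : ℤ) (q : ℕ) : ‖Gam f a q‖ ≤ 1 := by
  unfold Gam
  rw [norm_div, Complex.norm_natCast]
  apply div_le_one_of_le₀ _ (Nat.cast_nonneg _)
  refine (norm_sum_le _ _).trans ?_
  rw [sum_congr rfl fun x _ => norm_e _, sum_const, card_range, nsmul_eq_mul, mul_one]

/-- the rate function of the seam -/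
noncomputable def kwS (k : ℕ) (T PP : Finset ℕ) (kap : ℕ → ℕ → ℝ) : ℕ → ℕ → ℝ :=
  kapW PP (fun p => 4 * k / Real.sqrt p) (fun p j => if p ∈ T then 1 else kap p j)

theorem kwS_nonneg (k : ℕ) (T PP : Finset ℕ) {kap : ℕ → ℕ → ℝ} (h : ∀ p j, 0 ≤ kap p j)
    (p j : ℕ) : 0 ≤ kwS k T PP kap p j := by
  unfold kwS kapW
  beta_reduce
  split_ifs
  · positivity
  · exact le_rfl
  · exact zero_le_one
  · exact h p j

/-- the complete sums of the substituted polynomial, all moduli -/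
theorem Gam_fer_norm (f : ℤ[X]) (T : Finset ℕ) (q1 : ℕ) (z0 : ℤ)
    (hq1T : ∀ p : ℕ, p.Prime → p ∣ q1 → p ∈ T) (kap : ℕ → ℕ → ℝ) (hkap0 : ∀ p j, 0 ≤ kap p j)
    (hkap : ∀ (q : ℕ) (a : ℤ), 1 ≤ q → IsCoprime a (q : ℤ) → ‖Gam f a q‖ ≤ kapProd kap q) :
    ∀ (q : ℕ) (a : ℤ), 1 ≤ q → IsCoprime a (q : ℤ) →
      ‖Gam (fer f q1 z0) a q‖ ≤ kapProd (fun p j => if p ∈ T then 1 else kap p j) q := by
  classical
  intro q a hq ha
  have hNS : NS (fer f q1 z0) ∅ := fun p hp => absurd hp (notMem_empty p)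
  have hG : ∀ (q : ℕ) (a : ℤ), 1 ≤ q → GamN (fer f q1 z0) ∅ a q = Gam (fer f q1 z0) a q :=
    fun q a hq => GamN_coprime _ ∅ hNS a q hq (fun l hl => absurd hl (notMem_empty l))
  rw [← hG q a hq]
  refine norm_le_kapProd (multFam_GamN (fer f q1 z0) ∅ hNS) _ ?_ ?_ q hq a ha
  · intro p j
    beta_reduce
    split_ifs
    · exact zero_le_one
    · exact hkap0 p j
  · intro p j a hp hj ha
    have hpj : 1 ≤ p ^ j := Nat.one_le_iff_ne_zero.2 (pow_ne_zero _ hp.ne_zero)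
    beta_reduce
    rw [hG (p ^ j) a hpj]
    split_ifs with h1
    · exact norm_Gam_le_one _ _ _
    · have hc : Nat.Coprime q1 (p ^ j) := by
        apply Nat.Coprime.pow_right
        rw [Nat.coprime_comm, hp.coprime_iff_not_dvd]
        exact fun hd => h1 (hq1T p hp hd)
      rw [Gam_fer f hpj hc z0 a]
      have hcop : IsCoprime a ((p ^ j : ℕ) : ℤ) := by
        push_cast
        exact IsCoprime.pow_right ha
      refine (hkap (p ^ j) a hpj hcop).trans (le_of_eq ?_)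
      unfold kapProd
      rw [Nat.primeFactors_prime_pow (by omega) hp, prod_singleton, hp.factorization_pow]
      simp

/-- a product of prime power rates is at most a negative power of the modulus -/
theorem kapProd_le_rpow (K : ℕ → ℕ → ℝ) (c : ℝ) (m : ℕ) (hm : 1 ≤ m)
    (hK0 : ∀ p j, 0 ≤ K p j)
    (h : ∀ p j : ℕ, p.Prime → p ∣ m → 1 ≤ j → K p j ≤ ((p : ℝ) ^ j) ^ (-c)) :
    kapProd K m ≤ (m : ℝ) ^ (-c) := by
  unfold kapProd
  have h1 : (m : ℝ) ^ (-c) = ∏ p ∈ m.primeFactors, ((p : ℝ) ^ (m.factorization p)) ^ (-c) := by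
    rw [Real.finsetProd_rpow _ _ (fun p _ => by positivity)]
    congr 1
    have h2 := Nat.prod_factorization_pow_eq_self (n := m) (by omega)
    rw [Finsupp.prod, Nat.support_factorization] at h2
    conv_lhs => rw [← h2]
    push_cast
    rfl
  rw [h1]
  apply prod_le_prod
  · intro p _
    exact hK0 _ _
  · intro p hp
    have hp' := Nat.prime_of_mem_primeFactors hp
    refine h p _ hp' (Nat.dvd_of_mem_primeFactors hp) ?_
    exact (hp'.dvd_iff_one_le_factorization (by omega)).1 (Nat.dvd_of_mem_primeFactors hp)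

/-- the substituted polynomial is constant modulo the primes of the substitution -/
theorem not_dvd_of_nonconst (f : ℤ[X]) (q1 p : ℕ) (z0 : ℤ)
    (h : ∃ j : ℕ, 1 ≤ j ∧ ¬ (p : ℤ) ∣ (fer f q1 z0).coeff j) : ¬ p ∣ q1 := by
  intro hd
  obtain ⟨j, hj1, hj⟩ := h
  apply hj
  rw [fer_coeff]
  apply Dvd.dvd.mul_left
  exact dvd_pow (by exact_mod_cast hd) (by omega)

theorem TinyD.notMem_of_nonconst {f : ℤ[X]} {T : Finset ℕ} {V : ℕ → ℕ} {q1 : ℕ} {z0 : ℤ}
    (h : TinyD f T V q1 z0) {p : ℕ}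
    (hn : ∃ j : ℕ, 1 ≤ j ∧ ¬ (p : ℤ) ∣ (fer f q1 z0).coeff j) : p ∉ T := by
  intro hp
  apply not_dvd_of_nonconst f q1 p z0 hn
  rw [h.q1_eq]
  exact (dvd_pow_self p (by omega)).trans (dvd_prod_of_mem (fun p => p ^ (V p + 1)) hp)

theorem TinyD.mem_of_dvd_q1 {f : ℤ[X]} {T : Finset ℕ} {V : ℕ → ℕ} {q1 : ℕ} {z0 : ℤ}
    (h : TinyD f T V q1 z0) {p : ℕ} (hp : p.Prime) (hd : p ∣ q1) : p ∈ T := by
  by_contra hc
  exact h.not_dvd_q1 hp hc hd

/-- **the rates of the seam**: one rate function for all moduli; at moduli without tiny primes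
the product of the rates is a negative power of the modulus -/
theorem seamG (k R : ℕ) (hk : 2 ≤ k) (hR : 1 ≤ R) :
    ∃ (c : ℝ) (K0 : ℕ) (kap : ℕ → ℕ → ℝ), 0 < c ∧ c ≤ 1 / 4 ∧ 2 * k ≤ K0 ∧ R ≤ K0 ∧
      (∀ p j, 0 ≤ kap p j) ∧ (∀ p j, kap p j ≤ 1) ∧
      ∀ (f : ℤ[X]), f.natDegree = k → 0 < f.leadingCoeff →
      (∀ g : ℤ, (∀ j : ℕ, 1 ≤ j → g ∣ f.coeff j) → g ∣ (R : ℤ)) →
      ∀ (T PP : Finset ℕ) (q1 : ℕ) (z0 : ℤ), (∀ p : ℕ, p.Prime → p ∣ q1 → p ∈ T) →
        (∀ p : ℕ, p.Prime → p ≤ K0 → p ∈ T) → (∀ p ∈ PP, p.Prime ∧ p ∉ T) →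
        NS (fer f q1 z0) PP ∧
        (∀ p : ℕ, p.Prime → p ∉ T → k < p ∧
          (∃ j : ℕ, 1 ≤ j ∧ ¬ (p : ℤ) ∣ f.coeff j) ∧
          ∃ j : ℕ, 1 ≤ j ∧ ¬ (p : ℤ) ∣ (fer f q1 z0).coeff j) ∧
        (∀ (q : ℕ) (a : ℤ), 1 ≤ q → IsCoprime a (q : ℤ) →
          ‖GamN (fer f q1 z0) PP a q‖ ≤ kapProd (kwS k T PP kap) q) ∧
        (∀ m : ℕ, 1 ≤ m → (∀ p ∈ T, ¬ p ∣ m) →
          kapProd (kwS k T PP kap) m ≤ (m : ℝ) ^ (-c)) ∧
        (∀ p : ℕ, p.Prime → p ∉ T → kwS k T PP kap p 1 ≤ 4 * k / Real.sqrt p) := by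
  classical
  obtain ⟨E, hE, hcomp⟩ := complete_sums k (by omega)
  obtain ⟨K, p0, kap, hK1, hkap0, hkap1, hpw, hone, htwo, hsum⟩ := hcomp R hR
  set K0 : ℕ := (4 * k) ^ 4 + K ^ (2 * E) + p0 + R + 2 * k with hK0
  have hE0 : (0 : ℝ) < E := by exact_mod_cast hE
  set c : ℝ := min (1 / 4) (1 / (2 * E)) with hc
  have hc0 : 0 < c := by
    rw [hc]
    exact lt_min (by norm_num) (by positivity)
  have hc4 : c ≤ 1 / 4 := min_le_left _ _
  have hcE : c ≤ 1 / (2 * E) := min_le_right _ _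
  refine ⟨c, K0, kap, hc0, hc4, by omega, by omega, hkap0, hkap1, ?_⟩
  intro f hfk hfl hfR T PP q1 z0 hq1T hT hPP
  -- the primes outside `T`
  have hnT : ∀ p : ℕ, p.Prime → p ∉ T → K0 < p := by
    intro p hp hpT
    by_contra hcon
    exact hpT (hT p hp (by omega))
  have hnc : ∀ p : ℕ, p.Prime → p ∉ T → ∃ j : ℕ, 1 ≤ j ∧ ¬ (p : ℤ) ∣ f.coeff j := by
    intro p hp hpT
    by_contra hcon
    push Not at hcon
    have h1 := hfR (p : ℤ) (fun j hj => hcon j hj)
    have h2 : p ∣ R := by exact_mod_cast h1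
    have h3 := Nat.le_of_dvd (by omega) h2
    have h4 := hnT p hp hpT
    omega
  have hq1 : ∀ p : ℕ, p.Prime → p ∉ T → ¬ p ∣ q1 := fun p hp hpT hd => hpT (hq1T p hp hd)
  have hNS : NS (fer f q1 z0) PP := by
    apply NS_fer f q1 z0 PP (by omega)
    intro p hp
    obtain ⟨h1, h2⟩ := hPP p hp
    have h3 := hnT p h1 h2
    exact ⟨h1, by omega, hq1 p h1 h2, hnc p h1 h2⟩
  have hGam : ∀ (q : ℕ) (a : ℤ), 1 ≤ q → IsCoprime a (q : ℤ) → ‖Gam f a q‖ ≤ kapProd kap q := by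
    intro q a hq ha
    have h1 := hsum f hfk hfl hfR q a hq ha
    have hq0 : (0 : ℝ) < q := by exact_mod_cast hq
    unfold Gam kapProd
    rw [norm_div, Complex.norm_natCast, div_le_iff₀ hq0]
    exact h1
  have hGam1 := Gam_fer_norm f T q1 z0 hq1T kap hkap0 hGam
  refine ⟨hNS, fun p hp hpT => ⟨?_, hnc p hp hpT, nonconst_fer f hp (hq1 p hp hpT) z0 (hnc p hp hpT)⟩,
    ?_, ?_, ?_⟩
  · have := hnT p hp hpT
    omega
  · unfold kwS
    refine GamN_norm (fer f q1 z0) PP hNS _ _ (fun p => by positivity) (fun p j => ?_) ?_ hGam1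
    · beta_reduce
      split_ifs
      · exact zero_le_one
      · exact hkap0 p j
    · intro p hp a ha
      obtain ⟨h1, h2⟩ := hPP p hp
      have h3 := hnT p h1 h2
      have hp0 : (0 : ℝ) < p := by exact_mod_cast h1.pos
      have hs0 : 0 < Real.sqrt p := Real.sqrt_pos.2 hp0
      have hkp : (2 * k : ℝ) ≤ p := by
        have : 2 * k ≤ p := by omega
        exact_mod_cast this
      have h4 : ‖Gam (fer f q1 z0) a p‖ ≤ k / Real.sqrt p := by
        refine (hGam1 p a h1.one_lt.le ha).trans ?_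
        unfold kapProd
        rw [h1.primeFactors, prod_singleton, h1.factorization_self]
        beta_reduce
        rw [if_neg h2]
        exact hone p h1 (by omega)
      have h5 : 1 - dns (fer f q1 z0) p ≤ k / p := by
        rw [dns_fer f h1 (hq1 p h1 h2)]
        have h6 := dns_ge f p h1 (by omega) (by omega) (hnc p h1 h2)
        rw [hfk] at h6
        have h7 : ((k : ℝ) - 1) / p ≤ k / p := by gcongr; linarith
        linarith
      have h6 : (k : ℝ) / p ≤ 1 / 2 := by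
        rw [div_le_iff₀ hp0]
        linarith
      refine (GamN_prime_norm (fer f q1 z0) PP hNS p hp _ _ a h4 h5 h6).trans ?_
      have h7 : (k : ℝ) / p ≤ k / Real.sqrt p := by
        apply div_le_div_of_nonneg_left (Nat.cast_nonneg k) hs0
        have h1p : (1 : ℝ) ≤ p := by exact_mod_cast h1.one_lt.le
        exact Real.sqrt_le_iff.2 ⟨hp0.le, by nlinarith⟩
      have h8 : 4 * (k : ℝ) / Real.sqrt p = 2 * (k / Real.sqrt p + k / Real.sqrt p) := by ring
      rw [h8]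
      linarith
  · intro m hm hmT
    refine kapProd_le_rpow _ c m hm (fun p j => kwS_nonneg k T PP hkap0 p j) ?_
    intro p j hp hpm hj
    have hpT : p ∉ T := fun h => hmT p h hpm
    have h3 := hnT p hp hpT
    have hp0 : (0 : ℝ) < p := by exact_mod_cast hp.pos
    have hp1 : (1 : ℝ) ≤ p := by exact_mod_cast hp.one_lt.le
    have hj1 : (1 : ℝ) ≤ j := by exact_mod_cast hj
    have hpj : ((p : ℝ) ^ j) ^ (-c) = (p : ℝ) ^ (-(j * c)) := by
      rw [← Real.rpow_natCast, ← Real.rpow_mul hp0.le]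
      congr 1
      ring
    rw [hpj]
    unfold kwS kapW
    beta_reduce
    split_ifs with h4 h5
    · rw [h5]
      have h6 : (4 * k : ℝ) ≤ (p : ℝ) ^ (1 / 4 : ℝ) := by
        have h7 : ((4 * k : ℕ) : ℝ) ^ 4 ≤ p := by
          have : (4 * k) ^ 4 ≤ p := by omega
          exact_mod_cast this
        calc (4 * k : ℝ) = (((4 * k : ℕ) : ℝ) ^ 4) ^ (1 / 4 : ℝ) := by
              rw [← Real.rpow_natCast, ← Real.rpow_mul (by positivity)]
              push_cast
              norm_num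
          _ ≤ (p : ℝ) ^ (1 / 4 : ℝ) := Real.rpow_le_rpow (by positivity) h7 (by norm_num)
      rw [Real.sqrt_eq_rpow, div_le_iff₀ (by positivity), ← Real.rpow_add hp0]
      refine h6.trans (Real.rpow_le_rpow_of_exponent_le hp1 ?_)
      push_cast
      linarith
    · positivity
    · refine (hpw p j hp hj).trans ?_
      have h6 : (K : ℝ) ≤ (p : ℝ) ^ (1 / (2 * E) : ℝ) := by
        have h7 : (K : ℝ) ^ (2 * E) ≤ p := by
          have : K ^ (2 * E) ≤ p := by omega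
          exact_mod_cast this
        calc (K : ℝ) = ((K : ℝ) ^ (2 * E)) ^ (1 / (2 * E) : ℝ) := by
              rw [← Real.rpow_natCast, ← Real.rpow_mul (by positivity)]
              push_cast
              rw [mul_one_div_cancel (by positivity), Real.rpow_one]
          _ ≤ (p : ℝ) ^ (1 / (2 * E) : ℝ) := Real.rpow_le_rpow (by positivity) h7 (by positivity)
      calc (K : ℝ) * (p : ℝ) ^ (-(j : ℝ) / E) ≤ (p : ℝ) ^ (1 / (2 * E) : ℝ) * (p : ℝ) ^ (-(j : ℝ) / E) :=
            mul_le_mul_of_nonneg_right h6 (by positivity)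
        _ = (p : ℝ) ^ (1 / (2 * E) + -(j : ℝ) / E : ℝ) := by rw [← Real.rpow_add hp0]
        _ ≤ (p : ℝ) ^ (-(j * c)) := by
            apply Real.rpow_le_rpow_of_exponent_le hp1
            have h8 : (j : ℝ) * c ≤ j * (1 / (2 * E)) := mul_le_mul_of_nonneg_left hcE (by linarith)
            have h9 : -(j : ℝ) / E = -(2 * (j * (1 / (2 * E)))) := by
              field_simp
            rw [h9]
            have h10 : 1 / (2 * (E : ℝ)) ≤ j * (1 / (2 * E)) := by
              have : (0 : ℝ) ≤ 1 / (2 * E) := by positivity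
              nlinarith
            linarith
  · intro p hp hpT
    unfold kwS kapW
    beta_reduce
    by_cases h4 : p ∈ PP
    · rw [if_pos h4, if_pos rfl]
    · rw [if_neg h4, if_neg hpT]
      have hp0 : (0 : ℝ) < p := by exact_mod_cast hp.pos
      have h3 := hnT p hp hpT
      refine (hone p hp (by omega)).trans ?_
      gcongr
      linarith [(Nat.cast_nonneg k : (0 : ℝ) ≤ k)]

end Vale.Agent.P042.H74
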