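import Vale.Agent.P042.H74.AnR
import Vale.Agent.P042.UU.TruncA

set_option autoImplicit false

/-!
P042, block [D]: the circle method with sieve weights: `z` runs over the integers with
`p ∤ f'(z)` for all `p ∈ PP`.
-/

namespace Vale.Agent.P042.H74
open Polynomial Finset Vale.Agent.P042.SS

/-! ### the polynomial `f(m X + r)` -/

/-- the polynomial `f(m X + r)` -/
noncomputable def fer (f : ℤ[X]) (m : ℕ) (r : ℤ) : ℤ[X] := (taylor r f).comp (C (m : ℤ) * X)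

theorem fer_eval (f : ℤ[X]) (m : ℕ) (r x : ℤ) : (fer f m r).eval x = f.eval (m * x + r) := by
  unfold fer
  rw [eval_comp, taylor_eval]
  simp

theorem fer_coeff (f : ℤ[X]) (m : ℕ) (r : ℤ) (j : ℕ) :
    (fer f m r).coeff j = (taylor r f).coeff j * (m : ℤ) ^ j := by
  unfold fer
  rw [comp_C_mul_X_coeff]

theorem fer_natDegree (f : ℤ[X]) (m : ℕ) (hm : 1 ≤ m) (r : ℤ) :
    (fer f m r).natDegree = f.natDegree := by
  unfold fer
  have hm' : (m : ℤ) ≠ 0 := by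
    have : m ≠ 0 := by omega
    exact_mod_cast this
  rw [natDegree_comp, natDegree_C_mul_X _ hm', natDegree_taylor, mul_one]

theorem fer_lead (f : ℤ[X]) (m : ℕ) (hm : 1 ≤ m) (r : ℤ) (hf : 0 < f.leadingCoeff) :
    0 < (fer f m r).leadingCoeff := by
  have hm' : (0 : ℤ) < m := by exact_mod_cast hm
  rw [leadingCoeff, fer_natDegree f m hm r, fer_coeff, coeff_taylor_natDegree]
  positivity

theorem taylor_coeff_sum (f : ℤ[X]) (r : ℤ) (n : ℕ) :
    (taylor r f).coeff n =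
      ∑ i ∈ range (f.natDegree + 1), f.coeff i * (r ^ (i - n) * (i.choose n : ℤ)) := by
  conv_lhs => rw [f.as_sum_range' (f.natDegree + 1) (Nat.lt_succ_self _)]
  rw [map_sum, finsetSum_coeff]
  refine sum_congr rfl fun i _ => ?_
  rw [taylor_monomial, coeff_C_mul, coeff_X_add_C_pow]

theorem fer_coeff_le (f : ℤ[X]) (m E0 : ℕ) (r : ℤ) (B : ℝ) (hmE : m ≤ E0) (hr0 : 0 ≤ r)
    (hrm : r < m) (hB : ∀ j : ℕ, |(f.coeff j : ℝ)| ≤ B) (hB1 : 1 ≤ B) (j : ℕ) :
    |((fer f m r).coeff j : ℝ)| ≤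
      ((f.natDegree + 1 : ℕ) : ℝ) * 2 ^ f.natDegree * (E0 : ℝ) ^ (2 * f.natDegree) * B := by
  have hE1 : 1 ≤ E0 := by
    have : (0 : ℤ) < m := lt_of_le_of_lt hr0 hrm
    have : 0 < m := by exact_mod_cast this
    omega
  have hE1r : (1 : ℝ) ≤ E0 := by exact_mod_cast hE1
  by_cases hj : j ≤ f.natDegree
  swap
  · have h0 : (fer f m r).coeff j = 0 := by
      rw [fer_coeff, coeff_eq_zero_of_natDegree_lt (by rw [natDegree_taylor]; omega), zero_mul]
    rw [h0]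
    simp only [Int.cast_zero, abs_zero]
    positivity
  have hmr : (m : ℝ) ≤ E0 := by exact_mod_cast hmE
  have hr0' : (0 : ℝ) ≤ r := by exact_mod_cast hr0
  have hrE : (r : ℝ) ≤ E0 := by
    have : (r : ℝ) < m := by exact_mod_cast hrm
    linarith
  rw [fer_coeff, taylor_coeff_sum]
  push_cast
  rw [abs_mul, abs_pow, Nat.abs_cast]
  have h1 : |∑ i ∈ range (f.natDegree + 1), (f.coeff i : ℝ) * ((r : ℝ) ^ (i - j) * (i.choose j : ℝ))| ≤
      ((f.natDegree + 1 : ℕ) : ℝ) * (B * ((E0 : ℝ) ^ f.natDegree * 2 ^ f.natDegree)) := by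
    refine (abs_sum_le_sum_abs _ _).trans ?_
    refine (sum_le_card_nsmul _ _ (B * ((E0 : ℝ) ^ f.natDegree * 2 ^ f.natDegree)) ?_).trans ?_
    · intro i hi
      rw [mem_range] at hi
      rw [abs_mul, abs_mul, abs_pow, abs_of_nonneg hr0', Nat.abs_cast]
      have h2 : (r : ℝ) ^ (i - j) ≤ (E0 : ℝ) ^ f.natDegree := by
        calc (r : ℝ) ^ (i - j) ≤ (E0 : ℝ) ^ (i - j) := pow_le_pow_left₀ hr0' hrE _
          _ ≤ (E0 : ℝ) ^ f.natDegree := pow_le_pow_right₀ hE1r (by omega)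
      have h3 : (i.choose j : ℝ) ≤ 2 ^ f.natDegree := by
        have h4 : i.choose j ≤ 2 ^ i := Nat.choose_le_two_pow i j
        have h5 : (2 : ℕ) ^ i ≤ 2 ^ f.natDegree := Nat.pow_le_pow_right (by norm_num) (by omega)
        exact_mod_cast h4.trans h5
      have hBi := hB i
      gcongr
    · rw [card_range, nsmul_eq_mul]
  have h6 : (m : ℝ) ^ j ≤ (E0 : ℝ) ^ f.natDegree := by
    calc (m : ℝ) ^ j ≤ (E0 : ℝ) ^ j := pow_le_pow_left₀ (Nat.cast_nonneg _) hmr _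
      _ ≤ (E0 : ℝ) ^ f.natDegree := pow_le_pow_right₀ hE1r hj
  calc _ ≤ (((f.natDegree + 1 : ℕ) : ℝ) * (B * ((E0 : ℝ) ^ f.natDegree * 2 ^ f.natDegree))) *
        (E0 : ℝ) ^ f.natDegree := by gcongr
    _ = _ := by
      push_cast
      ring

theorem fer_content (f : ℤ[X]) (m R : ℕ) (r : ℤ)
    (hcont : ∀ g : ℤ, (∀ j : ℕ, 1 ≤ j → g ∣ f.coeff j) → g ∣ (R : ℤ)) (g : ℤ)
    (hg : ∀ j : ℕ, 1 ≤ j → g ∣ (fer f m r).coeff j) :
    g ∣ ((R * m ^ f.natDegree : ℕ) : ℤ) := by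
  set k := f.natDegree with hk
  -- `g` divides `m^k` times the coefficients of the shifted polynomial
  have h1 : ∀ j : ℕ, 1 ≤ j → g ∣ (m : ℤ) ^ k * (taylor r f).coeff j := by
    intro j hj
    by_cases hjk : j ≤ k
    · have h2 := hg j hj
      rw [fer_coeff] at h2
      obtain ⟨c, hc⟩ := pow_dvd_pow (m : ℤ) hjk
      rw [hc]
      refine (Dvd.dvd.mul_right h2 c).trans (dvd_of_eq ?_)
      ring
    · rw [coeff_eq_zero_of_natDegree_lt (by rw [natDegree_taylor]; omega), mul_zero]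
      exact dvd_zero _
  -- back to `f`
  have h2 : ∀ j : ℕ, 1 ≤ j → g ∣ (m : ℤ) ^ k * f.coeff j := by
    intro j hj
    have h3 : f.coeff j = ∑ i ∈ range (k + 1),
        (taylor r f).coeff i * ((-r) ^ (i - j) * (i.choose j : ℤ)) := by
      have h4 : f = taylor (-r) (taylor r f) := by
        rw [taylor_taylor]
        simp
      conv_lhs => rw [h4]
      rw [taylor_coeff_sum, natDegree_taylor]
    rw [h3, mul_sum]
    refine dvd_sum fun i _ => ?_
    by_cases hij : i < j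
    · rw [Nat.choose_eq_zero_of_lt hij]
      simp
    · have := h1 i (by omega)
      refine (Dvd.dvd.mul_right this ((-r) ^ (i - j) * (i.choose j : ℤ))).trans (dvd_of_eq ?_)
      ring
  have h3 : g ∣ (Icc 1 k).gcd (fun j => (m : ℤ) ^ k * f.coeff j) :=
    Finset.dvd_gcd fun j hj => h2 j (mem_Icc.1 hj).1
  rw [Finset.gcd_mul_left] at h3
  have h4 : (Icc 1 k).gcd (fun j => f.coeff j) ∣ (R : ℤ) := by
    apply hcont
    intro j hj
    by_cases hjk : j ≤ k
    · exact Finset.gcd_dvd (mem_Icc.2 ⟨hj, hjk⟩)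
    · rw [coeff_eq_zero_of_natDegree_lt (by omega)]
      exact dvd_zero _
  have h5 : normalize ((m : ℤ) ^ k) ∣ (m : ℤ) ^ k := (normalize_associated _).dvd
  refine h3.trans ((mul_dvd_mul h5 h4).trans (dvd_of_eq ?_))
  push_cast
  ring

/-! ### the weights -/

/-- indicator of the integers that are nonsingular at all `p ∈ PP` -/
noncomputable def om (f : ℤ[X]) (PP : Finset ℕ) (z : ℤ) : ℝ :=
  ∏ p ∈ PP, if (p : ℤ) ∣ (derivative f).eval z then 0 else 1

/-- complete sum with the sieve weight -/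
noncomputable def GamW (f : ℤ[X]) (PP : Finset ℕ) (a : ℤ) (q : ℕ) : ℂ :=
  (∑ z ∈ range (q * ∏ p ∈ PP, p),
    (om f PP z : ℂ) * e (a * ((f.eval (z : ℤ) : ℤ) : ℝ) / q)) / ((q * ∏ p ∈ PP, p : ℕ) : ℂ)

/-- residues singular at all `p ∈ S` -/
noncomputable def ZS (f : ℤ[X]) (S : Finset ℕ) : Finset ℕ :=
  (range (∏ p ∈ S, p)).filter (fun r => ∀ p ∈ S, (p : ℤ) ∣ (derivative f).eval (r : ℤ))

theorem om_expand (f : ℤ[X]) (PP : Finset ℕ) (z : ℤ) :
    om f PP z = ∑ S ∈ PP.powerset, (-1 : ℝ) ^ S.card *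
      (if ∀ p ∈ S, (p : ℤ) ∣ (derivative f).eval z then 1 else 0) := by
  unfold om
  have h1 : ∀ p ∈ PP, (if (p : ℤ) ∣ (derivative f).eval z then (0 : ℝ) else 1) =
      1 + (if (p : ℤ) ∣ (derivative f).eval z then (-1 : ℝ) else 0) := by
    intro p _
    split_ifs <;> norm_num
  rw [prod_congr rfl h1, Finset.prod_one_add]
  refine sum_congr rfl fun S _ => ?_
  by_cases h : ∀ p ∈ S, (p : ℤ) ∣ (derivative f).eval z
  · rw [if_pos h, mul_one, prod_congr rfl (fun p hp => if_pos (h p hp)), prod_const]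
  · rw [if_neg h, mul_zero]
    push Not at h
    obtain ⟨p, hp, hnd⟩ := h
    exact prod_eq_zero hp (if_neg hnd)

theorem eval_dvd_congr (g : ℤ[X]) (p : ℕ) (a b : ℤ) (h : (p : ℤ) ∣ a - b) :
    (p : ℤ) ∣ g.eval a ↔ (p : ℤ) ∣ g.eval b := by
  have h1 : (p : ℤ) ∣ g.eval a - g.eval b := h.trans (sub_dvd_eval_sub a b g)
  exact ⟨fun h2 => (dvd_sub_right h2).1 h1, fun h2 => (dvd_sub_left h2).1 h1⟩

theorem sum_progression (n m r : ℕ) (hr : r < m) (F : ℕ → ℂ) :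
    ∑ z ∈ range (m * n), (if z % m = r then F z else 0) = ∑ x ∈ range n, F (m * x + r) := by
  induction n with
  | zero => simp
  | succ n ih =>
    rw [Nat.mul_succ, sum_range_add, ih, sum_range_succ]
    congr 1
    rw [sum_eq_single r]
    · rw [if_pos (by rw [Nat.mul_add_mod, Nat.mod_eq_of_lt hr])]
    · intro j hj hjr
      rw [mem_range] at hj
      rw [if_neg]
      rw [Nat.mul_add_mod, Nat.mod_eq_of_lt hj]
      exact hjr
    · intro h
      exact absurd (mem_range.2 hr) h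

theorem sum_period (w q : ℕ) (F : ℕ → ℂ) (hF : ∀ x, F (x + q) = F x) :
    ∑ x ∈ range (q * w), F x = w * ∑ x ∈ range q, F x := by
  induction w with
  | zero => simp
  | succ w ih =>
    rw [Nat.mul_succ, sum_range_add, ih]
    have h1 : ∀ x, F (q * w + x) = F x := by
      intro x
      clear ih
      induction w with
      | zero => simp
      | succ w ih2 =>
        rw [Nat.mul_succ, show q * w + q + x = (q * w + x) + q by ring, hF, ih2]
    rw [sum_congr rfl fun x _ => h1 x]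
    push_cast
    ring

/-- expansion of the weighted complete sum -/
theorem GamW_expand (f : ℤ[X]) (PP : Finset ℕ) (hPP : ∀ p ∈ PP, p.Prime) (a : ℤ) (q : ℕ)
    (hq : 1 ≤ q) :
    GamW f PP a q = ∑ S ∈ PP.powerset, ∑ r ∈ ZS f S,
      ((-1 : ℝ) ^ S.card / ((∏ p ∈ S, p : ℕ) : ℝ) : ℝ) * Gam (fer f (∏ p ∈ S, p) (r : ℤ)) a q := by
  have hq0 : (q : ℂ) ≠ 0 := by
    have : q ≠ 0 := by omega
    exact_mod_cast this
  have hP0 : ∀ S ⊆ PP, (∏ p ∈ S, p) ≠ 0 := fun S hS =>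
    prod_ne_zero_iff.2 fun p hp => (hPP p (hS hp)).ne_zero
  set F : ℕ → ℂ := fun z => e (a * ((f.eval (z : ℤ) : ℤ) : ℝ) / q) with hF
  -- the sum for one `S` and one `r`
  have h1 : ∀ S ∈ PP.powerset, ∀ r ∈ ZS f S,
      ∑ z ∈ range (q * ∏ p ∈ PP, p), (if z % (∏ p ∈ S, p) = r then F z else 0) =
      ((∏ p ∈ PP \ S, p : ℕ) : ℂ) * (q * Gam (fer f (∏ p ∈ S, p) (r : ℤ)) a q) := by
    intro S hS r hr
    rw [mem_powerset] at hS
    have hr' : r < ∏ p ∈ S, p := by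
      unfold ZS at hr
      exact mem_range.1 (mem_filter.1 hr).1
    have hsplit : q * ∏ p ∈ PP, p = (∏ p ∈ S, p) * (q * ∏ p ∈ PP \ S, p) := by
      rw [← prod_sdiff hS]
      ring
    rw [hsplit, sum_progression _ _ _ hr']
    rw [sum_period (∏ p ∈ PP \ S, p) q (fun x => F ((∏ p ∈ S, p) * x + r))]
    · congr 1
      unfold Gam
      rw [mul_div_cancel₀ _ hq0]
      refine sum_congr rfl fun x _ => ?_
      rw [hF]
      simp only
      rw [fer_eval]
      push_cast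
      rfl
    · intro x
      rw [hF]
      simp only
      -- periodicity
      have h2 : ((q : ℕ) : ℤ) ∣ f.eval ((((∏ p ∈ S, p) * (x + q) + r : ℕ)) : ℤ) -
          f.eval ((((∏ p ∈ S, p) * x + r : ℕ)) : ℤ) := by
        refine Dvd.dvd.trans ?_ (sub_dvd_eval_sub _ _ f)
        push_cast
        exact ⟨∏ p ∈ S, (p : ℤ), by ring⟩
      obtain ⟨c, hc⟩ := h2
      have h3 : f.eval ((((∏ p ∈ S, p) * (x + q) + r : ℕ)) : ℤ) =
          f.eval ((((∏ p ∈ S, p) * x + r : ℕ)) : ℤ) + q * c := by linarith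
      rw [h3]
      have hq0r : (q : ℝ) ≠ 0 := by
        have : q ≠ 0 := by omega
        exact_mod_cast this
      have h4 : (a : ℝ) * ((f.eval ((((∏ p ∈ S, p) * x + r : ℕ)) : ℤ) + q * c : ℤ) : ℝ) / q =
          a * ((f.eval ((((∏ p ∈ S, p) * x + r : ℕ)) : ℤ) : ℤ) : ℝ) / q + ((a * c : ℤ) : ℝ) := by
        push_cast
        field_simp
      rw [h4, e_add, e_int, mul_one]
  -- indicator of the singular residues
  have h2 : ∀ S : Finset ℕ, (∏ p ∈ S, p) ≠ 0 → ∀ z : ℕ,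
      (if ∀ p ∈ S, (p : ℤ) ∣ (derivative f).eval (z : ℤ) then F z else 0) =
      ∑ r ∈ ZS f S, (if z % (∏ p ∈ S, p) = r then F z else 0) := by
    intro S hS0 z
    have hmod : ∀ p ∈ S, ((p : ℤ) ∣ (derivative f).eval (z : ℤ) ↔
        (p : ℤ) ∣ (derivative f).eval (((z % ∏ p ∈ S, p : ℕ)) : ℤ)) := by
      intro p hp
      apply eval_dvd_congr
      have h3 : (p : ℤ) ∣ ((∏ p ∈ S, p : ℕ) : ℤ) := by
        exact_mod_cast dvd_prod_of_mem (fun p => p) hp
      refine h3.trans ?_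
      refine ⟨((z / ∏ p ∈ S, p : ℕ) : ℤ), ?_⟩
      have h4 := Nat.mod_add_div z (∏ p ∈ S, p)
      have h5 : ((z % ∏ p ∈ S, p : ℕ) : ℤ) +
          ((∏ p ∈ S, p : ℕ) : ℤ) * ((z / ∏ p ∈ S, p : ℕ) : ℤ) = (z : ℤ) := by exact_mod_cast h4
      linarith
    by_cases hz : ∀ p ∈ S, (p : ℤ) ∣ (derivative f).eval (z : ℤ)
    · rw [if_pos hz, sum_ite_eq, if_pos]
      unfold ZS
      rw [mem_filter, mem_range]
      exact ⟨Nat.mod_lt _ (Nat.pos_of_ne_zero hS0), fun p hp => (hmod p hp).1 (hz p hp)⟩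
    · rw [if_neg hz, sum_ite_eq, if_neg]
      unfold ZS
      rw [mem_filter]
      rintro ⟨_, h3⟩
      exact hz fun p hp => (hmod p hp).2 (h3 p hp)
  unfold GamW
  rw [div_eq_iff (by
    rw [Nat.cast_mul]
    exact mul_ne_zero hq0 (Nat.cast_ne_zero.2 (hP0 PP subset_rfl)))]
  rw [sum_mul]
  have h3 : ∀ z ∈ range (q * ∏ p ∈ PP, p), (om f PP z : ℂ) * F z =
      ∑ S ∈ PP.powerset, ((-1 : ℝ) ^ S.card : ℝ) *
        ∑ r ∈ ZS f S, (if z % (∏ p ∈ S, p) = r then F z else 0) := by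
    intro z _
    rw [om_expand, Complex.ofReal_sum, sum_mul]
    refine sum_congr rfl fun S hS => ?_
    rw [← h2 S (hP0 S (mem_powerset.1 hS)) z]
    split_ifs <;> push_cast <;> ring
  rw [sum_congr rfl h3, sum_comm]
  refine sum_congr rfl fun S hS => ?_
  rw [← mul_sum, sum_comm, sum_congr rfl fun r hr => h1 S hS r hr, mul_sum, sum_mul]
  refine sum_congr rfl fun r _ => ?_
  have hS' := mem_powerset.1 hS
  have hSne : ((∏ p ∈ S, p : ℕ) : ℂ) ≠ 0 := by exact_mod_cast hP0 S hS'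
  have hsplit : ((∏ p ∈ PP, p : ℕ) : ℂ) = ((∏ p ∈ S, p : ℕ) : ℂ) * ((∏ p ∈ PP \ S, p : ℕ) : ℂ) := by
    rw [← prod_sdiff hS']
    push_cast
    ring
  rw [Nat.cast_mul, hsplit]
  push_cast at hSne ⊢
  field_simp

end Vale.Agent.P042.H74
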