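import Vale.Agent.P042.H74.SeamG
import Vale.Agent.P042.H74.NumS
import Vale.Agent.P042.H245.PPf
import Vale.Agent.P042.H758.QoneBound

set_option autoImplicit false

/-!
P042, targets S and F: the choice of the tiny primes (primes up to `K`), of the substitution, of
the primes of the product space (primes in `(K, Y]`) and of the primes of the sieve weight
(primes up to `P ^ C1`), with all side conditions.
-/

namespace Vale.Agent.P042.H74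
open Polynomial Finset Vale.Agent.P042.SS Vale.Agent.P042.H245

/-- the primes up to `K` -/
noncomputable def Tl (K : ℝ) : Finset ℕ := (range (⌊K⌋₊ + 1)).filter Nat.Prime

theorem mem_Tl {K : ℝ} {p : ℕ} : p ∈ Tl K ↔ p.Prime ∧ p ≤ ⌊K⌋₊ := by
  unfold Tl
  rw [mem_filter, mem_range, Nat.lt_succ_iff]
  tauto

/-- the primes in `(K, Y]` -/
noncomputable def Wl (K Y : ℝ) : Finset ℕ :=
  (range (⌊Y⌋₊ + 1)).filter (fun p => p.Prime ∧ ⌊K⌋₊ < p)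

theorem mem_Wl {K Y : ℝ} {p : ℕ} : p ∈ Wl K Y ↔ p.Prime ∧ ⌊K⌋₊ < p ∧ p ≤ ⌊Y⌋₊ := by
  unfold Wl
  rw [mem_filter, mem_range, Nat.lt_succ_iff]
  tauto

theorem le_of_mem_Wl {K Y : ℝ} {p : ℕ} (hY : 0 ≤ Y) (hp : p ∈ Wl K Y) : (p : ℝ) ≤ Y :=
  (Nat.le_floor_iff hY).1 (mem_Wl.1 hp).2.2

theorem lt_of_mem_Wl {K Y : ℝ} {p : ℕ} (hK : 0 ≤ K) (hp : p ∈ Wl K Y) : K < p :=
  (Nat.floor_lt hK).1 (mem_Wl.1 hp).2.1

theorem notMem_Tl_of_mem_Wl {K Y : ℝ} {p : ℕ} (hp : p ∈ Wl K Y) : p ∉ Tl K := fun h => by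
  have h1 := (mem_Tl.1 h).2
  have h2 := (mem_Wl.1 hp).2.1
  omega

/-- the side conditions of the objects of the lower bound: `c`, `kap` and `C2` depend on
`k` and `R` only -/
structure ObjG (k R : ℕ) (c : ℝ) (kap : ℕ → ℕ → ℝ) (C1 κ0 C2 P K Y : ℝ) (f : ℤ[X])
    (q1 z0 : ℕ) : Prop where
  tiny : TinyD f (Tl K) (Vp k R) q1 (z0 : ℤ)
  z0lt : z0 < q1
  qn1 : 1 ≤ qnul f q1 z0
  q1qn : q1 ≤ qnul f q1 z0
  qnle : (qnul f q1 z0 : ℝ) ≤ Real.exp (C2 * K)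
  dis : Disjoint (Tl K) (PPf C1 (fer f q1 z0) P)
  gw : ∀ (a : ℤ) (q : ℕ), GWf C1 (f.comp (C (z0 : ℤ) + C (q1 : ℤ) * X)) P a q =
    GamW (fer f q1 z0) (PPf C1 (fer f q1 z0) P) a q
  ns : NS (fer f q1 z0) (PPf C1 (fer f q1 z0) P)
  mem : ∀ p ∈ Wl K Y, p ∈ PPf C1 (fer f q1 z0) P
  memP : ∀ p : ℕ, p.Prime → p ∉ Tl K → p ≤ ⌊P ^ C1⌋₊ → p ∈ PPf C1 (fer f q1 z0) P
  hG : ∀ (q : ℕ) (a : ℤ), 1 ≤ q → IsCoprime a (q : ℤ) →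
    ‖GamN (fer f q1 z0) (PPf C1 (fer f q1 z0) P) a q‖ ≤
      kapProd (kwS k (Tl K) (PPf C1 (fer f q1 z0) P) kap) q
  pow : ∀ m : ℕ, 1 ≤ m → (∀ p ∈ Tl K, ¬ p ∣ m) →
    kapProd (kwS k (Tl K) (PPf C1 (fer f q1 z0) P) kap) m ≤ (m : ℝ) ^ (-c)
  rate : ∀ p : ℕ, p.Prime → p ∉ Tl K →
    kwS k (Tl K) (PPf C1 (fer f q1 z0) P) kap p 1 ≤ 4 * k / Real.sqrt p
  nd : ∀ p : ℕ, p.Prime → p ∉ Tl K → ¬ p ∣ qnul f q1 z0
  big : ∀ p : ℕ, p.Prime → p ∉ Tl K → 2 * k < p ∧ K < p ∧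
    (∃ j : ℕ, 1 ≤ j ∧ ¬ (p : ℤ) ∣ f.coeff j) ∧
    ∃ j : ℕ, 1 ≤ j ∧ ¬ (p : ℤ) ∣ (fer f q1 z0).coeff j
  dns : Real.exp (-(κ0 / 4 * P)) ≤ ∏ p ∈ PPf C1 (fer f q1 z0) P, dns (fer f q1 z0) p

/-- **the objects exist**, for all `K` above a constant and all `Y ≤ P ^ C1` -/
theorem exists_objG (k R : ℕ) (hk : 2 ≤ k) (hR : 1 ≤ R) :
    ∃ (c : ℝ) (kap : ℕ → ℕ → ℝ) (C2 K0 : ℝ), 0 < c ∧ c ≤ 1 / 4 ∧ (∀ p j, 0 ≤ kap p j) ∧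
      (∀ p j, kap p j ≤ 1) ∧ 0 < C2 ∧ 1 ≤ K0 ∧
      ∀ (C1 κ0 : ℝ), 0 ≤ C1 → 0 < κ0 → ∃ P0 : ℝ,
        ∀ P K Y : ℝ, P0 ≤ P → K0 ≤ K → Y ≤ P ^ C1 →
        ∀ f : ℤ[X], f.natDegree = k → 0 < f.leadingCoeff →
          (∀ g : ℤ, (∀ j : ℕ, 1 ≤ j → g ∣ f.coeff j) → g ∣ (R : ℤ)) →
          ∃ q1 z0 : ℕ, ObjG k R c kap C1 κ0 C2 P K Y f q1 z0 := by
  obtain ⟨c, K0, kap, hc0, hc4, hkK, hRK, hkap0, hkap1, hmain⟩ := seamG k R hk hR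
  set C2 : ℝ := 2 * Real.log (sfac k) + 2 * Real.log R + Real.log 4 with hC2
  have hs1 : (1 : ℝ) ≤ sfac k := by exact_mod_cast sfac_pos k
  have hR1 : (1 : ℝ) ≤ R := by exact_mod_cast hR
  have hC20 : 0 < C2 := by
    have h1 := Real.log_nonneg hs1
    have h2 := Real.log_nonneg hR1
    have h3 : 0 < Real.log 4 := Real.log_pos (by norm_num)
    rw [hC2]
    linarith
  refine ⟨c, kap, C2, K0 + 1, hc0, hc4, hkap0, hkap1, hC20, by linarith [(Nat.cast_nonneg K0 : (0 : ℝ) ≤ K0)],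
    fun C1 κ0 hC1 hκ0 => ?_⟩
  obtain ⟨P2, hP2⟩ := prod_dns_ge k C1 (κ0 / 4) hC1 (by positivity)
  refine ⟨P2, fun P K Y hP hK hY f hfk hfl hfR => ?_⟩
  have hK0 : (0 : ℝ) ≤ K0 := Nat.cast_nonneg _
  have hK1 : 1 ≤ K := by linarith
  have hTp : ∀ p ∈ Tl K, p.Prime := fun p hp => (mem_Tl.1 hp).1
  have hTle : ∀ p ∈ Tl K, (p : ℝ) ≤ K := fun p hp =>
    (Nat.le_floor_iff (by linarith)).1 (mem_Tl.1 hp).2
  obtain ⟨q1, z0, hz, hD, -, -⟩ := H758.exists_tiny f R hR (by omega) hfR (Tl K) hTp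
    K (by linarith) hTle
  rw [hfk] at hD
  have hq1T : ∀ p : ℕ, p.Prime → p ∣ q1 → p ∈ Tl K := fun p hp hd => hD.mem_of_dvd_q1 hp hd
  have hKT : ∀ p : ℕ, p.Prime → p ≤ K0 → p ∈ Tl K := by
    intro p hp hpK
    rw [mem_Tl]
    refine ⟨hp, Nat.le_floor ?_⟩
    have : (p : ℝ) ≤ K0 := by exact_mod_cast hpK
    linarith
  have hPPT : ∀ p ∈ PPf C1 (fer f q1 z0) P, p.Prime ∧ p ∉ Tl K := by
    intro p hp
    obtain ⟨h1, h2, h3, h4⟩ := mem_PPf.1 hp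
    exact ⟨h1, hD.notMem_of_nonconst h3⟩
  obtain ⟨m1, m2, m3, m4, m5⟩ := hmain f hfk hfl hfR (Tl K) (PPf C1 (fer f q1 z0) P) q1 z0
    hq1T hKT hPPT
  have hqn1 : 1 ≤ qnul f q1 z0 := qnul_pos _ hD.q1_pos
  have hcomp : f.comp (C (z0 : ℤ) + C (q1 : ℤ) * X) = fer f q1 z0 := (fer_eq_comp f q1 z0).symm
  have hnT : ∀ p : ℕ, p.Prime → p ∉ Tl K → K < p := by
    intro p hp hpT
    have h1 : ¬ p ≤ ⌊K⌋₊ := fun h => hpT (mem_Tl.2 ⟨hp, h⟩)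
    rw [not_le] at h1
    exact (Nat.floor_lt (by linarith)).1 h1
  have hmemP : ∀ p : ℕ, p.Prime → p ∉ Tl K → p ≤ ⌊P ^ C1⌋₊ → p ∈ PPf C1 (fer f q1 z0) P := by
    intro p h1 hpT h3
    obtain ⟨h4, h5, h6⟩ := m2 p h1 hpT
    rw [mem_PPf]
    refine ⟨h1, ?_, h6, h3⟩
    rw [fer_natDegree f q1 hD.q1_pos z0, hfk]
    exact h4
  refine ⟨q1, z0, ⟨hD, hz, hqn1, H758.q1_le_qnul hD, ?_, ?_, ?_, m1, ?_, hmemP, m3, m4, m5, ?_, ?_, ?_⟩⟩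
  · exact H758.qnul_le_exp' hR hD hK1 hTle
  · rw [Finset.disjoint_left]
    intro p hp hp'
    exact (hPPT p hp').2 hp
  · intro a q
    unfold GWf
    rw [hcomp]
  · intro p hp
    obtain ⟨h1, h2, h3⟩ := mem_Wl.1 hp
    exact hmemP p h1 (notMem_Tl_of_mem_Wl hp) (h3.trans (Nat.floor_le_floor hY))
  · intro p hp hpT hd
    exact hpT (hD.mem_of_dvd_qnul hp hd)
  · intro p hp hpT
    obtain ⟨h4, h5, h6⟩ := m2 p hp hpT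
    refine ⟨?_, hnT p hp hpT, h5, h6⟩
    have h1 := hnT p hp hpT
    have h2 : (K0 : ℝ) < p := by linarith
    have h3 : K0 < p := by exact_mod_cast h2
    omega
  · have h1 := hP2 P hP (fer f q1 z0) (PPf C1 (fer f q1 z0) P)
      (by rw [fer_natDegree f q1 hD.q1_pos z0, hfk]) (fun p hp => mem_PPf.1 hp)
    exact h1.1

/-- target S: `K = (log P) ^ E`, `Y = P ^ 2 / (log P) ^ A'` -/
theorem exists_objS (k R : ℕ) (hk : 2 ≤ k) (hR : 1 ≤ R) :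
    ∃ (c : ℝ) (kap : ℕ → ℕ → ℝ) (C2 : ℝ), 0 < c ∧ c ≤ 1 / 4 ∧ (∀ p j, 0 ≤ kap p j) ∧
      (∀ p j, kap p j ≤ 1) ∧ 0 < C2 ∧
      ∀ (E A' : ℕ) (C1 κ0 : ℝ), 1 ≤ E → 2 ≤ C1 → 0 < κ0 → ∃ P0 : ℝ,
        ∀ P : ℝ, P0 ≤ P → ∀ f : ℤ[X], f.natDegree = k → 0 < f.leadingCoeff →
          (∀ g : ℤ, (∀ j : ℕ, 1 ≤ j → g ∣ f.coeff j) → g ∣ (R : ℤ)) →
          ∃ q1 z0 : ℕ,
            ObjG k R c kap C1 κ0 C2 P ((Real.log P) ^ E) (P ^ 2 / (Real.log P) ^ A') f q1 z0 ∧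
            (q1 : ℝ) ≤ Real.exp (κ0 * P) := by
  obtain ⟨c, kap, C2, K0, hc0, hc4, hkap0, hkap1, hC20, hK0, hmain⟩ := exists_objG k R hk hR
  refine ⟨c, kap, C2, hc0, hc4, hkap0, hkap1, hC20, fun E A' C1 κ0 hE hC1 hκ0 => ?_⟩
  obtain ⟨P1, hP1⟩ := hmain C1 κ0 (by linarith) hκ0
  obtain ⟨l0, hl0⟩ := Filter.eventually_atTop.1 (NumS.ev_le C2 κ0 E hκ0)
  refine ⟨max (max P1 (Real.exp l0)) (Real.exp K0), fun P hP f hfk hfl hfR => ?_⟩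
  have hPP1 : P1 ≤ P := (le_max_left _ _).trans ((le_max_left _ _).trans hP)
  have hPP2 : Real.exp l0 ≤ P := (le_max_right _ _).trans ((le_max_left _ _).trans hP)
  have hPP3 : Real.exp K0 ≤ P := (le_max_right _ _).trans hP
  have hP0 : 0 < P := lt_of_lt_of_le (Real.exp_pos _) hPP3
  have hl : K0 ≤ Real.log P := by
    rw [Real.le_log_iff_exp_le hP0]
    exact hPP3
  have hl2 : l0 ≤ Real.log P := by
    rw [Real.le_log_iff_exp_le hP0]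
    exact hPP2
  have hl1 : 1 ≤ Real.log P := by linarith
  have hlE : Real.log P ≤ (Real.log P) ^ E := by
    calc Real.log P = (Real.log P) ^ 1 := (pow_one _).symm
      _ ≤ (Real.log P) ^ E := pow_le_pow_right₀ hl1 hE
  have hP1' : 1 ≤ P := by
    have h1 := Real.add_one_le_exp K0
    linarith
  have hY : P ^ 2 / (Real.log P) ^ A' ≤ P ^ C1 := by
    calc P ^ 2 / (Real.log P) ^ A' ≤ P ^ 2 := by
          apply div_le_self (by positivity)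
          exact one_le_pow₀ hl1
      _ = P ^ (2 : ℝ) := by norm_cast
      _ ≤ P ^ C1 := Real.rpow_le_rpow_of_exponent_le hP1' hC1
  obtain ⟨q1, z0, h⟩ := hP1 P ((Real.log P) ^ E) (P ^ 2 / (Real.log P) ^ A') hPP1
    (hl.trans hlE) hY f hfk hfl hfR
  refine ⟨q1, z0, h, ?_⟩
  have h1 := hl0 (Real.log P) hl2
  rw [Real.exp_log hP0] at h1
  calc (q1 : ℝ) ≤ qnul f q1 z0 := by exact_mod_cast h.q1qn
    _ ≤ Real.exp (C2 * (Real.log P) ^ E) := h.qnle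
    _ ≤ Real.exp (κ0 * P) := Real.exp_le_exp.2 h1

end Vale.Agent.P042.H74
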