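import Vale.Agent.P042.SS.ANHolds

set_option autoImplicit false

/-!
P042, block [D]: the circle method of block AN with the dependence of the constants on `R`
(a multiple of the content) made explicit: all constants are linear in `R`.
(copies of the proofs `weyl_poly_of`, `complete_general`, `min_of`, `point_of`, `an_of`)
-/

namespace Vale.Agent.P042.H74
open Polynomial Finset Vale.Agent.P042.SS

theorem weyl_polyR_of {k C : ℕ} (hk : 1 ≤ k) (hC : 1 ≤ C) (hW : WeylStmt k C) (R : ℕ) (hR : 1 ≤ R) :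
    ∀ (H : ℤ[X]) (M : ℕ) (δ θ B : ℝ), H.natDegree = k → 0 < H.leadingCoeff →
    (∀ g : ℤ, (∀ j : ℕ, 1 ≤ j → g ∣ H.coeff j) → g ∣ (R : ℤ)) →
    0 < δ → δ ≤ 1 → 1 ≤ B → (∀ j : ℕ, |(H.coeff j : ℝ)| ≤ B) →
    (((4 * C * R : ℕ) : ℝ) * B / δ) ^ (C + 2) ≤ M →
    δ * M ≤ ‖∑ n ∈ Finset.Icc 1 M, e (θ * ((H.eval (n : ℤ) : ℤ) : ℝ))‖ →
    ∃ (q : ℕ) (a : ℤ), 1 ≤ q ∧ (q : ℝ) ≤ (((4 * C * R : ℕ) : ℝ) / δ) ^ (C + 2) ∧
      |θ - a / q| ≤ (((4 * C * R : ℕ) : ℝ) / δ) ^ (C + 2) / (H.leadingCoeff * (M : ℝ) ^ k) := by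
  intro H M δ θ B hdeg hlead hg hδ hδ1 hB hcoef hMbig hsum
  have hC1 : (1 : ℝ) ≤ C := by exact_mod_cast hC
  have hR1 : (1 : ℝ) ≤ R := by exact_mod_cast hR
  set Z : ℝ := ((4 * C * R : ℕ) : ℝ) / δ with hZ
  have hZeq : Z = 4 * C * R / δ := by rw [hZ]; push_cast; ring
  have hZ4 : 4 / δ ≤ Z := by
    rw [hZeq]
    have : (4 : ℝ) ≤ 4 * C * R := by nlinarith only [hC1, hR1]
    (clear * - this hδ; gcongr)
  have hδinv : 1 ≤ 1 / δ := by rw [le_div_iff₀ hδ]; linarith only [hδ1]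
  have hZ1 : 1 ≤ Z := by
    have : 4 / δ = 4 * (1 / δ) := by ring
    rw [this] at hZ4; linarith only [hZ4, hδinv]
  have hZB : ((4 * C * R : ℕ) : ℝ) * B / δ = Z * B := by rw [hZ]; ring
  rw [hZB] at hMbig
  have hM4 : 4 / δ ≤ M := by
    calc 4 / δ ≤ Z := hZ4
      _ ≤ Z * B := by nlinarith only [hB, hZ1]
      _ = (Z * B) ^ 1 := (pow_one _).symm
      _ ≤ (Z * B) ^ (C + 2) := pow_le_pow_right₀ (by nlinarith only [hB, hZ1]) (by omega)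
      _ ≤ M := hMbig
  have hM0 : (0 : ℝ) < M := lt_of_lt_of_le (by (clear * - hδ; positivity)) hM4
  have hMnat : 1 ≤ M := by
    have : 0 < M := by exact_mod_cast hM0
    omega
  -- the real polynomial
  set p : ℝ[X] := Polynomial.C θ * (H.map (Int.castRingHom ℝ)) with hp
  have hpeval : ∀ n : ℕ, p.eval (n : ℝ) = θ * ((H.eval (n : ℤ) : ℤ) : ℝ) := by
    intro n
    rw [hp, eval_mul, eval_C, eval_natCast_map]
    simp
  have hpcoeff : ∀ j, p.coeff j = θ * (H.coeff j : ℝ) := by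
    intro j
    rw [hp, coeff_C_mul, coeff_map]
    simp
  have hpdeg : p.natDegree ≤ k := by
    calc p.natDegree ≤ (H.map (Int.castRingHom ℝ)).natDegree := natDegree_C_mul_le _ _
      _ ≤ H.natDegree := natDegree_map_le
      _ = k := hdeg
  -- change of range
  have hrange : δ / 2 * M ≤ ‖∑ n ∈ Finset.range M, e (p.eval (n : ℝ))‖ := by
    have h1 : ∑ n ∈ Finset.Icc 1 M, e (θ * ((H.eval (n : ℤ) : ℤ) : ℝ)) =
        ∑ n ∈ Finset.range M, e (p.eval (n : ℝ)) + e (p.eval (M : ℝ)) - e (p.eval ((0 : ℕ) : ℝ)) := by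
      have h2 : Finset.Icc 1 M = Finset.Ico 1 (M + 1) := by
        ext x; simp only [Finset.mem_Icc, Finset.mem_Ico]; omega
      rw [h2, ← Finset.sum_range_succ (fun n : ℕ => e (p.eval (n : ℝ))),
        Finset.sum_Ico_eq_sub _ (by omega : 1 ≤ M + 1), Finset.sum_range_one]
      have h3 : ∀ n : ℕ, e (θ * ((H.eval (n : ℤ) : ℤ) : ℝ)) = e (p.eval (n : ℝ)) := by
        intro n; rw [hpeval]
      simp_rw [h3]
    have h4 : ‖∑ n ∈ Finset.Icc 1 M, e (θ * ((H.eval (n : ℤ) : ℤ) : ℝ))‖ ≤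
        ‖∑ n ∈ Finset.range M, e (p.eval (n : ℝ))‖ + 2 := by
      rw [h1]
      calc _ ≤ ‖∑ n ∈ Finset.range M, e (p.eval (n : ℝ)) + e (p.eval (M : ℝ))‖ +
            ‖e (p.eval ((0 : ℕ) : ℝ))‖ := norm_sub_le _ _
        _ ≤ ‖∑ n ∈ Finset.range M, e (p.eval (n : ℝ))‖ + ‖e (p.eval (M : ℝ))‖ +
            ‖e (p.eval ((0 : ℕ) : ℝ))‖ := by gcongr; exact norm_add_le _ _
        _ = _ := by rw [norm_e_one, norm_e_one]; ring
    have h5 : 2 ≤ δ / 2 * M := by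
      rw [div_le_iff₀ hδ] at hM4; nlinarith only [hM4]
    linarith only [hsum, h4, h5]
  obtain ⟨s, hs1, hs2, hs3⟩ := hW p M (δ / 2) hpdeg hMnat (by (clear * - hδ; positivity)) (by linarith only [hδ1]) hrange
  have hs0 : (0 : ℝ) < s := by exact_mod_cast hs1
  set K : ℝ := ((C : ℝ) / (δ / 2)) ^ C with hK
  have hK0 : 0 < K := by
    rw [hK]; have : (0 : ℝ) < C := by linarith only [hC1]
    positivity
  have hKR : K * R ≤ Z ^ C := by
    have h1 : (C : ℝ) / (δ / 2) * R ≤ Z := by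
      rw [hZeq]
      have : (C : ℝ) / (δ / 2) * R = 2 * C * R / δ := by field_simp
      rw [this]
      gcongr
      nlinarith only []
    calc K * R ≤ K * (R : ℝ) ^ C := by
          gcongr
          calc (R : ℝ) = (R : ℝ) ^ 1 := (pow_one _).symm
            _ ≤ (R : ℝ) ^ C := pow_le_pow_right₀ hR1 hC
      _ = ((C : ℝ) / (δ / 2) * R) ^ C := by rw [hK, mul_pow]
      _ ≤ Z ^ C := by
        have : (0 : ℝ) ≤ (C : ℝ) / (δ / 2) * R := by positivity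
        (clear * - hC hδ hR h1; gcongr)
  have hKZ : K ≤ Z ^ C := le_trans (by nlinarith only [hR1, hs2]) hKR
  have hZpow : Z ^ C ≤ Z ^ (C + 2) := pow_le_pow_right₀ hZ1 (by omega)
  have hbig : 2 * K * B ^ 2 < M := by
    have h1 : 2 * K * B ^ 2 < (Z * B) ^ (C + 2) := by
      have hB2 : B ^ 2 ≤ B ^ (C + 2) := pow_le_pow_right₀ hB (by omega)
      have hZ4' : 4 ≤ Z := by
        have : 4 / δ = 4 * (1 / δ) := by ring
        rw [this] at hZ4; linarith only [hZ4, hδinv]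
      calc 2 * K * B ^ 2 ≤ 2 * Z ^ C * B ^ (C + 2) := by (clear * - hKZ hB2 hB hC hR hδ; gcongr)
        _ < Z ^ 2 * Z ^ C * B ^ (C + 2) := by
          have : (2 : ℝ) < Z ^ 2 := by nlinarith only [hZ4']
          (clear * - this hC hR hδ hB; gcongr)
        _ = (Z * B) ^ (C + 2) := by ring
    linarith only [hMbig, h1]
  obtain ⟨g, a, hg1, hgR, hga⟩ := arith_core (u := s * θ) hk hdeg hlead hR hg hB hcoef hK0 hbig (by
    intro j hj hjk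
    obtain ⟨a, ha⟩ := hs3 j hj hjk
    refine ⟨a, ?_⟩
    rw [hpcoeff] at ha
    rw [mul_assoc]
    exact ha)
  have hg0 : (0 : ℝ) < g := by exact_mod_cast hg1
  have hgR' : (g : ℝ) ≤ R := by exact_mod_cast hgR
  refine ⟨s * g, a, Nat.mul_pos hs1 hg1, ?_, ?_⟩
  · push_cast
    calc (s : ℝ) * g ≤ K * R := by (clear * - hs2 hgR' hg1 hC hδ; gcongr)
      _ ≤ Z ^ C := hKR
      _ ≤ Z ^ (C + 2) := hZpow
  · have hlead' : (0 : ℝ) < (H.leadingCoeff : ℝ) := by exact_mod_cast hlead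
    have e1 : θ - (a : ℝ) / ((s * g : ℕ) : ℝ) = (s * θ - a / g) / s := by
      push_cast; (clear * - hg1 hs1; field_simp)
    rw [e1, abs_div, abs_of_pos hs0]
    have hs1' : (1 : ℝ) ≤ s := by exact_mod_cast hs1
    calc |s * θ - a / g| / s ≤ |s * θ - a / g| := div_le_self (abs_nonneg _) hs1'
      _ ≤ K / (H.leadingCoeff * (M : ℝ) ^ k) := hga
      _ ≤ Z ^ (C + 2) / (H.leadingCoeff * (M : ℝ) ^ k) := by
        gcongr
        exact hKZ.trans hZpow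

/-- complete sums with explicit constant -/
theorem complete_ofR {k E R K : ℕ} (hk : 1 ≤ k) (hE : 1 ≤ E) (hR : 1 ≤ R) (hK : 1 ≤ K)
    (hw : ∀ (H : ℤ[X]) (M : ℕ) (δ θ B : ℝ), H.natDegree = k → 0 < H.leadingCoeff →
      (∀ g : ℤ, (∀ j : ℕ, 1 ≤ j → g ∣ H.coeff j) → g ∣ (R : ℤ)) →
      0 < δ → δ ≤ 1 → 1 ≤ B → (∀ j : ℕ, |(H.coeff j : ℝ)| ≤ B) → (K * B / δ) ^ E ≤ M →
      δ * M ≤ ‖∑ n ∈ Finset.Icc 1 M, e (θ * ((H.eval (n : ℤ) : ℤ) : ℝ))‖ →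
      ∃ (q : ℕ) (a : ℤ), 1 ≤ q ∧ (q : ℝ) ≤ (K / δ) ^ E ∧
        |θ - a / q| ≤ (K / δ) ^ E / (H.leadingCoeff * (M : ℝ) ^ k)) :
    ∀ (H : ℤ[X]), H.natDegree = k → 0 < H.leadingCoeff →
    (∀ g : ℤ, (∀ j : ℕ, 1 ≤ j → g ∣ H.coeff j) → g ∣ (R : ℤ)) →
    ∀ (q : ℕ) [NeZero q] (a : ℤ), IsCoprime a (q : ℤ) →
      ‖ecs H a q‖ ^ E * q ≤ (K : ℝ) ^ E * (q : ℝ) ^ E := by
  intro H hdeg hlead hcont q _ a ha
  have hq : 1 ≤ q := NeZero.one_le
  have hq0 : (0 : ℝ) < q := by exact_mod_cast hq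
  rcases eq_or_ne (ecs H a q) 0 with h0 | h0
  · rw [h0, norm_zero, zero_pow (by omega), zero_mul]
    (clear * - hK hq; positivity)
  set δ : ℝ := ‖ecs H a q‖ / q with hδ
  have hδ0 : 0 < δ := div_pos (norm_pos_iff.2 h0) hq0
  have hδ1 : δ ≤ 1 := by rw [hδ, div_le_one hq0]; exact norm_ecs_le H a q
  -- bound on coefficients
  obtain ⟨B, hB1, hB⟩ : ∃ B : ℝ, 1 ≤ B ∧ ∀ j : ℕ, |(H.coeff j : ℝ)| ≤ B := by
    refine ⟨1 + ∑ j ∈ range (H.natDegree + 1), |(H.coeff j : ℝ)|, ?_, fun j => ?_⟩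
    · have : 0 ≤ ∑ j ∈ range (H.natDegree + 1), |(H.coeff j : ℝ)| :=
        Finset.sum_nonneg fun j _ => abs_nonneg _
      linarith only [this]
    · by_cases hj : j ∈ range (H.natDegree + 1)
      · have := Finset.single_le_sum (f := fun j => |(H.coeff j : ℝ)|) (fun i _ => abs_nonneg _) hj
        linarith only [this]
      · rw [Finset.mem_range] at hj
        rw [coeff_eq_zero_of_natDegree_lt (by omega)]
        have : 0 ≤ ∑ j ∈ range (H.natDegree + 1), |(H.coeff j : ℝ)| :=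
          Finset.sum_nonneg fun j _ => abs_nonneg _
        simp only [Int.cast_zero, abs_zero]
        linarith only [this]
  set Z : ℝ := (K / δ) ^ E with hZ
  have hZ0 : 0 < Z := by
    have : (0 : ℝ) < K := by exact_mod_cast hK
    (clear hk hE R hR hw hdeg hlead hcont ha hq0 hδ hδ0 hδ1 B hB1 hB hZ this; positivity)
  -- choose M
  obtain ⟨t, ht⟩ := exists_nat_gt ((K * B / δ) ^ E + q * Z * Z + 1)
  have ht1 : (1 : ℝ) ≤ t := by
    have : 0 ≤ (K * B / δ) ^ E := by (clear hk hE R hR hw hdeg hlead hcont ha hq0 hδ hδ0 hδ1 hB Z hZ hZ0 t ht; positivity)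
    have h2 : 0 ≤ q * Z * Z := by (clear hk hE R hR hw hdeg hlead hcont ha hq0 hδ hδ0 hδ1 B hB1 hB hZ hZ0 t ht this; positivity)
    (clear hk hE R hR hw hdeg hlead hcont ha hq0 hδ hδ0 hδ1 hB hZ hZ0; linarith)
  have ht1' : 1 ≤ t := by exact_mod_cast ht1
  set M : ℕ := t * q with hM
  have htM : (t : ℝ) ≤ M := by
    rw [hM]; push_cast
    have : (1 : ℝ) ≤ q := by exact_mod_cast hq
    nlinarith only [this]
  have hMbig : (K * B / δ) ^ E ≤ M := by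
    have h2 : 0 ≤ q * Z * Z := by (clear hk hE R hR hw hdeg hlead hcont ha hq0 hδ hδ0 hδ1 B hB1 hB hZ hZ0 t ht ht1 ht1' M hM htM; positivity)
    linarith
  have hMbig2 : q * Z * Z < M := by
    have : 0 ≤ (K * B / δ) ^ E := by (clear hk hE R hR hw hdeg hlead hcont ha hq0 hδ hδ0 hδ1 hB Z hZ hZ0 t ht ht1 ht1' M hM htM hMbig; positivity)
    (clear hk hE R hR hw hdeg hlead hcont ha hq0 hδ hδ0 hδ1 hB hZ hZ0 ht1 ht1' hMbig; linarith)
  have hsumM := full_sum H a q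
  have hsum : δ * M ≤ ‖∑ n ∈ Finset.Icc 1 M, e ((a : ℝ) / q * ((H.eval (n : ℤ) : ℤ) : ℝ))‖ := by
    rw [hM, hsumM t, norm_mul, Complex.norm_natCast, hδ]
    push_cast
    apply le_of_eq
    field_simp
  obtain ⟨q', a', hq'1, hq'2, hq'3⟩ := hw H M δ ((a : ℝ) / q) B hdeg hlead hcont hδ0 hδ1 hB1 hB
    hMbig hsum
  have hq'0 : (0 : ℝ) < q' := by exact_mod_cast hq'1
  have hMle : Z / (H.leadingCoeff * (M : ℝ) ^ k) ≤ Z / M := by
    apply div_le_div_of_nonneg_left hZ0.le (by linarith only [ht1, htM])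
    have h1 : (1 : ℝ) ≤ H.leadingCoeff := by exact_mod_cast hlead
    have hM1 : (1 : ℝ) ≤ M := by linarith only [ht1, htM]
    have h2 : (M : ℝ) ≤ (M : ℝ) ^ k := by
      calc (M : ℝ) = (M : ℝ) ^ 1 := (pow_one _).symm
        _ ≤ (M : ℝ) ^ k := pow_le_pow_right₀ hM1 hk
    nlinarith only [h2, h1]
  have hM0 : (0 : ℝ) < M := by linarith only [ht1, htM]
  have hlt : |((a * q' - a' * q : ℤ) : ℝ)| < 1 := by
    have h1 : ((a * q' - a' * q : ℤ) : ℝ) = (a / q - a' / q') * (q * q') := by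
      push_cast
      (clear * - hq'1 hq; field_simp)
    rw [h1, abs_mul, abs_of_pos (by positivity : (0 : ℝ) < q * q')]
    calc |(a : ℝ) / q - a' / q'| * (q * q') ≤ (Z / M) * (q * Z) := by
          apply mul_le_mul (hq'3.trans hMle) _ (by (clear * - hq hq'1; positivity)) (by (clear hk hE R hR hw hdeg hlead hcont ha hq0 hδ hδ0 hδ1 hB hZ hZ0 hM htM hMbig hMbig2 hsumM hsum q' a' hq'1 hq'2 hq'3 hq'0 hMle hM0 h1; positivity))
          exact mul_le_mul_of_nonneg_left hq'2 hq0.le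
      _ = q * Z * Z / M := by ring
      _ < 1 := by rw [div_lt_one hM0]; exact hMbig2
  have hzero : a * q' - a' * q = 0 := by
    have h1 : |(a * q' - a' * q : ℤ)| < 1 := by exact_mod_cast hlt
    exact Int.abs_lt_one_iff.1 h1
  have hdvd : (q : ℤ) ∣ (q' : ℤ) := by
    apply ha.symm.dvd_of_dvd_mul_left
    exact ⟨a', by linear_combination hzero⟩
  have hqq : q ≤ q' := Nat.le_of_dvd (by (clear * - hq'1; omega)) (by exact_mod_cast hdvd)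
  have hqZ : (q : ℝ) ≤ Z := by
    have : (q : ℝ) ≤ q' := by exact_mod_cast hqq
    exact this.trans hq'2
  have hδE : δ ^ E * q ≤ (K : ℝ) ^ E := by
    calc δ ^ E * q ≤ δ ^ E * Z := mul_le_mul_of_nonneg_left hqZ (by (clear hk hE R hR K hK hw hdeg hlead hcont ha hq0 hδ hδ0 hδ1 B hB1 hB Z hZ hZ0 t ht ht1 ht1' M hM htM hMbig hMbig2 hsumM hsum q' a' hq'1 hq'2 hq'3 hq'0 hMle hM0 hlt hzero hdvd hqq hqZ; positivity))
      _ = (K : ℝ) ^ E := by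
        rw [hZ, ← mul_pow, ← mul_div_assoc, mul_div_cancel_left₀ _ hδ0.ne']
  have h5 : ‖ecs H a q‖ = δ * q := by rw [hδ]; (clear hk hE R hR K hK hw hdeg hlead hcont ha hq0 δ hδ hδ0 hδ1 B hB1 hB Z hZ hZ0 t ht ht1 ht1' M hM htM hMbig hMbig2 hsumM hsum q' a' hq'1 hq'2 hq'3 hq'0 hMle hM0 hlt hzero hdvd hqq hqZ hδE; field_simp)
  rw [h5, mul_pow]
  calc δ ^ E * (q : ℝ) ^ E * q = (δ ^ E * q) * (q : ℝ) ^ E := by ring
    _ ≤ (K : ℝ) ^ E * (q : ℝ) ^ E := mul_le_mul_of_nonneg_right hδE (by positivity)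

/-- minor arcs with explicit constant -/
theorem min_ofR (hVar : VarStmt) {k : ℕ} (hk : 2 ≤ k) {C : ℝ} (hC : 1 ≤ C) {E0 R K0 K : ℕ}
    (hK0 : 1 ≤ K0) (hK : 136 * C * K0 ≤ K)
    (hW : ∀ (H : ℤ[X]) (M : ℕ) (δ θ B : ℝ), H.natDegree = k → 0 < H.leadingCoeff →
      (∀ g : ℤ, (∀ j : ℕ, 1 ≤ j → g ∣ H.coeff j) → g ∣ (R : ℤ)) →
      0 < δ → δ ≤ 1 → 1 ≤ B → (∀ j : ℕ, |(H.coeff j : ℝ)| ≤ B) → (K0 * B / δ) ^ E0 ≤ M →
      δ * M ≤ ‖∑ n ∈ Finset.Icc 1 M, e (θ * ((H.eval (n : ℤ) : ℤ) : ℝ))‖ →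
      ∃ (q : ℕ) (a : ℤ), 1 ≤ q ∧ (q : ℝ) ≤ (K0 / δ) ^ E0 ∧
        |θ - a / q| ≤ (K0 / δ) ^ E0 / (H.leadingCoeff * (M : ℝ) ^ k)) :
    ∀ (f : ℤ[X]) (H x0 X : ℕ) (g δ B θ : ℝ), f.natDegree = k → 0 < f.leadingCoeff →
    (∀ g : ℤ, (∀ j : ℕ, 1 ≤ j → g ∣ f.coeff j) → g ∣ (R : ℤ)) →
    0 < δ → δ ≤ 1 → 1 ≤ B → (∀ j : ℕ, |(f.coeff j : ℝ)| ≤ B) →
    (K * B / δ) ^ (k * E0 + k + 2) ≤ (H : ℝ) → Grow k f H x0 X g C →
    ‖Sx f H x0 X θ‖ ≤ δ ∨
      ∃ (q : ℕ) (a : ℤ), 1 ≤ q ∧ (q : ℝ) ≤ (K / δ) ^ (k * E0 + k + 2) ∧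
        |θ - a / q| ≤ (K / δ) ^ (k * E0 + k + 2) / H := by
  have hC0 : 0 < C := by linarith
  have hK0r : (1 : ℝ) ≤ K0 := by exact_mod_cast hK0
  have hCK0 : C ≤ C * K0 := le_mul_of_one_le_right hC0.le hK0r
  have hKr : (1 : ℝ) ≤ K := by linarith
  intro f H x0 X g δ B θ hdeg hlead hR' hδ hδ1 hB hcoef hH hG
  have hB0 : 0 < B := by linarith
  have hX0 : (0 : ℝ) ≤ X := Nat.cast_nonneg X
  have hKB1 : (1 : ℝ) ≤ K * B / δ := by
    rw [le_div_iff₀ hδ]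
    have := mul_le_mul hKr hB (by norm_num) (by linarith : (0:ℝ) ≤ K)
    linarith
  have hH1 : (1 : ℝ) ≤ H := (one_le_pow₀ hKB1).trans hH
  have hHpos : (0 : ℝ) < H := by linarith
  have hHn : 1 ≤ H := by exact_mod_cast hH1
  obtain ⟨δ', hδ'⟩ : ∃ δ' : ℝ, δ' = δ / (68 * C) := ⟨_, rfl⟩
  have hδ'0 : 0 < δ' := by rw [hδ']; positivity
  have hδ'1 : δ' ≤ 1 := by
    rw [hδ', div_le_one (by positivity)]
    linarith
  have hinv : 1 / δ' = 68 * C / δ := by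
    rw [hδ']
    field_simp
  have hlc : (f.leadingCoeff : ℝ) ≤ B := (le_abs_self _).trans (hcoef f.natDegree)
  have hlc0 : (0 : ℝ) ≤ f.leadingCoeff := by exact_mod_cast hlead.le
  have hXbig := anmin_large k E0 C K K0 B δ δ' H X f.leadingCoeff hC hK0r hK hB hδ hδ1 hinv hδ'0
    hX0 hlc0 hlc hH hG.lead
  have hpow1 : (1 : ℝ) ≤ (K0 * B / δ') ^ E0 := by
    apply one_le_pow₀
    rw [le_div_iff₀ hδ'0]
    have := mul_le_mul hK0r hB (by norm_num) (by linarith : (0:ℝ) ≤ K0)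
    linarith
  have hδX2 : 2 * (K0 * B / δ') ^ E0 ≤ δ' * X := by
    have := mul_le_mul_of_nonneg_left hXbig hδ'0.le
    calc 2 * (K0 * B / δ') ^ E0 = δ' * (2 / δ' * (K0 * B / δ') ^ E0) := by
          field_simp
      _ ≤ δ' * X := this
  by_cases halt : ∃ M : ℕ, δ' * X < M ∧ M ≤ X ∧
      δ' * M ≤ ‖∑ n ∈ Icc 1 M, e (θ * ((f.eval (n : ℤ) : ℤ) : ℝ))‖
  · right
    obtain ⟨M, hM1, hM2, hM3⟩ := halt
    obtain ⟨q, a, hq1, hq2, hq3⟩ := hW f M δ' θ B hdeg hlead hR' hδ'0 hδ'1 hB hcoef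
      (by linarith) hM3
    obtain ⟨h1, h2⟩ := anmin_maj k E0 C K K0 δ δ' H X M f.leadingCoeff hC hK0r hK hδ hδ1 hinv hδ'0
      hX0 hlc0 hHpos hG.lead hM1.le (by omega)
    exact ⟨q, a, hq1, hq2.trans h1, hq3.trans h2⟩
  · left
    push Not at halt
    refine (anmin_abel hVar k f H x0 X g C δ' θ hHn hG hδ'0 (by linarith) halt).trans (le_of_eq ?_)
    rw [hδ']
    field_simp

/-- the pointwise claim with explicit constant -/
theorem point_ofR {k : ℕ} (hk : 2 ≤ k) {C : ℝ} {Eg E1 E2 K1 K2 Cn R : ℕ} (hC : 1 ≤ C)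
    (hEg : 1 ≤ Eg) (hE1 : 1 ≤ E1) (hE2 : 1 ≤ E2) (hK1 : 1 ≤ K1) (hK2 : 1 ≤ K2) (hCn : C ≤ Cn)
    (hGr : ∀ (f : ℤ[X]) (H : ℕ) (B : ℝ), f.natDegree = k → 0 < f.leadingCoeff → 1 ≤ B →
      (∀ j : ℕ, |(f.coeff j : ℝ)| ≤ B) → (C * B) ^ Eg ≤ (H : ℝ) →
      ∃ (x0 X : ℕ) (g : ℝ), Grow k f H x0 X g C)
    (hVt : VtStmt)
    (hMin : ∀ (f : ℤ[X]) (H x0 X : ℕ) (g δ B θ : ℝ), f.natDegree = k → 0 < f.leadingCoeff →
      (∀ g : ℤ, (∀ j : ℕ, 1 ≤ j → g ∣ f.coeff j) → g ∣ (R : ℤ)) →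
      0 < δ → δ ≤ 1 → 1 ≤ B → (∀ j : ℕ, |(f.coeff j : ℝ)| ≤ B) →
      (K1 * B / δ) ^ E1 ≤ (H : ℝ) → Grow k f H x0 X g C →
      ‖Sx f H x0 X θ‖ ≤ δ ∨
        ∃ (q : ℕ) (a : ℤ), 1 ≤ q ∧ (q : ℝ) ≤ (K1 / δ) ^ E1 ∧ |θ - a / q| ≤ (K1 / δ) ^ E1 / H)
    (hMaj : MajStmt) (hSep : SepStmt)
    (hGam : ∀ f : ℤ[X], f.natDegree = k → 0 < f.leadingCoeff →
      (∀ g : ℤ, (∀ j : ℕ, 1 ≤ j → g ∣ f.coeff j) → g ∣ (R : ℤ)) →
      ∀ (q : ℕ) (a : ℤ), 1 ≤ q → IsCoprime a (q : ℤ) → ‖Gam f a q‖ ^ E2 * q ≤ (K2 : ℝ) ^ E2) :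
    ∀ (f : ℤ[X]) (H Q : ℕ) (δ B : ℝ), f.natDegree = k → 0 < f.leadingCoeff →
    (∀ g : ℤ, (∀ j : ℕ, 1 ≤ j → g ∣ f.coeff j) → g ∣ (R : ℤ)) →
    0 < δ → δ ≤ 1 → 1 ≤ B → (∀ j : ℕ, |(f.coeff j : ℝ)| ≤ B) →
    (((4 * (K1 + K2) + 800 * Cn ^ 2 : ℕ) : ℝ) / δ) ^ (E1 + E2 + Eg + 2 * k + 3) ≤ (Q : ℝ) →
    (((4 * (K1 + K2) + 800 * Cn ^ 2 : ℕ) : ℝ) * B * Q / δ) ^ (E1 + E2 + Eg + 2 * k + 3) ≤ (H : ℝ) →
    ∃ x0 X : ℕ, 1 ≤ x0 ∧ ∀ θ : ℝ, ‖Sx f H x0 X θ - Mn f H Q θ‖ ≤ δ := by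
  intro f H Q δ B hdeg hlead hcont hδ hδ1 hB hcoef hQ hH
  obtain ⟨n1, n2, n3, n4, n5, n6, n7, n8, n9, n10, n11⟩ := point_num k E1 E2 Eg K1 K2 Cn C δ B Q H
    hE1 hK1 hK2 hC hCn hδ hδ1 hB hQ hH
  obtain ⟨x0, X, g, hG⟩ := hGr f H B hdeg hlead hB hcoef n3
  refine ⟨x0, X, hG.x0pos, fun θ => ?_⟩
  obtain ⟨Q2, hQ2⟩ : ∃ Q2 : ℝ, Q2 = (4 * ((K1 : ℝ) + K2) / δ) ^ (E1 + E2 + 1) := ⟨_, rfl⟩
  rw [← hQ2] at n5 n6 n7 n8
  have hH1 : 1 ≤ H := by exact_mod_cast n2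
  have hQ1 : 1 ≤ Q := by exact_mod_cast n1
  have hH0 : (0 : ℝ) < H := by linarith only [n2]
  have hQ21 : 1 ≤ Q2 := by
    refine le_trans ?_ n6
    rw [le_div_iff₀ hδ]; linarith only [hδ1]
  obtain ⟨qs, as, hqs1, hqsQ, hasq, hcop, hMn, hfar⟩ := hSep f H Q θ hH1 hQ1
  obtain ⟨_, _, _, _, _, _, hVper, _, hVdec⟩ := hVt H hH1
  have hMn' : ‖Mn f H Q θ - Gam f as qs * Vk H (θ - (as : ℝ) / qs)‖ ≤ δ / 4 := hMn.trans n10
  by_cases hcase : ∃ (q : ℕ) (a : ℤ), 1 ≤ q ∧ (q : ℝ) ≤ Q2 ∧ |θ - a / q| ≤ Q2 / H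
  · obtain ⟨q0, a0, hq0, hq0Q, hθ⟩ := hcase
    obtain ⟨q, a, hq, hqq0, hcop', hred⟩ := exists_reduced q0 a0 hq0
    rw [hred] at hθ
    have hqr : (q : ℝ) ≤ Q2 := le_trans (by exact_mod_cast hqq0) hq0Q
    have hqr0 : (0 : ℝ) < q := by exact_mod_cast hq
    have hqQ : q ≤ Q := by
      have : (q : ℝ) ≤ Q := hqr.trans n5
      exact_mod_cast this
    -- residue of the numerator
    set n : ℤ := a / (q : ℤ) with hn
    set r : ℤ := a % (q : ℤ) with hr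
    have hqz : (0 : ℤ) < q := by exact_mod_cast hq
    have hr0 : 0 ≤ r := Int.emod_nonneg _ hqz.ne'
    have hrq : r < q := Int.emod_lt_of_pos _ hqz
    have har : a = r + q * n := by
      have := Int.emod_add_mul_ediv a q
      linarith only [this]
    obtain ⟨b, hb⟩ := Int.eq_ofNat_of_zero_le hr0
    have hbr : (b : ℤ) = r := hb.symm
    have hbq : b < q := by
      have : (b : ℤ) < q := by rw [hbr]; exact hrq
      exact_mod_cast this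
    have hbcop : Nat.Coprime q b := by
      have h1 : IsCoprime (r + q * n) (q : ℤ) := by rw [← har]; exact hcop'
      have h2 : IsCoprime r (q : ℤ) := by
        have h3 := IsCoprime.of_add_mul_left_left (x := r) (y := (q : ℤ)) (z := n) h1
        exact h3
      rw [← hbr] at h2
      exact (Nat.isCoprime_iff_coprime.1 h2).symm
    have hthe : θ - (a : ℝ) / q = θ - (b : ℝ) / q - (n : ℝ) := by
      have h1 : (a : ℝ) = b + q * n := by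
        have : a = (b : ℤ) + q * n := by rw [hbr]; exact har
        rw [this]; push_cast; ring
      rw [h1, add_div, mul_div_cancel_left₀ _ hqr0.ne']
      ring
    have heq : (q, b) = (qs, as) := by
      by_contra hne
      have h1 := hfar q b hq hqQ hbq hbcop hne n
      rw [← hthe] at h1
      have h2 := h1.trans hθ
      rw [div_le_div_iff₀ (by positivity) hH0] at h2
      have h3 : Q2 * (2 * (Q : ℝ) ^ 2) ≤ 2 * (Q : ℝ) ^ 3 := by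
        have : Q2 * (2 * (Q : ℝ) ^ 2) ≤ Q * (2 * (Q : ℝ) ^ 2) :=
          mul_le_mul_of_nonneg_right n5 (by positivity)
        refine this.trans (le_of_eq ?_)
        ring
      have h4 : 0 < (Q : ℝ) ^ 3 := by positivity
      nlinarith only [h2, h3, h4, n9]
    rw [Prod.mk.injEq] at heq
    obtain ⟨he1, he2⟩ := heq
    subst he1 he2
    have hmaj := hMaj k f H x0 X q a g C θ hH1 hq hG
    have hGa : Gam f a q = Gam f b q := by
      rw [har, ← hbr]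
      exact anpt_Gam_add_mul f b n q hq
    have hVa : Vk H (θ - (a : ℝ) / q) = Vk H (θ - (b : ℝ) / q) := by
      rw [hthe]
      have := hVper (θ - (b : ℝ) / q) (-n)
      rw [← this]
      congr 1
      push_cast
      ring
    have hθ' := hθ
    rw [hGa, hVa] at hmaj
    have hsmall : 200 * q * (1 + |θ - (a : ℝ) / q| * H) * g / H ≤ δ / 2 := by
      have h1 : |θ - (a : ℝ) / q| * H ≤ Q2 := by
        rw [le_div_iff₀ hH0] at hθ
        exact hθ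
      have hX0 : (0 : ℝ) < X := by
        have : 0 < X := lt_of_le_of_lt (Nat.zero_le _) hG.x0lt
        exact_mod_cast this
      have hg0 : 0 ≤ g := by
        have h1 := hG.gpos x0 le_rfl
        have h2 := hG.gle x0 le_rfl hG.x0lt.le
        linarith only [h1, h2]
      have hgX : g / H ≤ C / X := by
        rw [div_le_div_iff₀ hH0 hX0]
        exact hG.gX
      have hXbig : 800 * C * (Q : ℝ) ^ 2 / δ ≤ X := by
        by_contra hlt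
        push Not at hlt
        have h2 : (X : ℝ) ^ k < (800 * C * (Q : ℝ) ^ 2 / δ) ^ k :=
          pow_lt_pow_left₀ hlt hX0.le (by omega)
        have h3 : (f.leadingCoeff : ℝ) ≤ B := (le_abs_self _).trans (hcoef f.natDegree)
        have h4 := hG.lead
        have hl0 : (0 : ℝ) < f.leadingCoeff := by exact_mod_cast hlead
        have h5 : C * f.leadingCoeff * (X : ℝ) ^ k < C * B * (800 * C * (Q : ℝ) ^ 2 / δ) ^ k := by
          have h6 : C * f.leadingCoeff ≤ C * B := mul_le_mul_of_nonneg_left h3 (by linarith only [hC])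
          have h7 : 0 < C * f.leadingCoeff := mul_pos (by linarith only [hC]) hl0
          calc C * f.leadingCoeff * (X : ℝ) ^ k
              < C * f.leadingCoeff * (800 * C * (Q : ℝ) ^ 2 / δ) ^ k :=
                mul_lt_mul_of_pos_left h2 h7
            _ ≤ _ := mul_le_mul_of_nonneg_right h6 (by positivity)
        linarith only [h4, h5, n11]
      have h6 : (200 : ℝ) * q * (1 + |θ - (a : ℝ) / q| * H) ≤ 400 * (Q : ℝ) ^ 2 := by
        have h7 : (q : ℝ) ≤ Q := hqr.trans n5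
        have h8 : 1 + |θ - (a : ℝ) / q| * H ≤ 2 * Q := by
          linarith only [h1, n5, n1]
        have h9 : (q : ℝ) * (1 + |θ - (a : ℝ) / q| * H) ≤ Q * (2 * Q) :=
          mul_le_mul h7 h8 (by positivity) (by linarith only [n1])
        nlinarith only [h9]
      calc 200 * q * (1 + |θ - (a : ℝ) / q| * H) * g / H
          = (200 * q * (1 + |θ - (a : ℝ) / q| * H)) * (g / H) := by ring
        _ ≤ 400 * (Q : ℝ) ^ 2 * (C / X) :=
            mul_le_mul h6 hgX (by positivity) (by positivity)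
        _ ≤ δ / 2 := by
            rw [← mul_div_assoc, div_le_iff₀ hX0]
            rw [div_le_iff₀ hδ] at hXbig
            nlinarith only [hXbig]
    calc ‖Sx f H x0 X θ - Mn f H Q θ‖
        = ‖(Sx f H x0 X θ - Gam f b q * Vk H (θ - (b : ℝ) / q)) -
          (Mn f H Q θ - Gam f b q * Vk H (θ - (b : ℝ) / q))‖ := by congr 1; ring
      _ ≤ δ / 2 + δ / 4 := (norm_sub_le _ _).trans (add_le_add (hmaj.trans hsmall) hMn')
      _ ≤ δ := by linarith only [hδ]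
  · have hS : ‖Sx f H x0 X θ‖ ≤ δ / 4 := by
      rcases hMin f H x0 X g (δ / 4) B θ hdeg hlead hcont (by positivity) (by linarith only [hδ1])
        hB hcoef n4 hG with h | ⟨q, a, hq, hqK, hθ⟩
      · exact h
      · exfalso
        apply hcase
        exact ⟨q, a, hq, hqK.trans n7, hθ.trans (div_le_div_of_nonneg_right n7 hH0.le)⟩
    have hT : ‖Gam f as qs * Vk H (θ - (as : ℝ) / qs)‖ ≤ δ / 4 := by
      rw [norm_mul]
      rcases le_or_gt (qs : ℝ) Q2 with h1 | h1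
      · have h2 : ∀ n : ℤ, Q2 / H ≤ |θ - (as : ℝ) / qs - n| := by
          intro n
          by_contra hlt
          push Not at hlt
          apply hcase
          refine ⟨qs, as + qs * n, hqs1, h1, ?_⟩
          have hq0 : (qs : ℝ) ≠ 0 := by
            have : qs ≠ 0 := by omega
            exact_mod_cast this
          have h3 : θ - ((as + qs * n : ℤ) : ℝ) / qs = θ - (as : ℝ) / qs - n := by
            push_cast
            field_simp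
            ring
          rw [h3]
          exact hlt.le
        have h3 := hVdec (θ - (as : ℝ) / qs) (Q2 / H) (by positivity) h2
        have h4 : 1 / (4 * (H : ℝ) ^ 2 * (Q2 / H) ^ 2) ≤ δ / 4 := by
          have e1 : 4 * (H : ℝ) ^ 2 * (Q2 / H) ^ 2 = 4 * Q2 ^ 2 := by
            field_simp
          rw [e1, div_le_div_iff₀ (by positivity) (by norm_num)]
          rw [div_le_iff₀ hδ] at n6
          nlinarith only [n6, hQ21, hδ, mul_le_mul_of_nonneg_left hQ21 (by positivity : 0 ≤ Q2 * δ)]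
        calc _ ≤ 1 * (δ / 4) := mul_le_mul (norm_Gam_le_one f as qs hqs1) (h3.trans h4)
              (norm_nonneg _) zero_le_one
          _ = δ / 4 := one_mul _
      · have h2 := hGam f hdeg hlead hcont qs as hqs1
          (Nat.isCoprime_iff_coprime.2 hcop.symm)
        have h3 := Gam_coprime_small hE2 hqs1 hδ h2 n8 h1
        obtain ⟨_, _, _, _, _, _, _, hV1, _⟩ := hVt H hH1
        calc _ ≤ (δ / 4) * 1 := mul_le_mul h3 (hV1 _) (norm_nonneg _) (by positivity)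
          _ = δ / 4 := mul_one _
    calc ‖Sx f H x0 X θ - Mn f H Q θ‖
        = ‖Sx f H x0 X θ - Gam f as qs * Vk H (θ - (as : ℝ) / qs) -
          (Mn f H Q θ - Gam f as qs * Vk H (θ - (as : ℝ) / qs))‖ := by congr 1; ring
      _ ≤ (δ / 4 + δ / 4) + δ / 4 := by
          refine (norm_sub_le _ _).trans (add_le_add ?_ hMn')
          exact (norm_sub_le _ _).trans (add_le_add hS hT)
      _ ≤ δ := by linarith only [hδ]

theorem an_ofR {k : ℕ} (hk : 2 ≤ k) {E K R : ℕ} (hE : 1 ≤ E) (hK : 1 ≤ K)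
    (hP : ∀ (f : ℤ[X]) (H Q : ℕ) (δ B : ℝ), f.natDegree = k → 0 < f.leadingCoeff →
      (∀ g : ℤ, (∀ j : ℕ, 1 ≤ j → g ∣ f.coeff j) → g ∣ (R : ℤ)) →
      0 < δ → δ ≤ 1 → 1 ≤ B → (∀ j : ℕ, |(f.coeff j : ℝ)| ≤ B) →
      (K / δ) ^ E ≤ (Q : ℝ) → (K * B * Q / δ) ^ E ≤ (H : ℝ) →
      ∃ x0 X : ℕ, 1 ≤ x0 ∧ ∀ θ : ℝ, ‖Sx f H x0 X θ - Mn f H Q θ‖ ≤ δ) (hF : FouStmt) :
    ∀ (f : ℤ[X]) (N' H Q : ℕ) (δ B : ℝ) (G : ℤ → ℝ), f.natDegree = k → 0 < f.leadingCoeff →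
    (∀ g : ℤ, (∀ j : ℕ, 1 ≤ j → g ∣ f.coeff j) → g ∣ (R : ℤ)) →
    0 < δ → δ ≤ 1 → 1 ≤ B → (∀ j : ℕ, |(f.coeff j : ℝ)| ≤ B) →
    8 * H ≤ N' → N' ≤ 16 * H → (((16 * K : ℕ) : ℝ) / δ) ^ E ≤ (Q : ℝ) →
    (((16 * K : ℕ) : ℝ) * B * Q / δ) ^ E ≤ (N' : ℝ) →
    (∀ n, 0 ≤ G n) → (∀ n, G n ≠ 0 → 1 ≤ n ∧ n ≤ N') →
    (∀ n m : ℤ, G n ≠ 0 → G m ≠ 0 → ∀ x : ℕ, 1 ≤ x → n - m = f.eval (x : ℤ) → n = m) →
    ‖∑ q ∈ Icc 1 Q, ∑ a ∈ (range q).filter (Nat.Coprime q),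
      Gam f a q * Bil G N' H ((a : ℝ) / q)‖ ≤
      δ * (H : ℝ) ^ 2 * ∑ n ∈ Icc (1 : ℤ) N', G n ^ 2 := by
  intro f N' H Q δ B G hdeg hlead hcont hδ hδ1 hB hcoef h8 h16 hQ hN hG0 hGs hfree
  have hKr : (1 : ℝ) ≤ K := by exact_mod_cast hK
  have hy1 : 1 ≤ ((16 * K : ℕ) : ℝ) / δ := by
    rw [le_div_iff₀ hδ]; push_cast; linarith only [hδ1, hKr]
  have hQ1 : (1 : ℝ) ≤ Q := (one_le_pow₀ hy1).trans hQ
  have hQK : ((K : ℝ) / δ) ^ E ≤ Q := by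
    refine le_trans (pow_le_pow_left₀ (by positivity) ?_ _) hQ
    apply div_le_div_of_nonneg_right _ hδ.le
    push_cast
    linarith only [hKr]
  have hHK : ((K : ℝ) * B * Q / δ) ^ E ≤ H := by
    have h1 : (16 : ℝ) * ((K : ℝ) * B * Q / δ) ^ E ≤ N' := by
      refine le_trans ?_ hN
      have e1 : ((16 * K : ℕ) : ℝ) * B * Q / δ = 16 * ((K : ℝ) * B * Q / δ) := by
        push_cast; ring
      rw [e1, mul_pow]
      apply mul_le_mul_of_nonneg_right _ (by positivity)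
      exact le_self_pow₀ (by norm_num) (by omega)
    have h2 : (N' : ℝ) ≤ 16 * H := by exact_mod_cast h16
    linarith only [h1, h2]
  obtain ⟨x0, X, hx0, hpt⟩ := hP f H Q δ B hdeg hlead hcont hδ hδ1 hB hcoef hQK hHK
  have hH1 : 1 ≤ H := by
    have h1 : 1 ≤ ((K : ℝ) * B * Q / δ) ^ E := by
      apply one_le_pow₀
      rw [le_div_iff₀ hδ, one_mul]
      have h2 : 1 ≤ (K : ℝ) * B := by nlinarith only [hKr, hB]
      have h3 : 1 ≤ (K : ℝ) * B * Q := by nlinarith only [h2, hQ1]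
      linarith only [h3, hδ1]
    have h2 : (1 : ℝ) ≤ H := h1.trans hHK
    exact_mod_cast h2
  exact hF f N' H Q x0 X δ G hH1 h8 hx0 hδ.le hG0 hGs hfree hpt


/-- **circle method, constants linear in `R`** -/
theorem an_R (k : ℕ) (hk : 2 ≤ k) : ∃ E C : ℕ, 1 ≤ E ∧ 1 ≤ C ∧ ∀ R : ℕ, 1 ≤ R →
    ∀ (f : ℤ[X]) (N' H Q : ℕ) (δ B : ℝ) (G : ℤ → ℝ), f.natDegree = k → 0 < f.leadingCoeff →
    (∀ g : ℤ, (∀ j : ℕ, 1 ≤ j → g ∣ f.coeff j) → g ∣ (R : ℤ)) →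
    0 < δ → δ ≤ 1 → 1 ≤ B → (∀ j : ℕ, |(f.coeff j : ℝ)| ≤ B) →
    8 * H ≤ N' → N' ≤ 16 * H → (((C * R : ℕ) : ℝ) / δ) ^ E ≤ (Q : ℝ) →
    (((C * R : ℕ) : ℝ) * B * Q / δ) ^ E ≤ (N' : ℝ) →
    (∀ n, 0 ≤ G n) → (∀ n, G n ≠ 0 → 1 ≤ n ∧ n ≤ N') →
    (∀ n m : ℤ, G n ≠ 0 → G m ≠ 0 → ∀ x : ℕ, 1 ≤ x → n - m = f.eval (x : ℤ) → n = m) →
    ‖∑ q ∈ Icc 1 Q, ∑ a ∈ (range q).filter (Nat.Coprime q),
      Gam f a q * Bil G N' H ((a : ℝ) / q)‖ ≤
      δ * (H : ℝ) ^ 2 * ∑ n ∈ Icc (1 : ℤ) N', G n ^ 2 := by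
  obtain ⟨Cg, Eg, hCg, hEg, hGr⟩ := grow_holds k hk
  obtain ⟨Cn, hCn⟩ := exists_nat_ge Cg
  obtain ⟨Cw, hCw, hW⟩ := weyl k
  have hCn1 : 1 ≤ Cn := by
    have : (1 : ℝ) ≤ Cn := hCg.trans hCn
    exact_mod_cast this
  refine ⟨(k * (Cw + 2) + k + 2) + (Cw + 2) + Eg + 2 * k + 3,
    16 * (4 * (136 * Cn * (4 * Cw) + 4 * Cw) + 800 * Cn ^ 2), by omega,
    Nat.succ_le_of_lt (by have : 0 < Cn := hCn1; positivity), ?_⟩
  intro R hR
  have hw := weyl_polyR_of (by omega : 1 ≤ k) hCw hW R hR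
  have hK0 : 1 ≤ 4 * Cw * R := Nat.mul_pos (by omega) hR
  have hK1 : 1 ≤ 136 * Cn * (4 * Cw * R) := Nat.mul_pos (by omega) hK0
  have hmin := min_ofR (var_of vt_holds) hk hCg (R := R) (K := 136 * Cn * (4 * Cw * R)) hK0 (by
    push_cast
    have h1 : (0 : ℝ) ≤ 4 * Cw * R := by positivity
    nlinarith only [mul_le_mul_of_nonneg_right hCn h1]) hw
  have hgam : ∀ f : ℤ[X], f.natDegree = k → 0 < f.leadingCoeff →
      (∀ g : ℤ, (∀ j : ℕ, 1 ≤ j → g ∣ f.coeff j) → g ∣ (R : ℤ)) →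
      ∀ (q : ℕ) (a : ℤ), 1 ≤ q → IsCoprime a (q : ℤ) →
        ‖Gam f a q‖ ^ (Cw + 2) * q ≤ ((4 * Cw * R : ℕ) : ℝ) ^ (Cw + 2) := by
    intro f hdeg hlead hcont q a hq ha
    have : NeZero q := ⟨by omega⟩
    have h1 := complete_ofR (by omega : 1 ≤ k) (by omega) hR hK0 hw f hdeg hlead hcont q a ha
    have hq0 : (0 : ℝ) < q := by exact_mod_cast hq
    have h2 : ‖Gam f a q‖ = ‖ecs f a q‖ / q := by
      unfold Gam
      rw [norm_div, Complex.norm_natCast, sum_range_eq_ecs]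
    rw [h2, div_pow, div_mul_eq_mul_div, div_le_iff₀ (by positivity)]
    exact h1
  have hpt := point_ofR hk hCg hEg (by omega) (by omega) hK1 hK0 hCn hGr vt_holds hmin maj_holds
    (sep_of vt_holds) hgam
  have han := an_ofR hk (R := R) (by omega) (by omega) hpt fou_holds
  intro f N' H Q δ B G hdeg hlead hcont hδ hδ1 hB hcoef h8 h16 hQ hN hG0 hGs hfree
  have hle : 16 * (4 * (136 * Cn * (4 * Cw * R) + 4 * Cw * R) + 800 * Cn ^ 2) ≤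
      16 * (4 * (136 * Cn * (4 * Cw) + 4 * Cw) + 800 * Cn ^ 2) * R := by
    have h1 : 800 * Cn ^ 2 ≤ 800 * Cn ^ 2 * R := Nat.le_mul_of_pos_right _ hR
    nlinarith only [h1]
  have hle' : ((16 * (4 * (136 * Cn * (4 * Cw * R) + 4 * Cw * R) + 800 * Cn ^ 2) : ℕ) : ℝ) ≤
      ((16 * (4 * (136 * Cn * (4 * Cw) + 4 * Cw) + 800 * Cn ^ 2) * R : ℕ) : ℝ) := by
    exact_mod_cast hle
  refine han f N' H Q δ B G hdeg hlead hcont hδ hδ1 hB hcoef h8 h16 ?_ ?_ hG0 hGs hfree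
  · refine le_trans ?_ hQ
    gcongr
  · refine le_trans ?_ hN
    gcongr

end Vale.Agent.P042.H74
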