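import Vale.Agent.P042.H74.AnW

set_option autoImplicit false

/-!
P042, block [D]: the circle method with sieve weights, main statement.
-/

namespace Vale.Agent.P042.H74
open Polynomial Finset Vale.Agent.P042.SS

theorem window_sum (g : ℤ → ℝ) (N' H : ℕ) (Y : Finset ℤ) (c : ℤ) (hg0 : ∀ n, 0 ≤ g n)
    (hgs : ∀ n, g n ≠ 0 → 1 ≤ n ∧ n ≤ N') :
    ∑ y ∈ Y, ∑ m ∈ Ioc (y + c) (y + c + H), g m ≤ H * ∑ n ∈ Icc (1 : ℤ) N', g n := by
  have h1 : ∀ y ∈ Y, ∑ m ∈ Ioc (y + c) (y + c + H), g m = ∑ j ∈ Ioc (0 : ℤ) H, g (y + c + j) := by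
    intro y _
    refine sum_bij' (fun m _ => m - (y + c)) (fun j _ => y + c + j) ?_ ?_ ?_ ?_ ?_
    · intro m hm
      rw [mem_Ioc] at hm ⊢
      omega
    · intro j hj
      rw [mem_Ioc] at hj ⊢
      omega
    · intro m _; ring
    · intro j _; ring
    · intro m _
      congr 1
      ring
  rw [sum_congr rfl h1, sum_comm]
  have h2 : ∀ j ∈ Ioc (0 : ℤ) H, ∑ y ∈ Y, g (y + c + j) ≤ ∑ n ∈ Icc (1 : ℤ) N', g n := by
    intro j _
    have h3 : ∑ y ∈ Y, g (y + c + j) = ∑ n ∈ Y.image (fun y => y + c + j), g n := by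
      rw [sum_image]
      intro a _ b _ hab
      simpa using hab
    rw [h3]
    have h4 : ∑ n ∈ Y.image (fun y => y + c + j), g n =
        ∑ n ∈ (Y.image (fun y => y + c + j)).filter (fun n => g n ≠ 0), g n := by
      rw [sum_filter_ne_zero]
    rw [h4]
    refine sum_le_sum_of_subset_of_nonneg ?_ fun _ _ _ => hg0 _
    intro n hn
    rw [mem_filter] at hn
    exact mem_Icc.2 (hgs n hn.2)
  refine (sum_le_card_nsmul _ _ _ h2).trans ?_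
  rw [nsmul_eq_mul, Int.card_Ioc]
  simp

/-- large sieve bound for the bilinear forms -/
theorem bil_sum (G : ℤ → ℝ) (N' H Q : ℕ) (hQ : 1 ≤ Q) (hQH : (Q : ℝ) ^ 4 ≤ H)
    (hGs : ∀ n, G n ≠ 0 → 1 ≤ n ∧ n ≤ N') :
    ∑ q ∈ Icc 1 Q, ∑ a ∈ (range q).filter (Nat.Coprime q), ‖Bil G N' H ((a : ℝ) / q)‖ ≤
      2 * (H : ℝ) ^ 2 * ∑ n ∈ Icc (1 : ℤ) N', G n ^ 2 := by
  have hH0 : (0 : ℝ) ≤ H := Nat.cast_nonneg _
  have h1 : ∀ θ : ℝ, ‖Bil G N' H θ‖ ≤ ∑ y ∈ Icc (-(N' : ℤ)) (2 * N'),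
      (1 / 2 * ‖Fw G (y + H) H θ‖ ^ 2 + 1 / 2 * ‖Fw G (y - 2 * H - 1) H θ‖ ^ 2) := by
    intro θ
    unfold Bil
    refine (norm_sum_le _ _).trans (sum_le_sum fun y _ => ?_)
    rw [norm_mul, RCLike.norm_conj]
    nlinarith [sq_nonneg (‖Fw G (y + H) H θ‖ - ‖Fw G (y - 2 * H - 1) H θ‖)]
  have h2 : ∀ c : ℤ, ∑ q ∈ Icc 1 Q, ∑ a ∈ (range q).filter (Nat.Coprime q),
      ∑ y ∈ Icc (-(N' : ℤ)) (2 * N'), ‖Fw G (y + c) H ((a : ℝ) / q)‖ ^ 2 ≤
      2 * (H : ℝ) ^ 2 * ∑ n ∈ Icc (1 : ℤ) N', G n ^ 2 := by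
    intro c
    have h3 : ∑ q ∈ Icc 1 Q, ∑ a ∈ (range q).filter (Nat.Coprime q),
        ∑ y ∈ Icc (-(N' : ℤ)) (2 * N'), ‖Fw G (y + c) H ((a : ℝ) / q)‖ ^ 2 =
        ∑ y ∈ Icc (-(N' : ℤ)) (2 * N'), ∑ q ∈ Icc 1 Q, ∑ a ∈ (range q).filter (Nat.Coprime q),
          ‖Fw G (y + c) H ((a : ℝ) / q)‖ ^ 2 := by
      rw [sum_congr rfl (fun q _ => sum_comm), sum_comm]
    rw [h3]
    have h4 : ∀ y ∈ Icc (-(N' : ℤ)) (2 * N'), ∑ q ∈ Icc 1 Q,
        ∑ a ∈ (range q).filter (Nat.Coprime q), ‖Fw G (y + c) H ((a : ℝ) / q)‖ ^ 2 ≤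
        2 * H * ∑ m ∈ Ioc (y + c) (y + c + H), G m ^ 2 := by
      intro y _
      refine (UU.Tr.large_sieve G (y + c) H Q hQ).trans ?_
      refine mul_le_mul_of_nonneg_right ?_ (sum_nonneg fun _ _ => sq_nonneg _)
      linarith
    refine (sum_le_sum h4).trans ?_
    rw [← mul_sum]
    have h5 := window_sum (fun n => G n ^ 2) N' H (Icc (-(N' : ℤ)) (2 * N')) c
      (fun _ => sq_nonneg _) (fun n hn => hGs n (by
        intro h0
        exact hn (by rw [h0]; norm_num)))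
    calc 2 * (H : ℝ) * ∑ y ∈ Icc (-(N' : ℤ)) (2 * N'), ∑ m ∈ Ioc (y + c) (y + c + H), G m ^ 2
        ≤ 2 * (H : ℝ) * (H * ∑ n ∈ Icc (1 : ℤ) N', G n ^ 2) :=
          mul_le_mul_of_nonneg_left h5 (by positivity)
      _ = _ := by ring
  have h6 : ∑ q ∈ Icc 1 Q, ∑ a ∈ (range q).filter (Nat.Coprime q), ‖Bil G N' H ((a : ℝ) / q)‖ ≤
      1 / 2 * (∑ q ∈ Icc 1 Q, ∑ a ∈ (range q).filter (Nat.Coprime q),
        ∑ y ∈ Icc (-(N' : ℤ)) (2 * N'), ‖Fw G (y + H) H ((a : ℝ) / q)‖ ^ 2) +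
      1 / 2 * (∑ q ∈ Icc 1 Q, ∑ a ∈ (range q).filter (Nat.Coprime q),
        ∑ y ∈ Icc (-(N' : ℤ)) (2 * N'), ‖Fw G (y - 2 * H - 1) H ((a : ℝ) / q)‖ ^ 2) := by
    simp only [mul_sum]
    rw [← sum_add_distrib]
    refine sum_le_sum fun q _ => ?_
    rw [← sum_add_distrib]
    refine sum_le_sum fun a _ => ?_
    rw [← sum_add_distrib]
    exact h1 _
  have h7 := h2 H
  have h8 := h2 (-(2 * H) - 1)
  have h9 : ∀ y : ℤ, y + (-(2 * (H : ℤ)) - 1) = y - 2 * H - 1 := fun y => by ring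
  simp only [h9] at h8
  linarith

/-- **circle method with sieve weights** -/
theorem an_W (k : ℕ) (hk : 2 ≤ k) : ∃ E C : ℕ, 1 ≤ E ∧ 1 ≤ C ∧ ∀ R : ℕ, 1 ≤ R →
    ∀ (f : ℤ[X]) (PP : Finset ℕ) (N' H Q E0 : ℕ) (δ B : ℝ) (G : ℤ → ℝ),
    f.natDegree = k → 0 < f.leadingCoeff →
    (∀ g : ℤ, (∀ j : ℕ, 1 ≤ j → g ∣ f.coeff j) → g ∣ (R : ℤ)) →
    0 < δ → δ ≤ 1 → 1 ≤ B → (∀ j : ℕ, |(f.coeff j : ℝ)| ≤ B) → (∀ p ∈ PP, p.Prime) →
    1 ≤ E0 → 8 * H ≤ N' → N' ≤ 16 * H → (C * R * (E0 : ℝ) ^ k / δ) ^ E ≤ (Q : ℝ) →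
    (C * R * (E0 : ℝ) ^ (3 * k) * B * Q / δ) ^ E ≤ (N' : ℝ) → (Q : ℝ) ^ 4 ≤ H →
    (∀ n, 0 ≤ G n) → (∀ n, G n ≠ 0 → 1 ≤ n ∧ n ≤ N') →
    (∀ n m : ℤ, G n ≠ 0 → G m ≠ 0 → ∀ x : ℕ, 1 ≤ x → n - m = f.eval (x : ℤ) → n = m) →
    ‖∑ q ∈ Icc 1 Q, ∑ a ∈ (range q).filter (Nat.Coprime q),
      GamW f PP a q * Bil G N' H ((a : ℝ) / q)‖ ≤
      (E0 * δ + 2 * ∑ S ∈ PP.powerset.filter (fun S => E0 < ∏ p ∈ S, p),
        ((ZS f S).card : ℝ) / ((∏ p ∈ S, p : ℕ) : ℝ)) *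
        ((H : ℝ) ^ 2 * ∑ n ∈ Icc (1 : ℤ) N', G n ^ 2) := by
  obtain ⟨E, C, hE, hC, hAN⟩ := an_R k hk
  refine ⟨E, C * ((k + 1) * 2 ^ k), hE, Nat.succ_le_of_lt (by
    have : 0 < C := hC
    positivity), ?_⟩
  intro R hR f PP N' H Q E0 δ B G hdeg hlead hcont hδ hδ1 hB hcoef hPP hE0 h8 h16 hQ hN hQH hG0 hGs
    hfree
  have hE0r : (1 : ℝ) ≤ E0 := by exact_mod_cast hE0
  have hRr : (1 : ℝ) ≤ R := by exact_mod_cast hR
  have hCr : (1 : ℝ) ≤ C := by exact_mod_cast hC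
  have hk2 : (1 : ℝ) ≤ (((k + 1) * 2 ^ k : ℕ) : ℝ) := by
    have : 1 ≤ (k + 1) * 2 ^ k := Nat.succ_le_of_lt (by positivity)
    exact_mod_cast this
  set C1 : ℝ := (((k + 1) * 2 ^ k : ℕ) : ℝ) with hC1
  have hcast : ((C * ((k + 1) * 2 ^ k) : ℕ) : ℝ) = C * C1 := by rw [hC1]; push_cast; ring
  rw [hcast] at hQ hN
  have hQ1 : 1 ≤ Q := by
    have h1 : (1 : ℝ) ≤ (C * C1 * R * (E0 : ℝ) ^ k / δ) ^ E := by
      apply one_le_pow₀
      rw [le_div_iff₀ hδ]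
      have h2 : 1 ≤ C * C1 * R * (E0 : ℝ) ^ k :=
        one_le_mul_of_one_le_of_one_le (one_le_mul_of_one_le_of_one_le
          (one_le_mul_of_one_le_of_one_le hCr hk2) hRr) (one_le_pow₀ hE0r)
      linarith
    have : (1 : ℝ) ≤ Q := h1.trans hQ
    exact_mod_cast this
  set X : ℝ := (H : ℝ) ^ 2 * ∑ n ∈ Icc (1 : ℤ) N', G n ^ 2 with hX
  have hX0 : 0 ≤ X := by
    rw [hX]
    have : 0 ≤ ∑ n ∈ Icc (1 : ℤ) N', G n ^ 2 := sum_nonneg fun _ _ => sq_nonneg _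
    positivity
  have hP0 : ∀ S ⊆ PP, 0 < (∏ p ∈ S, p) := fun S hS =>
    prod_pos fun p hp => (hPP p (hS hp)).pos
  -- one `S`, one `r`
  have key1 : ∀ S ∈ PP.powerset, ∀ r ∈ ZS f S, ∏ p ∈ S, p ≤ E0 →
      ‖∑ q ∈ Icc 1 Q, ∑ a ∈ (range q).filter (Nat.Coprime q),
        Gam (fer f (∏ p ∈ S, p) (r : ℤ)) a q * Bil G N' H ((a : ℝ) / q)‖ ≤ δ * X := by
    intro S hS r hr hSE
    have hm := hP0 S (mem_powerset.1 hS)
    obtain ⟨m, hmdef⟩ : ∃ m : ℕ, m = ∏ p ∈ S, p := ⟨_, rfl⟩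
    rw [← hmdef] at hm hSE ⊢
    have hrm : r < m := by
      unfold ZS at hr
      rw [hmdef]
      exact mem_range.1 (mem_filter.1 hr).1
    have hmr : (m : ℝ) ≤ E0 := by exact_mod_cast hSE
    have hm1 : (1 : ℝ) ≤ m := by exact_mod_cast hm
    have hmk : (m : ℝ) ^ k ≤ (E0 : ℝ) ^ k := pow_le_pow_left₀ (by positivity) hmr _
    have hR' : 1 ≤ R * m ^ k := Nat.succ_le_of_lt (by
      have : 0 < R := hR
      positivity)
    have hE3 : (E0 : ℝ) ^ (3 * k) = (E0 : ℝ) ^ k * (E0 : ℝ) ^ (2 * k) := by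
      rw [← pow_add]
      congr 1
      ring
    have hres := hAN (R * m ^ k) hR' (fer f m (r : ℤ)) N' H Q δ (C1 * (E0 : ℝ) ^ (2 * k) * B) G
      (by rw [fer_natDegree f m hm, hdeg]) (fer_lead f m hm _ hlead)
      (by
        intro g hg
        have := fer_content f m R (r : ℤ) hcont g hg
        rw [hdeg] at this
        exact this) hδ hδ1
      (one_le_mul_of_one_le_of_one_le (one_le_mul_of_one_le_of_one_le hk2 (one_le_pow₀ hE0r)) hB)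
      (by
        intro j
        refine (fer_coeff_le f m E0 (r : ℤ) B hSE (by positivity) (by exact_mod_cast hrm) hcoef
          hB j).trans (le_of_eq ?_)
        rw [hdeg, hC1]
        push_cast
        ring) h8 h16
      (by
        refine le_trans ?_ hQ
        gcongr
        push_cast
        calc (C : ℝ) * (R * (m : ℝ) ^ k) ≤ C * (R * (E0 : ℝ) ^ k) := by gcongr
          _ = C * 1 * R * (E0 : ℝ) ^ k := by ring
          _ ≤ C * C1 * R * (E0 : ℝ) ^ k := by gcongr)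
      (by
        refine le_trans ?_ hN
        refine pow_le_pow_left₀ (by positivity) ?_ _
        refine div_le_div_of_nonneg_right ?_ hδ.le
        push_cast
        rw [hE3]
        calc (C : ℝ) * (R * (m : ℝ) ^ k) * (C1 * (E0 : ℝ) ^ (2 * k) * B) * Q
            ≤ C * (R * (E0 : ℝ) ^ k) * (C1 * (E0 : ℝ) ^ (2 * k) * B) * Q := by gcongr
          _ = C * C1 * R * ((E0 : ℝ) ^ k * (E0 : ℝ) ^ (2 * k)) * B * Q := by ring)
      hG0 hGs
      (by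
        intro n n' hn hn' x hx hnn
        rw [fer_eval] at hnn
        refine hfree n n' hn hn' (m * x + r) ?_ ?_
        · have : 1 ≤ m * x := Nat.mul_pos hm hx
          omega
        · rw [hnn]
          push_cast
          rfl)
    refine hres.trans (le_of_eq ?_)
    rw [hX]
    ring
  have key2 : ∀ S ∈ PP.powerset, ∀ r ∈ ZS f S,
      ‖∑ q ∈ Icc 1 Q, ∑ a ∈ (range q).filter (Nat.Coprime q),
        Gam (fer f (∏ p ∈ S, p) (r : ℤ)) a q * Bil G N' H ((a : ℝ) / q)‖ ≤ 2 * X := by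
    intro S _ r _
    have h1 := bil_sum G N' H Q hQ1 hQH hGs
    refine le_trans ?_ (h1.trans (le_of_eq (by rw [hX]; ring)))
    refine (norm_sum_le _ _).trans (sum_le_sum fun q hq => ?_)
    refine (norm_sum_le _ _).trans (sum_le_sum fun a _ => ?_)
    rw [norm_mul]
    have h2 := norm_Gam_le_one (fer f (∏ p ∈ S, p) (r : ℤ)) a q (mem_Icc.1 hq).1
    calc _ ≤ 1 * ‖Bil G N' H ((a : ℝ) / q)‖ := mul_le_mul_of_nonneg_right h2 (norm_nonneg _)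
      _ = _ := one_mul _
  -- expansion
  have hexp : ∑ q ∈ Icc 1 Q, ∑ a ∈ (range q).filter (Nat.Coprime q),
      GamW f PP a q * Bil G N' H ((a : ℝ) / q) =
      ∑ S ∈ PP.powerset, ∑ r ∈ ZS f S, (((-1 : ℝ) ^ S.card / ((∏ p ∈ S, p : ℕ) : ℝ) : ℝ) : ℂ) *
        ∑ q ∈ Icc 1 Q, ∑ a ∈ (range q).filter (Nat.Coprime q),
          Gam (fer f (∏ p ∈ S, p) (r : ℤ)) a q * Bil G N' H ((a : ℝ) / q) := by
    have h1 : ∀ q ∈ Icc 1 Q, ∀ a ∈ (range q).filter (Nat.Coprime q),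
        GamW f PP a q * Bil G N' H ((a : ℝ) / q) =
        ∑ S ∈ PP.powerset, ∑ r ∈ ZS f S,
          (((-1 : ℝ) ^ S.card / ((∏ p ∈ S, p : ℕ) : ℝ) : ℝ) : ℂ) *
          (Gam (fer f (∏ p ∈ S, p) (r : ℤ)) a q * Bil G N' H ((a : ℝ) / q)) := by
      intro q hq a _
      rw [GamW_expand f PP hPP a q (mem_Icc.1 hq).1, sum_mul]
      refine sum_congr rfl fun S _ => ?_
      rw [sum_mul]
      exact sum_congr rfl fun r _ => by ring
    rw [sum_congr rfl fun q hq => sum_congr rfl fun a ha => h1 q hq a ha]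
    rw [sum_congr rfl fun q _ => sum_comm]
    rw [sum_comm]
    refine sum_congr rfl fun S _ => ?_
    rw [sum_congr rfl fun q _ => sum_comm]
    rw [sum_comm]
    refine sum_congr rfl fun r _ => ?_
    rw [mul_sum]
    refine sum_congr rfl fun q _ => ?_
    rw [mul_sum]
  rw [hexp]
  have hbd : ∀ S ∈ PP.powerset, ‖∑ r ∈ ZS f S,
      (((-1 : ℝ) ^ S.card / ((∏ p ∈ S, p : ℕ) : ℝ) : ℝ) : ℂ) *
        ∑ q ∈ Icc 1 Q, ∑ a ∈ (range q).filter (Nat.Coprime q),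
          Gam (fer f (∏ p ∈ S, p) (r : ℤ)) a q * Bil G N' H ((a : ℝ) / q)‖ ≤
      (if E0 < ∏ p ∈ S, p then 2 * (((ZS f S).card : ℝ) / ((∏ p ∈ S, p : ℕ) : ℝ)) else δ) * X := by
    intro S hS
    have hm := hP0 S (mem_powerset.1 hS)
    have hmr : (0 : ℝ) < ((∏ p ∈ S, p : ℕ) : ℝ) := by exact_mod_cast hm
    have hn : ‖(((-1 : ℝ) ^ S.card / ((∏ p ∈ S, p : ℕ) : ℝ) : ℝ) : ℂ)‖ =
        1 / ((∏ p ∈ S, p : ℕ) : ℝ) := by
      rw [Complex.norm_real, Real.norm_eq_abs, abs_div, abs_pow, abs_neg, abs_one, one_pow,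
        abs_of_pos hmr]
    refine (norm_sum_le _ _).trans ?_
    split_ifs with hSE
    · refine (sum_le_card_nsmul _ _ (1 / ((∏ p ∈ S, p : ℕ) : ℝ) * (2 * X)) ?_).trans ?_
      · intro r hr
        rw [norm_mul, hn]
        exact mul_le_mul_of_nonneg_left (key2 S hS r hr) (by positivity)
      · rw [nsmul_eq_mul]
        apply le_of_eq
        ring
    · refine (sum_le_card_nsmul _ _ (1 / ((∏ p ∈ S, p : ℕ) : ℝ) * (δ * X)) ?_).trans ?_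
      · intro r hr
        rw [norm_mul, hn]
        exact mul_le_mul_of_nonneg_left (key1 S hS r hr (by omega)) (by positivity)
      · rw [nsmul_eq_mul]
        have hcard : ((ZS f S).card : ℝ) ≤ ((∏ p ∈ S, p : ℕ) : ℝ) := by
          have : (ZS f S).card ≤ ∏ p ∈ S, p := by
            unfold ZS
            exact (card_filter_le _ _).trans (by rw [card_range])
          exact_mod_cast this
        have h0 : 0 ≤ δ * X := by positivity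
        calc ((ZS f S).card : ℝ) * (1 / ((∏ p ∈ S, p : ℕ) : ℝ) * (δ * X))
            ≤ ((∏ p ∈ S, p : ℕ) : ℝ) * (1 / ((∏ p ∈ S, p : ℕ) : ℝ) * (δ * X)) :=
              mul_le_mul_of_nonneg_right hcard (by positivity)
          _ = δ * X := by field_simp
  refine (norm_sum_le _ _).trans ((sum_le_sum hbd).trans ?_)
  rw [← sum_mul]
  refine mul_le_mul_of_nonneg_right ?_ hX0
  rw [← sum_filter_add_sum_filter_not PP.powerset (fun S => E0 < ∏ p ∈ S, p)]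
  have e1 : ∑ S ∈ PP.powerset.filter (fun S => E0 < ∏ p ∈ S, p),
      (if E0 < ∏ p ∈ S, p then 2 * (((ZS f S).card : ℝ) / ((∏ p ∈ S, p : ℕ) : ℝ)) else δ) =
      2 * ∑ S ∈ PP.powerset.filter (fun S => E0 < ∏ p ∈ S, p),
        ((ZS f S).card : ℝ) / ((∏ p ∈ S, p : ℕ) : ℝ) := by
    rw [mul_sum]
    exact sum_congr rfl fun S hS => if_pos (mem_filter.1 hS).2
  have e2 : ∑ S ∈ PP.powerset.filter (fun S => ¬ E0 < ∏ p ∈ S, p),
      (if E0 < ∏ p ∈ S, p then 2 * (((ZS f S).card : ℝ) / ((∏ p ∈ S, p : ℕ) : ℝ)) else δ) ≤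
      E0 * δ := by
    rw [sum_congr rfl fun S hS => if_neg (mem_filter.1 hS).2, sum_const, nsmul_eq_mul]
    refine mul_le_mul_of_nonneg_right ?_ hδ.le
    have hc : (PP.powerset.filter (fun S => ¬ E0 < ∏ p ∈ S, p)).card ≤ (Icc 1 E0).card := by
      apply card_le_card_of_injOn (fun S => ∏ p ∈ S, p)
      · intro S hS
        rw [mem_coe, mem_filter, mem_powerset] at hS
        rw [mem_coe, mem_Icc]
        exact ⟨hP0 S hS.1, not_lt.1 hS.2⟩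
      · intro S hS T hT hST
        rw [mem_coe, mem_filter, mem_powerset] at hS hT
        have h1 := Nat.primeFactors_prod (fun p hp => hPP p (hS.1 hp))
        have h2 := Nat.primeFactors_prod (fun p hp => hPP p (hT.1 hp))
        simp only at hST
        rw [← h1, ← h2, hST]
    rw [Nat.card_Icc] at hc
    have : (PP.powerset.filter (fun S => ¬ E0 < ∏ p ∈ S, p)).card ≤ E0 := by omega
    exact_mod_cast this
  rw [e1]
  linarith

end Vale.Agent.P042.H74
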