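import Vale.Agent.P042.H245.ANU

set_option autoImplicit false

/-!
P042: the weighted complete sums with a border `P ^ (C1f k)` which may depend on the degree.
-/

namespace Vale.Agent.P042.H74
open Polynomial Finset Vale.Agent.P042.H245 Vale.Agent.P042.H739

/-- the weighted complete sums, the exponent of the border depends on the degree -/
noncomputable def GWk (C1f : ℕ → ℝ) : GwTy := fun f P a q => GWf (C1f f.natDegree) f P a q

theorem GWk_eq (C1f : ℕ → ℝ) (f : ℤ[X]) (P : ℝ) (a : ℤ) (q : ℕ) :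
    GWk C1f f P a q = GWf (C1f f.natDegree) f P a q := rfl

theorem GWk_deg (C1f : ℕ → ℝ) {f : ℤ[X]} {k : ℕ} (hf : f.natDegree = k) (P : ℝ) (a : ℤ) (q : ℕ) :
    GWk C1f f P a q = GWf (C1f k) f P a q := by
  subst hf
  rfl

theorem anat_congr {GW GW' : GwTy} {k : ℕ} {κ1 c1 thQ P : ℝ}
    (h : ∀ f : ℤ[X], f.natDegree = k → ∀ a q, GW' f P a q = GW f P a q)
    (hA : ANat GW k κ1 c1 thQ P) : ANat GW' k κ1 c1 thQ P := by
  intro R f N' H h0 z G1 G2 hR hRe hfk hfl hfR hfc hN1 hN2 h8 h16 hh0 hh hz hzN hG1 hG2 hdf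
  simp only [h f hfk]
  exact hA R f N' H h0 z G1 G2 hR hRe hfk hfl hfR hfc hN1 hN2 h8 h16 hh0 hh hz hzN hG1 hG2 hdf

/-- **the circle method, border depending on the degree** -/
theorem anu_k (C1f : ℕ → ℝ) (hC : ∀ k : ℕ, 2 ≤ k → 1 ≤ C1f k) : ANU (GWk C1f) := by
  intro k hk
  obtain ⟨th0, hth0, h1⟩ := anu (C1f k) (hC k hk) k hk
  refine ⟨th0, hth0, fun thQ hthQ hle => ?_⟩
  obtain ⟨c1, κ1, hc1, hκ1, P0, h2⟩ := h1 thQ hthQ hle
  refine ⟨c1, κ1, hc1, hκ1, P0, fun P hP => ?_⟩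
  exact anat_congr (fun f hf a q => GWk_deg C1f hf P a q) (h2 P hP)

end Vale.Agent.P042.H74
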