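import Vale.Agent.P042.H74.GWk
import Vale.Agent.P042.H74.Obj

set_option autoImplicit false

/-!
P042: the objects of the lower bound for the weighted complete sums `GWk` (border depending on
the degree).
-/

namespace Vale.Agent.P042.H74
open Polynomial Finset Vale.Agent.P042.SS Vale.Agent.P042.H245

/-- the weighted complete sums of the substituted polynomial -/
theorem GWk_comp (C1f : ℕ → ℝ) (f : ℤ[X]) {k : ℕ} (hf : f.natDegree = k) {q1 : ℕ} (hq1 : 1 ≤ q1)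
    (z0 : ℕ) (P : ℝ) (a : ℤ) (q : ℕ) :
    GWk C1f (f.comp (C (z0 : ℤ) + C (q1 : ℤ) * X)) P a q =
      GamW (fer f q1 z0) (PPf (C1f k) (fer f q1 z0) P) a q := by
  have h1 : f.comp (C (z0 : ℤ) + C (q1 : ℤ) * X) = fer f q1 z0 := (fer_eq_comp f q1 z0).symm
  rw [h1, GWk_deg C1f (show (fer f q1 z0).natDegree = k by rw [fer_natDegree f q1 hq1 z0, hf])]
  rfl

theorem ObjG.gwk {k R : ℕ} {c : ℝ} {kap : ℕ → ℕ → ℝ} {κ0 C2 P K Y : ℝ} {f : ℤ[X]}
    {q1 z0 : ℕ} (C1f : ℕ → ℝ) (h : ObjG k R c kap (C1f k) κ0 C2 P K Y f q1 z0)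
    (hf : f.natDegree = k) (a : ℤ) (q : ℕ) :
    GWk C1f (f.comp (C (z0 : ℤ) + C (q1 : ℤ) * X)) P a q =
      GamW (fer f q1 z0) (PPf (C1f k) (fer f q1 z0) P) a q :=
  GWk_comp C1f f hf h.tiny.q1_pos z0 P a q

end Vale.Agent.P042.H74
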