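import Vale.Agent.P042.H74.AnW

set_option autoImplicit false

/-!
P042, block [D]: the dictionary between the weighted complete sums `GamW` and local kernels.
-/

namespace Vale.Agent.P042.H74
open Polynomial Finset Vale.Agent.P042.SS

/-! ### averages over residues -/

/-- average of `F` over `0, …, M - 1` -/
noncomputable def avC (M : ℕ) (F : ℤ → ℂ) : ℂ := (∑ z ∈ range M, F (z : ℤ)) / (M : ℂ)

/-- `F` has period `M` -/
def Per (M : ℕ) (F : ℤ → ℂ) : Prop := ∀ z : ℤ, F (z + M) = F z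

theorem Per.mul_nat {M : ℕ} {F : ℤ → ℂ} (h : Per M F) (w : ℕ) : ∀ z : ℤ, F (z + M * w) = F z := by
  induction w with
  | zero => intro z; simp
  | succ w ih =>
    intro z
    have : z + (M : ℤ) * ((w + 1 : ℕ) : ℤ) = (z + M * w) + M := by push_cast; ring
    rw [this, h, ih]

theorem Per.of_dvd {M M' : ℕ} {F : ℤ → ℂ} (h : Per M F) (hd : M ∣ M') : Per M' F := by
  obtain ⟨w, rfl⟩ := hd
  intro z
  have := h.mul_nat w z
  push_cast
  exact this

theorem Per.mul {M : ℕ} {F F' : ℤ → ℂ} (h : Per M F) (h' : Per M F') :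
    Per M (fun z => F z * F' z) := fun z => by
  simp only
  rw [h z, h' z]

theorem Per.mod {M : ℕ} {F : ℤ → ℂ} (h : Per M F) (z : ℕ) : F ((z % M : ℕ) : ℤ) = F (z : ℤ) := by
  have h1 := h.mul_nat (z / M) ((z % M : ℕ) : ℤ)
  rw [← h1]
  congr 1
  have h2 := Nat.mod_add_div z M
  exact_mod_cast h2

theorem avC_period {M w : ℕ} (hw : 1 ≤ w) {F : ℤ → ℂ} (hF : Per M F) :
    avC (M * w) F = avC M F := by
  unfold avC
  have hw0 : (w : ℂ) ≠ 0 := by
    have : w ≠ 0 := by omega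
    exact_mod_cast this
  rw [sum_period w M (fun z => F (z : ℤ)) (fun x => by push_cast; exact hF x)]
  push_cast
  rw [mul_comm (M : ℂ) (w : ℂ), mul_div_mul_left _ _ hw0]

theorem avC_crt {M1 M2 : ℕ} (hc : Nat.Coprime M1 M2) (h1 : 1 ≤ M1) (h2 : 1 ≤ M2)
    {F1 F2 : ℤ → ℂ} (hF1 : Per M1 F1) (hF2 : Per M2 F2) :
    avC (M1 * M2) (fun z => F1 z * F2 z) = avC M1 F1 * avC M2 F2 := by
  unfold avC
  have hs : ∑ z ∈ range (M1 * M2), F1 (z : ℤ) * F2 (z : ℤ) =
      ∑ x ∈ range M1 ×ˢ range M2, F1 (x.1 : ℤ) * F2 (x.2 : ℤ) := by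
    refine sum_bij' (fun z _ => (z % M1, z % M2))
      (fun x _ => (Nat.chineseRemainder hc x.1 x.2 : ℕ)) ?_ ?_ ?_ ?_ ?_
    · intro z _
      rw [mem_product, mem_range, mem_range]
      exact ⟨Nat.mod_lt _ h1, Nat.mod_lt _ h2⟩
    · intro x hx
      rw [mem_range]
      exact Nat.chineseRemainder_lt_mul hc _ _ (by omega) (by omega)
    · intro z hz
      rw [mem_range] at hz
      have h3 := (Nat.chineseRemainder hc (z % M1) (z % M2)).2
      have h4 : (Nat.chineseRemainder hc (z % M1) (z % M2) : ℕ) ≡ z [MOD M1 * M2] := by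
        rw [← Nat.modEq_and_modEq_iff_modEq_mul hc]
        exact ⟨h3.1.trans (Nat.mod_modEq z M1), h3.2.trans (Nat.mod_modEq z M2)⟩
      have h5 := Nat.chineseRemainder_lt_mul hc (z % M1) (z % M2) (by omega) (by omega)
      exact Nat.ModEq.eq_of_lt_of_lt h4 h5 hz
    · intro x hx
      rw [mem_product, mem_range, mem_range] at hx
      have h3 := (Nat.chineseRemainder hc x.1 x.2).2
      apply Prod.ext
      · exact (Nat.ModEq.eq_of_lt_of_lt ((Nat.mod_modEq _ _).trans h3.1) (Nat.mod_lt _ h1) hx.1)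
      · exact (Nat.ModEq.eq_of_lt_of_lt ((Nat.mod_modEq _ _).trans h3.2) (Nat.mod_lt _ h2) hx.2)
    · intro z _
      simp only
      rw [hF1.mod, hF2.mod]
  rw [hs, sum_product]
  simp only
  rw [← sum_mul_sum]
  push_cast
  rw [div_mul_div_comm]

/-! ### periods of the weights and of the exponentials -/

theorem om_per (f : ℤ[X]) (S : Finset ℕ) (M : ℕ) (hM : ∀ p ∈ S, p ∣ M) :
    Per M (fun z => (om f S z : ℂ)) := by
  intro z
  unfold om
  simp only
  congr 1
  refine prod_congr rfl fun p hp => ?_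
  have h1 : ((p : ℤ) ∣ (derivative f).eval (z + M)) ↔ ((p : ℤ) ∣ (derivative f).eval z) := by
    apply eval_dvd_congr
    obtain ⟨c, hc⟩ := hM p hp
    rw [hc]
    exact ⟨c, by push_cast; ring⟩
  simp only [h1]

theorem ef_per (f : ℤ[X]) (a : ℤ) (q : ℕ) (hq : 1 ≤ q) :
    Per q (fun z => e (a * ((f.eval z : ℤ) : ℝ) / q)) := by
  intro z
  simp only
  obtain ⟨c, hc⟩ : ((q : ℕ) : ℤ) ∣ f.eval (z + q) - f.eval z :=
    Dvd.dvd.trans ⟨1, by ring⟩ (sub_dvd_eval_sub _ _ f)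
  have h3 : f.eval (z + q) = f.eval z + q * c := by linarith
  rw [h3]
  have hq0r : (q : ℝ) ≠ 0 := by
    have : q ≠ 0 := by omega
    exact_mod_cast this
  have h4 : (a : ℝ) * ((f.eval z + q * c : ℤ) : ℝ) / q =
      a * ((f.eval z : ℤ) : ℝ) / q + ((a * c : ℤ) : ℝ) := by
    push_cast
    field_simp
  rw [h4, e_add, e_int, mul_one]

/-- proportion of nonsingular residues mod `p` -/
noncomputable def dns (f : ℤ[X]) (p : ℕ) : ℝ :=
  (((range p).filter (fun z : ℕ => ¬ (p : ℤ) ∣ (derivative f).eval (z : ℤ))).card : ℝ) / p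

theorem avC_om_single (f : ℤ[X]) (p : ℕ) :
    avC p (fun z => (om f {p} z : ℂ)) = (dns f p : ℂ) := by
  unfold avC dns om
  simp only [prod_singleton]
  rw [card_filter]
  push_cast
  congr 1
  refine sum_congr rfl fun z _ => ?_
  split_ifs <;> simp_all

theorem om_union (f : ℤ[X]) (S T : Finset ℕ) (h : Disjoint S T) (z : ℤ) :
    om f (S ∪ T) z = om f S z * om f T z := by
  unfold om
  rw [prod_union h]

theorem avC_om (f : ℤ[X]) (S : Finset ℕ) (hS : ∀ p ∈ S, p.Prime) :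
    avC (∏ p ∈ S, p) (fun z => (om f S z : ℂ)) = ((∏ p ∈ S, dns f p : ℝ) : ℂ) := by
  classical
  induction S using Finset.induction_on with
  | empty => simp [avC, om]
  | insert p S hp ih =>
    have hpp := hS p (mem_insert_self _ _)
    have hS' : ∀ q ∈ S, q.Prime := fun q hq => hS q (mem_insert_of_mem hq)
    rw [prod_insert hp, prod_insert hp]
    have h1 : ∀ z, (om f (insert p S) z : ℂ) = (om f {p} z : ℂ) * (om f S z : ℂ) := by
      intro z
      rw [insert_eq, om_union f {p} S (by simpa using hp)]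
      push_cast
      rfl
    have h2 : (fun z => (om f (insert p S) z : ℂ)) =
        fun z => (fun z => (om f {p} z : ℂ)) z * (fun z => (om f S z : ℂ)) z := funext h1
    rw [h2, avC_crt _ hpp.one_le _ (om_per f {p} p (by simp))
      (om_per f S _ fun q hq => dvd_prod_of_mem _ hq), avC_om_single, ih hS']
    · push_cast
      rfl
    · apply Nat.Coprime.prod_right
      intro q hq
      exact (Nat.coprime_primes hpp (hS' q hq)).2 (by
        rintro rfl
        exact hp hq)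
    · exact Nat.one_le_iff_ne_zero.2 (prod_ne_zero_iff.2 fun q hq => (hS' q hq).ne_zero)

/-! ### splitting of `GamW` -/

/-- the part at the primes dividing `q` -/
noncomputable def Wq (f : ℤ[X]) (PP : Finset ℕ) (a : ℤ) (q : ℕ) : ℂ :=
  avC q (fun z => (om f (PP.filter (fun p => p ∣ q)) z : ℂ) * e (a * ((f.eval z : ℤ) : ℝ) / q))

theorem GamW_eq_avC (f : ℤ[X]) (PP : Finset ℕ) (a : ℤ) (q : ℕ) :
    GamW f PP a q = avC (q * ∏ p ∈ PP, p)
      (fun z => (om f PP z : ℂ) * e (a * ((f.eval z : ℤ) : ℝ) / q)) := rfl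

theorem GamW_split (f : ℤ[X]) (PP : Finset ℕ) (hPP : ∀ p ∈ PP, p.Prime) (a : ℤ) (q : ℕ)
    (hq : 1 ≤ q) :
    GamW f PP a q = Wq f PP a q * ((∏ p ∈ PP.filter (fun p => ¬ p ∣ q), dns f p : ℝ) : ℂ) := by
  classical
  set P1 := PP.filter (fun p => p ∣ q) with hP1
  set P2 := PP.filter (fun p => ¬ p ∣ q) with hP2
  have hdis : Disjoint P1 P2 := disjoint_filter_filter_not _ _ _
  have hun : P1 ∪ P2 = PP := filter_union_filter_not_eq _ _
  have hprod : q * ∏ p ∈ PP, p = (q * ∏ p ∈ P2, p) * ∏ p ∈ P1, p := by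
    rw [← hun, prod_union hdis]
    ring
  have h1P : ∀ S ⊆ PP, 1 ≤ ∏ p ∈ S, p := fun S hS =>
    Nat.one_le_iff_ne_zero.2 (prod_ne_zero_iff.2 fun q hq => (hPP q (hS hq)).ne_zero)
  rw [GamW_eq_avC, hprod]
  have hF : (fun z => (om f PP z : ℂ) * e (a * ((f.eval z : ℤ) : ℝ) / q)) =
      fun z => (fun z => (om f P1 z : ℂ) * e (a * ((f.eval z : ℤ) : ℝ) / q)) z *
        (fun z => (om f P2 z : ℂ)) z := by
    funext z
    simp only
    rw [← hun, om_union f P1 P2 hdis]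
    push_cast
    ring
  have hq1 : Per q (fun z => (om f P1 z : ℂ) * e (a * ((f.eval z : ℤ) : ℝ) / q)) :=
    (om_per f P1 q fun p hp => (mem_filter.1 hp).2).mul (ef_per f a q hq)
  have hq2 : Per (∏ p ∈ P2, p) (fun z => (om f P2 z : ℂ)) :=
    om_per f P2 _ fun q hq => dvd_prod_of_mem _ hq
  have hper : Per (q * ∏ p ∈ P2, p) (fun z =>
      (fun z => (om f P1 z : ℂ) * e (a * ((f.eval z : ℤ) : ℝ) / q)) z *
        (fun z => (om f P2 z : ℂ)) z) :=
    (hq1.of_dvd (dvd_mul_right _ _)).mul (hq2.of_dvd (dvd_mul_left _ _))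
  rw [hF, avC_period (h1P P1 (filter_subset _ _)) hper]
  rw [avC_crt _ hq (h1P P2 (filter_subset _ _)) hq1 hq2]
  · rw [avC_om f P2 fun p hp => hPP p (mem_filter.1 hp).1]
    rfl
  · apply Nat.Coprime.prod_right
    intro p hp
    rw [mem_filter] at hp
    exact ((Nat.Prime.coprime_iff_not_dvd (hPP p hp.1)).2 hp.2).symm

theorem GamW_zero_one (f : ℤ[X]) (PP : Finset ℕ) (hPP : ∀ p ∈ PP, p.Prime) :
    GamW f PP 0 1 = ((∏ p ∈ PP, dns f p : ℝ) : ℂ) := by
  rw [GamW_split f PP hPP 0 1 le_rfl]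
  have h1 : PP.filter (fun p => ¬ p ∣ 1) = PP := by
    apply filter_true_of_mem
    intro p hp h
    exact (hPP p hp).one_lt.ne' (Nat.dvd_one.1 h)
  have h2 : PP.filter (fun p => p ∣ 1) = ∅ := by
    apply filter_false_of_mem
    intro p hp h
    exact (hPP p hp).one_lt.ne' (Nat.dvd_one.1 h)
  rw [h1]
  unfold Wq avC
  rw [h2]
  have he : e 0 = 1 := by
    unfold e
    simp
  simp [om, he]

/-- normalised complete sum -/
noncomputable def GamN (f : ℤ[X]) (PP : Finset ℕ) (a : ℤ) (q : ℕ) : ℂ :=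
  GamW f PP a q / GamW f PP 0 1

/-- nonsingular residues exist at all primes -/
def NS (f : ℤ[X]) (PP : Finset ℕ) : Prop := ∀ p ∈ PP, p.Prime ∧ 0 < dns f p

theorem GamN_eq (f : ℤ[X]) (PP : Finset ℕ) (hPP : NS f PP) (a : ℤ) (q : ℕ) (hq : 1 ≤ q) :
    GamN f PP a q =
      Wq f PP a q / ((∏ p ∈ PP.filter (fun p => p ∣ q), dns f p : ℝ) : ℂ) := by
  classical
  unfold GamN
  rw [GamW_split f PP (fun p hp => (hPP p hp).1) a q hq,
    GamW_zero_one f PP (fun p hp => (hPP p hp).1)]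
  rw [← prod_filter_mul_prod_filter_not PP (fun p => p ∣ q) (dns f)]
  have h2 : (∏ p ∈ PP.filter (fun p => ¬ p ∣ q), dns f p) ≠ 0 :=
    prod_ne_zero_iff.2 fun p hp => ((hPP p (mem_filter.1 hp).1).2).ne'
  have h2' : ((∏ p ∈ PP.filter (fun p => ¬ p ∣ q), dns f p : ℝ) : ℂ) ≠ 0 := by exact_mod_cast h2
  rw [Complex.ofReal_mul, mul_div_mul_right _ _ h2']

theorem GamN_zero_one (f : ℤ[X]) (PP : Finset ℕ) (hPP : NS f PP) : GamN f PP 0 1 = 1 := by
  unfold GamN
  apply div_self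
  rw [GamW_zero_one f PP (fun p hp => (hPP p hp).1)]
  have : (∏ p ∈ PP, dns f p) ≠ 0 := prod_ne_zero_iff.2 fun p hp => ((hPP p hp).2).ne'
  exact_mod_cast this

theorem GamN_coprime (f : ℤ[X]) (PP : Finset ℕ) (hPP : NS f PP) (a : ℤ) (q : ℕ) (hq : 1 ≤ q)
    (h : ∀ p ∈ PP, ¬ p ∣ q) : GamN f PP a q = Gam f a q := by
  rw [GamN_eq f PP hPP a q hq]
  unfold Wq
  rw [filter_false_of_mem h]
  unfold avC Gam om
  simp

end Vale.Agent.P042.H74
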