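import Vale.Agent.P042.H74.Ram
import Vale.Agent.P042.H584.Ker

set_option autoImplicit false

/-!
P042, block [D]: multiplicativity of the normalised weighted complete sums and the local kernels.
-/

namespace Vale.Agent.P042.H74
open Polynomial Finset Vale.Agent.P042.SS

theorem Wq_per (f : ℤ[X]) (PP : Finset ℕ) (a m : ℤ) (q : ℕ) (hq : 1 ≤ q) :
    Wq f PP (a + m * q) q = Wq f PP a q := by
  unfold Wq
  congr 1
  funext z
  congr 1
  have hq0r : (q : ℝ) ≠ 0 := by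
    have : q ≠ 0 := by omega
    exact_mod_cast this
  have h4 : ((a + m * q : ℤ) : ℝ) * ((f.eval z : ℤ) : ℝ) / q =
      a * ((f.eval z : ℤ) : ℝ) / q + ((m * f.eval z : ℤ) : ℝ) := by
    push_cast
    field_simp
  rw [h4, e_add, e_int, mul_one]

theorem Wq_mul (f : ℤ[X]) (PP : Finset ℕ) (hPP : ∀ p ∈ PP, p.Prime) (D1 D2 : ℕ) (n u1 u2 : ℤ)
    (h1 : 1 ≤ D1) (h2 : 1 ≤ D2) (hu : u1 * D2 + u2 * D1 = 1) :
    Wq f PP n (D1 * D2) = Wq f PP (n * u1) D1 * Wq f PP (n * u2) D2 := by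
  have hc : Nat.Coprime D1 D2 := by
    rw [← Nat.isCoprime_iff_coprime]
    exact ⟨u2, u1, by linarith⟩
  have hD1 : (D1 : ℝ) ≠ 0 := by positivity
  have hD2 : (D2 : ℝ) ≠ 0 := by positivity
  have hu'' : (u1 : ℝ) * D2 + u2 * D1 = 1 := by exact_mod_cast hu
  unfold Wq
  rw [← avC_crt hc h1 h2
    ((om_per f _ D1 fun p hp => (mem_filter.1 hp).2).mul (ef_per f (n * u1) D1 h1))
    ((om_per f _ D2 fun p hp => (mem_filter.1 hp).2).mul (ef_per f (n * u2) D2 h2))]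
  congr 1
  funext z
  have hset : PP.filter (fun p => p ∣ D1 * D2) =
      PP.filter (fun p => p ∣ D1) ∪ PP.filter (fun p => p ∣ D2) := by
    rw [← filter_or]
    apply filter_congr
    intro p hp
    exact (hPP p hp).dvd_mul
  have hdis : Disjoint (PP.filter (fun p => p ∣ D1)) (PP.filter (fun p => p ∣ D2)) := by
    rw [disjoint_filter]
    intro p hp hd1 hd2
    exact (hPP p hp).one_lt.ne' (Nat.eq_one_of_dvd_coprimes hc hd1 hd2)
  rw [hset, om_union _ _ _ hdis]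
  have he : e (n * ((f.eval z : ℤ) : ℝ) / ((D1 * D2 : ℕ) : ℝ)) =
      e (((n * u1 : ℤ) : ℝ) * ((f.eval z : ℤ) : ℝ) / D1) *
        e (((n * u2 : ℤ) : ℝ) * ((f.eval z : ℤ) : ℝ) / D2) := by
    rw [← e_add]
    congr 1
    push_cast
    field_simp
    linear_combination (-(n : ℝ)) * ((f.eval z : ℤ) : ℝ) * hu''
  rw [he]
  push_cast
  ring

/-- the normalised weighted complete sums form a multiplicative family -/
theorem multFam_GamN (f : ℤ[X]) (PP : Finset ℕ) (hPP : NS f PP) :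
    MultFam (fun D n => GamN f PP n D) where
  per := fun D n m hD => by
    rw [GamN_eq f PP hPP _ D hD, GamN_eq f PP hPP _ D hD, Wq_per f PP n m D hD]
  one := GamN_zero_one f PP hPP
  mul := by
    intro D1 D2 n u1 u2 h1 h2 hu
    have hc : Nat.Coprime D1 D2 := by
      rw [← Nat.isCoprime_iff_coprime]
      exact ⟨u2, u1, by linarith⟩
    rw [GamN_eq f PP hPP _ _ (Nat.mul_pos h1 h2), GamN_eq f PP hPP _ D1 h1,
      GamN_eq f PP hPP _ D2 h2, Wq_mul f PP (fun p hp => (hPP p hp).1) D1 D2 n u1 u2 h1 h2 hu,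
      div_mul_div_comm]
    congr 1
    have hset : PP.filter (fun p => p ∣ D1 * D2) =
        PP.filter (fun p => p ∣ D1) ∪ PP.filter (fun p => p ∣ D2) := by
      rw [← filter_or]
      apply filter_congr
      intro p hp
      exact (hPP p hp).1.dvd_mul
    have hdis : Disjoint (PP.filter (fun p => p ∣ D1)) (PP.filter (fun p => p ∣ D2)) := by
      rw [disjoint_filter]
      intro p hp hd1 hd2
      exact (hPP p hp).1.one_lt.ne' (Nat.eq_one_of_dvd_coprimes hc hd1 hd2)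
    rw [hset, prod_union hdis]
    push_cast
    rfl

/-! ### twisted sums over reduced residues of a multiplicative family -/

/-- `∑_{(a,D)=1} R(a/D) e(-m a/D)` -/
noncomputable def cR (R : ℕ → ℤ → ℂ) (D : ℕ) (m : ℤ) : ℂ :=
  ∑ a ∈ (range D).filter (Nat.Coprime D), R D a * e (-((m : ℝ) * ((a : ℝ) / D)))

theorem cR_mul {R : ℕ → ℤ → ℂ} (hR : MultFam R) (D1 D2 : ℕ) (h1 : 1 ≤ D1) (h2 : 1 ≤ D2)
    (hc : Nat.Coprime D1 D2) (m : ℤ) : cR R (D1 * D2) m = cR R D1 m * cR R D2 m := by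
  obtain ⟨u2, u1, hu⟩ : ∃ u2 u1 : ℤ, u2 * D1 + u1 * D2 = 1 := Nat.isCoprime_iff_coprime.2 hc
  have hu' : u1 * D2 + u2 * D1 = 1 := by linarith
  have h1' : (D1 : ℝ) ≠ 0 := by positivity
  have h2' : (D2 : ℝ) ≠ 0 := by positivity
  have key := usum_mul (fun n => R D1 n * e (-((m : ℝ) * ((n : ℝ) / D1))))
    (fun n => R D2 n * e (-((m : ℝ) * ((n : ℝ) / D2)))) D1 D2 h1 h2
    (fun n => by
      have h := hR.per D1 n 1 h1
      rw [one_mul] at h
      simp only [h, TT.Ker.e_shift D1 h1 m n])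
    (fun n => by
      have h := hR.per D2 n 1 h2
      rw [one_mul] at h
      simp only [h, TT.Ker.e_shift D2 h2 m n]) u1 u2 hu'
  simp only [Int.cast_natCast] at key
  unfold cR
  rw [← key]
  refine Finset.sum_congr rfl fun a _ => ?_
  have hm := hR.mul D1 D2 a u1 u2 h1 h2 hu'
  rw [hm]
  have hfrac : (a : ℝ) / ((D1 * D2 : ℕ) : ℝ) =
      (((a : ℤ) * u1 : ℤ) : ℝ) / D1 + (((a : ℤ) * u2 : ℤ) : ℝ) / D2 := by
    have hu'' : (u1 : ℝ) * D2 + u2 * D1 = 1 := by exact_mod_cast hu'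
    push_cast
    field_simp
    linear_combination (-(a : ℝ)) * hu''
  have he : e (-((m : ℝ) * ((a : ℝ) / ((D1 * D2 : ℕ) : ℝ)))) =
      e (-((m : ℝ) * ((((a : ℤ) * u1 : ℤ) : ℝ) / D1))) *
        e (-((m : ℝ) * ((((a : ℤ) * u2 : ℤ) : ℝ) / D2))) := by
    rw [← e_add, hfrac]
    congr 1
    ring
  rw [he]
  ring

theorem cR_prod {R : ℕ → ℤ → ℂ} (hR : MultFam R) (q : ℕ) (hq : 1 ≤ q) (m : ℤ) (U : Finset ℕ)
    (hU : ∀ p ∈ U, p.Prime) (hc : ∀ p ∈ U, Nat.Coprime p q) :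
    cR R (q * ∏ p ∈ U, p) m = cR R q m * ∏ p ∈ U, cR R p m := by
  classical
  induction U using Finset.induction_on with
  | empty => simp
  | @insert p U hp ih =>
    have hU' : ∀ l ∈ U, l.Prime := fun l hl => hU l (Finset.mem_insert_of_mem hl)
    have hc' : ∀ l ∈ U, Nat.Coprime l q := fun l hl => hc l (Finset.mem_insert_of_mem hl)
    have hpp : p.Prime := hU p (Finset.mem_insert_self p U)
    have hcop : Nat.Coprime (q * ∏ l ∈ U, l) p := by
      apply Nat.Coprime.mul_left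
      · exact (hc p (Finset.mem_insert_self p U)).symm
      · apply Nat.Coprime.prod_left
        intro l hl
        rw [Nat.coprime_primes (hU' l hl) hpp]
        rintro rfl
        exact hp hl
    rw [Finset.prod_insert hp, Finset.prod_insert hp]
    have h1 : q * (p * ∏ l ∈ U, l) = (q * ∏ l ∈ U, l) * p := by ring
    rw [h1, cR_mul hR _ p (Nat.mul_pos hq (Finset.prod_pos fun l hl => (hU' l hl).pos))
      hpp.one_lt.le hcop m, ih hU' hc']
    ring

/-! ### the weighted family -/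

/-- twisted sums of the normalised weighted complete sums -/
noncomputable def Ram (f : ℤ[X]) (PP : Finset ℕ) (D : ℕ) (m : ℤ) : ℂ :=
  cR (fun D n => GamN f PP n D) D m

theorem Ram_mul (f : ℤ[X]) (PP : Finset ℕ) (hPP : NS f PP) (D1 D2 : ℕ) (h1 : 1 ≤ D1)
    (h2 : 1 ≤ D2) (hc : Nat.Coprime D1 D2) (m : ℤ) :
    Ram f PP (D1 * D2) m = Ram f PP D1 m * Ram f PP D2 m :=
  cR_mul (multFam_GamN f PP hPP) D1 D2 h1 h2 hc m

/-- cross form of two functions -/
theorem cross_form (f : ℤ[X]) (PP : Finset ℕ) (Q : ℕ) (I1 I2 : Finset ℤ) (G1 G2 : ℤ → ℝ) :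
    ∑ q ∈ Icc 1 Q, ∑ a ∈ (range q).filter (Nat.Coprime q),
      GamN f PP a q * ((∑ n ∈ I1, (G1 n : ℂ) * e (-((n : ℝ) * ((a : ℝ) / q)))) *
        (starRingEnd ℂ) (∑ m ∈ I2, (G2 m : ℂ) * e (-((m : ℝ) * ((a : ℝ) / q))))) =
    ∑ n ∈ I1, ∑ m ∈ I2, ((G1 n * G2 m : ℝ) : ℂ) * ∑ q ∈ Icc 1 Q, Ram f PP q (n - m) := by
  have h1 : ∀ q ∈ Icc 1 Q, ∀ a ∈ (range q).filter (Nat.Coprime q),
      GamN f PP a q * ((∑ n ∈ I1, (G1 n : ℂ) * e (-((n : ℝ) * ((a : ℝ) / q)))) *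
        (starRingEnd ℂ) (∑ m ∈ I2, (G2 m : ℂ) * e (-((m : ℝ) * ((a : ℝ) / q))))) =
      ∑ n ∈ I1, ∑ m ∈ I2, ((G1 n * G2 m : ℝ) : ℂ) *
        (GamN f PP a q * e (-(((n - m : ℤ) : ℝ) * ((a : ℝ) / q)))) := by
    intro q _ a _
    rw [map_sum, sum_mul_sum, mul_sum]
    refine sum_congr rfl fun n _ => ?_
    rw [mul_sum]
    refine sum_congr rfl fun m _ => ?_
    rw [map_mul, conj_e, Complex.conj_ofReal]
    have he : e (-(((n - m : ℤ) : ℝ) * ((a : ℝ) / q))) =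
        e (-((n : ℝ) * ((a : ℝ) / q))) * e (- -((m : ℝ) * ((a : ℝ) / q))) := by
      rw [← e_add]
      congr 1
      push_cast
      ring
    rw [he]
    push_cast
    ring
  rw [sum_congr rfl fun q hq => sum_congr rfl fun a ha => h1 q hq a ha]
  rw [sum_congr rfl fun q _ => sum_comm, sum_comm]
  refine sum_congr rfl fun n _ => ?_
  rw [sum_congr rfl fun q _ => sum_comm, sum_comm]
  refine sum_congr rfl fun m _ => ?_
  rw [mul_sum]
  refine sum_congr rfl fun q _ => ?_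
  unfold Ram cR
  rw [mul_sum]

end Vale.Agent.P042.H74
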