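import Vale.Agent.P042.H74.Ram2

set_option autoImplicit false

/-!
P042, block [D]: local values of the twisted sums `Ram`.
-/

namespace Vale.Agent.P042.H74
open Polynomial Finset Vale.Agent.P042.SS

/-! ### vanishing at prime powers -/

/-- translation invariance of the average -/
theorem avC_shift {M : ℕ} {F : ℤ → ℂ} (hM : 1 ≤ M) (hF : Per M F) (s : ℕ) :
    avC M (fun z => F (z + s)) = avC M F := by
  unfold avC
  congr 1
  have h1 := perSum_translate F M hM hF (s : ℤ)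
  rw [← h1]

/-- first order expansion of `f` along `D / p` -/
theorem eval_shift (f : ℤ[X]) (D s : ℕ) (z : ℤ) (h : D ∣ s * s) :
    ∃ c : ℤ, f.eval (z + s) = f.eval z + s * (derivative f).eval z + D * c := by
  obtain ⟨k, hk⟩ := exists_mul_sq_add_linear_part_eq_eval_add f z s
  obtain ⟨c, hc⟩ := h
  refine ⟨k * c, ?_⟩
  have hc' : (s : ℤ) * s = D * c := by exact_mod_cast hc
  rw [← hk]
  linear_combination k * hc'

theorem sum_e_zero {p : ℕ} (hp : p.Prime) (b : ℤ) (hb : ¬ (p : ℤ) ∣ b) :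
    ∑ j ∈ range p, e ((b : ℝ) * ((j : ℝ) / p)) = 0 := by
  rw [echar_orth p hp.one_lt.le b, if_neg hb]

/-- a vanishing criterion: `F` is multiplied by nontrivial characters along a translation -/
theorem avC_zero {M p s : ℕ} {F : ℤ → ℂ} (hM : 1 ≤ M) (hp : p.Prime) (hF : Per M F)
    (b : ℤ → ℤ) (hb : ∀ z, F z ≠ 0 → ¬ (p : ℤ) ∣ b z)
    (hs : ∀ (j : ℕ) (z : ℤ), F (z + ((s * j : ℕ) : ℤ)) = F z * e ((b z : ℝ) * ((j : ℝ) / p))) :
    avC M F = 0 := by
  have hp0 : (p : ℂ) ≠ 0 := by exact_mod_cast hp.ne_zero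
  have h1 : (p : ℂ) * avC M F = ∑ j ∈ range p, avC M (fun z => F (z + ((s * j : ℕ) : ℤ))) := by
    rw [sum_congr rfl fun j _ => avC_shift hM hF (s * j), sum_const, card_range, nsmul_eq_mul]
  have h2 : ∑ j ∈ range p, avC M (fun z => F (z + ((s * j : ℕ) : ℤ))) = 0 := by
    unfold avC
    rw [← sum_div, sum_comm]
    have h3 : ∀ z ∈ range M, ∑ j ∈ range p, F ((z : ℤ) + ((s * j : ℕ) : ℤ)) = 0 := by
      intro z _
      by_cases hz : F (z : ℤ) = 0
      · refine sum_eq_zero fun j _ => ?_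
        rw [hs, hz, zero_mul]
      · rw [sum_congr rfl fun j _ => hs j (z : ℤ), ← mul_sum, sum_e_zero hp _ (hb _ hz), mul_zero]
    rw [sum_congr rfl h3]
    simp
  rw [h2] at h1
  rcases mul_eq_zero.1 h1 with h | h
  · exact absurd h hp0
  · exact h

theorem om_ne_zero (f : ℤ[X]) (S : Finset ℕ) (z : ℤ) (h : (om f S z : ℂ) ≠ 0) :
    ∀ p ∈ S, ¬ (p : ℤ) ∣ (derivative f).eval z := by
  intro p hp hd
  apply h
  have : om f S z = 0 := by
    unfold om
    exact prod_eq_zero hp (if_pos hd)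
  rw [this]
  simp

/-- no Fourier coefficients at higher powers of the sieving primes -/
theorem Wq_zero (f : ℤ[X]) (PP : Finset ℕ) (hPP : ∀ p ∈ PP, p.Prime) (a : ℤ) (D p : ℕ)
    (hpP : p ∈ PP) (hD : 1 ≤ D) (hpD : p ^ 2 ∣ D) (ha : IsCoprime a (D : ℤ)) : Wq f PP a D = 0 := by
  have hp := hPP p hpP
  obtain ⟨w, hw⟩ := hpD
  have hp0 : (p : ℝ) ≠ 0 := by exact_mod_cast hp.ne_zero
  have hw1 : 1 ≤ w := by
    rcases Nat.eq_zero_or_pos w with h | h
    · rw [h, mul_zero] at hw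
      omega
    · exact h
  have hw0 : (w : ℝ) ≠ 0 := by positivity
  have hpd : p ∣ D := ⟨p * w, by rw [hw]; ring⟩
  have hpa : ¬ (p : ℤ) ∣ a := by
    intro h
    have h1 : IsCoprime (p : ℤ) (p : ℤ) :=
      (ha.of_isCoprime_of_dvd_left h).of_isCoprime_of_dvd_right (by exact_mod_cast hpd)
    have h2 := Int.isUnit_iff.1 (isCoprime_self.1 h1)
    have h3 := hp.two_le
    omega
  have hprime : Prime (p : ℤ) := Nat.prime_iff_prime_int.1 hp
  unfold Wq
  refine avC_zero (p := p) (s := p * w) hD hp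
    ((om_per f _ D fun p hp => (mem_filter.1 hp).2).mul (ef_per f a D hD))
    (fun z => a * (derivative f).eval z) ?_ ?_
  · intro z hz h
    rcases hprime.dvd_or_dvd h with h | h
    · exact hpa h
    · exact om_ne_zero f _ z (left_ne_zero_of_mul hz) p (mem_filter.2 ⟨hpP, hpd⟩) h
  · intro j z
    have hom : om f (PP.filter (fun p => p ∣ D)) (z + ((p * w * j : ℕ) : ℤ)) =
        om f (PP.filter (fun p => p ∣ D)) z := by
      unfold om
      refine prod_congr rfl fun l hl => ?_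
      have hl' : l ∣ p * w * j := by
        have hlD := (mem_filter.1 hl).2
        by_cases hlp : l = p
        · rw [hlp, mul_assoc]
          exact dvd_mul_right _ _
        · have h1 : l ∣ p * w := by
            rw [hw] at hlD
            have hlp' : l.Prime := hPP l (mem_filter.1 hl).1
            have h2 := (hlp'.dvd_mul.1 hlD).resolve_left (fun h => by
              have h3 := hlp'.dvd_of_dvd_pow h
              exact hlp ((Nat.prime_dvd_prime_iff_eq hlp' hp).1 h3))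
            exact h2.mul_left p
          exact h1.mul_right j
      have h1 : ((l : ℤ) ∣ (derivative f).eval (z + ((p * w * j : ℕ) : ℤ))) ↔
          ((l : ℤ) ∣ (derivative f).eval z) := by
        apply eval_dvd_congr
        have : ((l : ℕ) : ℤ) ∣ ((p * w * j : ℕ) : ℤ) := by exact_mod_cast hl'
        refine this.trans (dvd_of_eq ?_)
        ring
      simp only [h1]
    obtain ⟨c, hc⟩ := eval_shift f D (p * w * j) z ⟨w * j ^ 2, by rw [hw]; ring⟩
    have he : e (a * ((f.eval (z + ((p * w * j : ℕ) : ℤ)) : ℤ) : ℝ) / D) =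
        e (a * ((f.eval z : ℤ) : ℝ) / D) *
          e (((a * (derivative f).eval z : ℤ) : ℝ) * ((j : ℝ) / p)) := by
      rw [hc]
      have h4 : (a : ℝ) * ((f.eval z + ((p * w * j : ℕ) : ℤ) * (derivative f).eval z + D * c : ℤ)
          : ℝ) / D = (a * ((f.eval z : ℤ) : ℝ) / D +
            ((a * (derivative f).eval z : ℤ) : ℝ) * ((j : ℝ) / p)) + ((a * c : ℤ) : ℝ) := by
        rw [hw]
        push_cast
        field_simp
      rw [h4, e_add, e_int, mul_one, e_add]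
    rw [hom, he]
    ring

theorem GamN_zero (f : ℤ[X]) (PP : Finset ℕ) (hPP : NS f PP) (a : ℤ) (D p : ℕ)
    (hpP : p ∈ PP) (hD : 1 ≤ D) (hpD : p ^ 2 ∣ D) (ha : IsCoprime a (D : ℤ)) :
    GamN f PP a D = 0 := by
  rw [GamN_eq f PP hPP a D hD, Wq_zero f PP (fun p hp => (hPP p hp).1) a D p hpP hD hpD ha,
    zero_div]

theorem Ram_zero (f : ℤ[X]) (PP : Finset ℕ) (hPP : NS f PP) (D p : ℕ)
    (hpP : p ∈ PP) (hD : 1 ≤ D) (hpD : p ^ 2 ∣ D) (m : ℤ) : Ram f PP D m = 0 := by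
  unfold Ram cR
  refine sum_eq_zero fun a ha => ?_
  rw [mem_filter] at ha
  have h0 := GamN_zero f PP hPP a D p hpP hD hpD (Nat.isCoprime_iff_coprime.2 ha.2.symm)
  simp only [h0, zero_mul]

/-! ### the kernel at one prime -/

/-- `p #{z nonsingular : f(z) = t} / #{z nonsingular} - 1` -/
noncomputable def kN (f : ℤ[X]) (p : ℕ) (t : ℤ) : ℝ :=
  (((range p).filter (fun z : ℕ => ¬ (p : ℤ) ∣ (derivative f).eval (z : ℤ) ∧
    (p : ℤ) ∣ f.eval (z : ℤ) - t)).card : ℝ) / dns f p - 1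

theorem kN_per (f : ℤ[X]) (p : ℕ) (t : ℤ) : kN f p (t + p) = kN f p t := by
  unfold kN
  have h1 : ∀ z : ℕ, ((p : ℤ) ∣ f.eval (z : ℤ) - (t + p)) ↔ ((p : ℤ) ∣ f.eval (z : ℤ) - t) := by
    intro z
    have : f.eval (z : ℤ) - (t + p) = (f.eval (z : ℤ) - t) - p := by ring
    rw [this]
    exact dvd_sub_self_right
  simp only [h1]

theorem neg_one_le_kN (f : ℤ[X]) (p : ℕ) (t : ℤ) : -1 ≤ kN f p t := by
  unfold kN
  have : 0 ≤ (((range p).filter (fun z : ℕ => ¬ (p : ℤ) ∣ (derivative f).eval (z : ℤ) ∧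
    (p : ℤ) ∣ f.eval (z : ℤ) - t)).card : ℝ) / dns f p := by
    apply div_nonneg (Nat.cast_nonneg _)
    unfold dns
    positivity
  linarith

theorem filter_dvd_prime (PP : Finset ℕ) (p : ℕ) (hp : p.Prime) (hpP : p ∈ PP)
    (hPP : ∀ p ∈ PP, p.Prime) : PP.filter (fun l => l ∣ p) = {p} := by
  ext l
  rw [mem_filter, mem_singleton]
  constructor
  · rintro ⟨h1, h2⟩
    exact (Nat.prime_dvd_prime_iff_eq (hPP l h1) hp).1 h2
  · rintro rfl
    exact ⟨hpP, dvd_rfl⟩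

/-- the sum over all numerators -/
theorem sum_Wq (f : ℤ[X]) (PP : Finset ℕ) (p : ℕ) (hp : p.Prime) (hpP : p ∈ PP)
    (hPP : ∀ p ∈ PP, p.Prime) (t : ℤ) :
    ∑ a ∈ range p, Wq f PP a p * e (-((t : ℝ) * ((a : ℝ) / p))) =
      (((range p).filter (fun z : ℕ => ¬ (p : ℤ) ∣ (derivative f).eval (z : ℤ) ∧
        (p : ℤ) ∣ f.eval (z : ℤ) - t)).card : ℂ) := by
  have hp0 : (p : ℂ) ≠ 0 := by exact_mod_cast hp.ne_zero
  unfold Wq avC
  rw [filter_dvd_prime PP p hp hpP hPP]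
  have h1 : ∀ a ∈ range p, (∑ z ∈ range p, (om f {p} (z : ℤ) : ℂ) *
      e (((a : ℤ) : ℝ) * ((f.eval (z : ℤ) : ℤ) : ℝ) / p)) / (p : ℂ) *
        e (-((t : ℝ) * ((a : ℝ) / p))) =
      ∑ z ∈ range p, (om f {p} (z : ℤ) : ℂ) / p *
        e (((f.eval (z : ℤ) - t : ℤ) : ℝ) * ((a : ℝ) / p)) := by
    intro a _
    rw [sum_div, sum_mul]
    refine sum_congr rfl fun z _ => ?_
    have h2 : e (((f.eval (z : ℤ) - t : ℤ) : ℝ) * ((a : ℝ) / p)) =
        e (((a : ℤ) : ℝ) * ((f.eval (z : ℤ) : ℤ) : ℝ) / p) * e (-((t : ℝ) * ((a : ℝ) / p))) := by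
      rw [← e_add]
      congr 1
      push_cast
      ring
    rw [h2]
    ring
  rw [sum_congr rfl h1, sum_comm]
  have h3 : ∀ z ∈ range p, ∑ a ∈ range p, (om f {p} (z : ℤ) : ℂ) / p *
      e (((f.eval (z : ℤ) - t : ℤ) : ℝ) * ((a : ℝ) / p)) =
      if (¬ (p : ℤ) ∣ (derivative f).eval (z : ℤ) ∧ (p : ℤ) ∣ f.eval (z : ℤ) - t) then 1 else 0 := by
    intro z _
    rw [← mul_sum, echar_orth p hp.one_lt.le]
    unfold om
    rw [prod_singleton]
    by_cases ha : (p : ℤ) ∣ (derivative f).eval (z : ℤ)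
    · simp [ha]
    · by_cases hb : (p : ℤ) ∣ f.eval (z : ℤ) - t
      · simp [ha, hb, hp0]
      · simp [ha, hb]
  rw [sum_congr rfl h3, card_filter]
  push_cast
  rfl

theorem Wq_zero_num (f : ℤ[X]) (PP : Finset ℕ) (p : ℕ) (hp : p.Prime) (hpP : p ∈ PP)
    (hPP : ∀ p ∈ PP, p.Prime) : Wq f PP 0 p = (dns f p : ℂ) := by
  unfold Wq
  rw [filter_dvd_prime PP p hp hpP hPP, ← avC_om_single]
  congr 1
  funext z
  simp [e_zero]

/-- the local kernel -/
theorem Ram_prime (f : ℤ[X]) (PP : Finset ℕ) (hPP : NS f PP) (p : ℕ) (hpP : p ∈ PP) (t : ℤ) :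
    Ram f PP p t = (kN f p t : ℂ) := by
  obtain ⟨hp, hd⟩ := hPP p hpP
  have hd0 : (dns f p : ℂ) ≠ 0 := by exact_mod_cast hd.ne'
  have hPP' : ∀ p ∈ PP, p.Prime := fun p hp => (hPP p hp).1
  have h1 := sum_Wq f PP p hp hpP hPP' t
  have h2 : range p = insert 0 (Ico 1 p) := by
    ext x
    simp only [mem_range, mem_insert, mem_Ico]
    have := hp.one_lt
    omega
  have h4 : Wq f PP ((0 : ℕ) : ℤ) p * e (-((t : ℝ) * (((0 : ℕ) : ℝ) / p))) = (dns f p : ℂ) := by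
    have := Wq_zero_num f PP p hp hpP hPP'
    simp [this, e_zero]
  have h5 : ∑ a ∈ Ico 1 p, Wq f PP a p * e (-((t : ℝ) * ((a : ℝ) / p))) =
      (((range p).filter (fun z : ℕ => ¬ (p : ℤ) ∣ (derivative f).eval (z : ℤ) ∧
        (p : ℤ) ∣ f.eval (z : ℤ) - t)).card : ℂ) - (dns f p : ℂ) := by
    rw [← h1]
    conv_rhs => rw [h2]
    rw [sum_insert (by simp), h4]
    ring
  unfold Ram cR
  rw [TT.Ker.coprime_prime_set hp]
  have h3 : ∀ a ∈ Ico 1 p, GamN f PP a p * e (-((t : ℝ) * ((a : ℝ) / p))) =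
      Wq f PP a p * e (-((t : ℝ) * ((a : ℝ) / p))) / (dns f p : ℂ) := by
    intro a _
    rw [GamN_eq f PP hPP a p hp.one_lt.le, filter_dvd_prime PP p hp hpP hPP', prod_singleton]
    ring
  rw [sum_congr rfl h3, ← sum_div, h5]
  unfold kN
  push_cast
  rw [sub_div, div_self hd0]

theorem Ram_prod (f : ℤ[X]) (PP : Finset ℕ) (hPP : NS f PP) (q : ℕ) (hq : 1 ≤ q) (t : ℤ)
    (U : Finset ℕ) (hU : U ⊆ PP) (hc : ∀ p ∈ U, Nat.Coprime p q) :
    Ram f PP (q * ∏ p ∈ U, p) t = Ram f PP q t * ((∏ p ∈ U, kN f p t : ℝ) : ℂ) := by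
  unfold Ram
  rw [cR_prod (multFam_GamN f PP hPP) q hq t U (fun p hp => (hPP p (hU hp)).1) hc]
  congr 1
  push_cast
  refine prod_congr rfl fun p hp => ?_
  exact Ram_prime f PP hPP p (hU hp) t

theorem Ram_coprime (f : ℤ[X]) (PP : Finset ℕ) (hPP : NS f PP) (q : ℕ) (hq : 1 ≤ q)
    (h : ∀ p ∈ PP, ¬ p ∣ q) (t : ℤ) :
    Ram f PP q t = ∑ a ∈ (range q).filter (Nat.Coprime q), Gam f a q *
      e (-((t : ℝ) * ((a : ℝ) / q))) := by
  unfold Ram cR
  exact sum_congr rfl fun a _ => by simp only [GamN_coprime f PP hPP a q hq h]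

theorem Ram_one (f : ℤ[X]) (PP : Finset ℕ) (hPP : NS f PP) (t : ℤ) : Ram f PP 1 t = 1 := by
  unfold Ram cR
  have h1 : (range 1).filter (Nat.Coprime 1) = {0} := by decide
  rw [h1, sum_singleton]
  have := GamN_zero_one f PP hPP
  simp [this, e_zero]

end Vale.Agent.P042.H74
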