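import Vale.Agent.P042.H74.Ram4
import Mathlib.Algebra.Group.ForwardDiff

set_option autoImplicit false

/-!
P042, block [D]: tiny primes.  After the substitution `x ↦ q1 x + z0` the polynomial is constant
modulo `q0`, and has no Fourier coefficients at other moduli composed of tiny primes.
-/

namespace Vale.Agent.P042.H74
open Polynomial Finset Vale.Agent.P042.SS

/-- superfactorial -/
def sfac (k : ℕ) : ℕ := ∏ i ∈ range (k + 1), i.factorial

theorem sfac_pos (k : ℕ) : 1 ≤ sfac k :=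
  Nat.one_le_iff_ne_zero.2 (prod_ne_zero_iff.2 fun i _ => Nat.factorial_ne_zero i)

theorem sfac_succ (k : ℕ) : sfac (k + 1) = sfac k * (k + 1).factorial := by
  unfold sfac
  rw [prod_range_succ]

/-- a divisor of all values divides the top coefficient times a factorial -/
theorem lead_dvd (m : ℤ) (n : ℕ) (g : ℤ[X]) (hg : g.natDegree ≤ n)
    (h : ∀ z : ℤ, m ∣ g.eval z) : m ∣ (n.factorial : ℤ) * g.coeff n := by
  rcases hg.lt_or_eq with hlt | heq
  · rw [coeff_eq_zero_of_natDegree_lt hlt, mul_zero]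
    exact dvd_zero _
  · have h1 := congrFun (Polynomial.fwdDiff_iter_degree_eq_factorial g) 0
    rw [fwdDiff_iter_eq_sum_shift] at h1
    have h2 : m ∣ ∑ k ∈ range (g.natDegree + 1),
        ((-1 : ℤ) ^ (g.natDegree - k) * g.natDegree.choose k) • g.eval (0 + k • (1 : ℤ)) := by
      refine dvd_sum fun k _ => ?_
      rw [smul_eq_mul]
      exact Dvd.dvd.mul_left (h _) _
    rw [h1] at h2
    rw [← heq]
    have h3 : (g.leadingCoeff • ((g.natDegree.factorial : ℤ → ℤ))) 0 =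
        (g.natDegree.factorial : ℤ) * g.coeff g.natDegree := by
      rw [Pi.smul_apply, Pi.natCast_apply, smul_eq_mul, mul_comm]
      rfl
    rw [h3] at h2
    exact h2

theorem sfac_dvd (m : ℤ) : ∀ (n : ℕ) (g : ℤ[X]), g.natDegree ≤ n → (∀ z : ℤ, m ∣ g.eval z) →
    ∀ j, m ∣ (sfac n : ℤ) * g.coeff j := by
  intro n
  induction n with
  | zero =>
    intro g hg h j
    have h0 : g = C (g.coeff 0) := eq_C_of_natDegree_eq_zero (by omega)
    have h1 := h 0
    rw [h0, eval_C] at h1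
    rcases Nat.eq_zero_or_pos j with hj | hj
    · rw [hj]
      exact Dvd.dvd.mul_left h1 _
    · rw [coeff_eq_zero_of_natDegree_lt (by omega), mul_zero]
      exact dvd_zero _
  | succ n ih =>
    intro g hg h j
    have hl := lead_dvd m (n + 1) g hg h
    set N : ℤ := ((n + 1).factorial : ℤ) with hN
    set a := g.coeff (n + 1) with ha
    set g' : ℤ[X] := C N * g - C (N * a) * X ^ (n + 1) with hg'
    have hc : ∀ i, g'.coeff i = N * g.coeff i - (if i = n + 1 then N * a else 0) := by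
      intro i
      rw [hg', coeff_sub, coeff_C_mul, coeff_C_mul, coeff_X_pow]
      split_ifs <;> ring
    have hd : g'.natDegree ≤ n := by
      rw [natDegree_le_iff_coeff_eq_zero]
      intro i hi
      rw [hc]
      rcases eq_or_ne i (n + 1) with h1 | h1
      · rw [if_pos h1, h1]
        ring
      · rw [if_neg h1, coeff_eq_zero_of_natDegree_lt (by omega)]
        ring
    have hv : ∀ z : ℤ, m ∣ g'.eval z := by
      intro z
      rw [hg', eval_sub, eval_mul, eval_C, eval_mul, eval_C, eval_pow, eval_X]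
      exact dvd_sub (Dvd.dvd.mul_left (h z) _) (Dvd.dvd.mul_right hl _)
    have hi := ih g' hd hv j
    rw [hc] at hi
    rw [sfac_succ]
    push_cast
    rw [← hN]
    rcases eq_or_ne j (n + 1) with h1 | h1
    · rw [h1, mul_assoc]
      exact Dvd.dvd.mul_left hl _
    · rw [if_neg h1, sub_zero] at hi
      rw [mul_assoc]
      exact hi

/-- a divisor of all values of the derivative divides a fixed number -/
theorem deriv_dvd (f : ℤ[X]) (R : ℕ) (hk : 1 ≤ f.natDegree)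
    (hcont : ∀ g : ℤ, (∀ j : ℕ, 1 ≤ j → g ∣ f.coeff j) → g ∣ (R : ℤ)) (m : ℤ)
    (h : ∀ z : ℤ, m ∣ (derivative f).eval z) : m ∣ ((sfac f.natDegree * R : ℕ) : ℤ) := by
  obtain ⟨n, hn⟩ : ∃ n, f.natDegree = n + 1 := ⟨f.natDegree - 1, by omega⟩
  have h1 : (derivative f).natDegree ≤ n := by
    have := natDegree_derivative_le f
    omega
  have h2 := sfac_dvd m n (derivative f) h1 h
  have h3 : ∀ j : ℕ, 1 ≤ j → m ∣ (sfac f.natDegree : ℤ) * f.coeff j := by
    intro j hj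
    by_cases hjn : j ≤ n + 1
    · obtain ⟨i, rfl⟩ : ∃ i, j = i + 1 := ⟨j - 1, by omega⟩
      have h4 := h2 i
      rw [coeff_derivative] at h4
      obtain ⟨c, hc⟩ : (i + 1) ∣ (n + 1).factorial :=
        Nat.dvd_factorial (by omega) (by omega)
      rw [hn, sfac_succ]
      have h5 : ((sfac n * (n + 1).factorial : ℕ) : ℤ) * f.coeff (i + 1) =
          (sfac n : ℤ) * (f.coeff (i + 1) * ((i : ℤ) + 1)) * c := by
        rw [hc]
        push_cast
        ring
      rw [h5]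
      exact Dvd.dvd.mul_right h4 _
    · rw [coeff_eq_zero_of_natDegree_lt (by omega), mul_zero]
      exact dvd_zero _
  have h4 : m ∣ (Icc 1 f.natDegree).gcd (fun j => (sfac f.natDegree : ℤ) * f.coeff j) :=
    Finset.dvd_gcd fun j hj => h3 j (mem_Icc.1 hj).1
  rw [Finset.gcd_mul_left] at h4
  have h5 : (Icc 1 f.natDegree).gcd (fun j => f.coeff j) ∣ (R : ℤ) := by
    apply hcont
    intro j hj
    by_cases hjk : j ≤ f.natDegree
    · exact Finset.gcd_dvd (mem_Icc.2 ⟨hj, hjk⟩)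
    · rw [coeff_eq_zero_of_natDegree_lt (by omega)]
      exact dvd_zero _
  refine h4.trans ?_
  push_cast
  rw [Int.normalize_of_nonneg (by positivity)]
  exact mul_dvd_mul_left _ h5

/-- exponents -/
def Vp (k R p : ℕ) : ℕ := (sfac k * R).factorization p

theorem exists_zp (f : ℤ[X]) (R : ℕ) (hR : 1 ≤ R) (hk : 1 ≤ f.natDegree)
    (hcont : ∀ g : ℤ, (∀ j : ℕ, 1 ≤ j → g ∣ f.coeff j) → g ∣ (R : ℤ)) (p : ℕ) (hp : p.Prime) :
    ∃ z : ℤ, ¬ ((p ^ (Vp f.natDegree R p + 1) : ℕ) : ℤ) ∣ (derivative f).eval z := by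
  by_contra hcon
  push Not at hcon
  have h1 := deriv_dvd f R hk hcont _ hcon
  have h2 : p ^ (Vp f.natDegree R p + 1) ∣ sfac f.natDegree * R := by exact_mod_cast h1
  have h3 : sfac f.natDegree * R ≠ 0 := by
    have := sfac_pos f.natDegree
    positivity
  exact Nat.pow_succ_factorization_not_dvd h3 hp h2

/-- the modulus of the substitution -/
def qone (k R : ℕ) (T : Finset ℕ) : ℕ := ∏ p ∈ T, p ^ (Vp k R p + 1)

theorem qone_pos (k R : ℕ) (T : Finset ℕ) (hT : ∀ p ∈ T, p.Prime) : 1 ≤ qone k R T :=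
  Nat.one_le_iff_ne_zero.2 (prod_ne_zero_iff.2 fun p hp => pow_ne_zero _ (hT p hp).ne_zero)

theorem dvd_qone (k R : ℕ) (T : Finset ℕ) (p : ℕ) (hp : p ∈ T) :
    p ^ (Vp k R p + 1) ∣ qone k R T := dvd_prod_of_mem _ hp

theorem exists_z0 (f : ℤ[X]) (R : ℕ) (hR : 1 ≤ R) (hk : 1 ≤ f.natDegree)
    (hcont : ∀ g : ℤ, (∀ j : ℕ, 1 ≤ j → g ∣ f.coeff j) → g ∣ (R : ℤ)) (T : Finset ℕ)
    (hT : ∀ p ∈ T, p.Prime) :
    ∃ z0 : ℕ, z0 < qone f.natDegree R T ∧
      ∀ p ∈ T, ¬ ((p ^ (Vp f.natDegree R p + 1) : ℕ) : ℤ) ∣ (derivative f).eval (z0 : ℤ) := by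
  classical
  have h1 : ∀ p : ℕ, ∃ z : ℕ, p ∈ T →
      ¬ ((p ^ (Vp f.natDegree R p + 1) : ℕ) : ℤ) ∣ (derivative f).eval (z : ℤ) := by
    intro p
    by_cases hp : p ∈ T
    swap
    · exact ⟨0, fun h => absurd h hp⟩
    obtain ⟨z, hz⟩ := exists_zp f R hR hk hcont p (hT p hp)
    have hM : (0 : ℤ) < ((p ^ (Vp f.natDegree R p + 1) : ℕ) : ℤ) := by
      have := pow_pos (hT p hp).pos (Vp f.natDegree R p + 1)
      exact_mod_cast this
    refine ⟨(z % ((p ^ (Vp f.natDegree R p + 1) : ℕ) : ℤ)).toNat, fun _ => ?_⟩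
    rw [Int.toNat_of_nonneg (Int.emod_nonneg _ hM.ne')]
    intro hd
    apply hz
    have h2 : ((p ^ (Vp f.natDegree R p + 1) : ℕ) : ℤ) ∣
        (derivative f).eval z -
          (derivative f).eval (z % ((p ^ (Vp f.natDegree R p + 1) : ℕ) : ℤ)) :=
      Dvd.dvd.trans (Int.dvd_self_sub_emod) (sub_dvd_eval_sub _ _ _)
    have := dvd_add h2 hd
    rwa [sub_add_cancel] at this
  choose z hz using h1
  have hs : ∀ p ∈ T, p ^ (Vp f.natDegree R p + 1) ≠ 0 := fun p hp => pow_ne_zero _ (hT p hp).ne_zero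
  have hpp : Set.Pairwise (T : Set ℕ)
      (Function.onFun Nat.Coprime (fun p => p ^ (Vp f.natDegree R p + 1))) := by
    intro p hp q hq hne
    apply Nat.Coprime.pow
    exact (Nat.coprime_primes (hT p hp) (hT q hq)).2 hne
  obtain ⟨w, hw1, hw2⟩ : ∃ w : ℕ, w < qone f.natDegree R T ∧
      ∀ p ∈ T, w ≡ z p [MOD p ^ (Vp f.natDegree R p + 1)] :=
    ⟨_, Nat.chineseRemainderOfFinset_lt_prod z (fun p => p ^ (Vp f.natDegree R p + 1)) hs hpp,
      (Nat.chineseRemainderOfFinset z (fun p => p ^ (Vp f.natDegree R p + 1)) T hs hpp).2⟩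
  refine ⟨w, hw1, ?_⟩
  intro p hp hd
  have h2 := hw2 p hp
  apply hz p hp
  have h3 : ((p ^ (Vp f.natDegree R p + 1) : ℕ) : ℤ) ∣ ((z p : ℕ) : ℤ) - (w : ℤ) :=
    (Nat.modEq_iff_dvd.1 h2)
  have h4 := Dvd.dvd.trans h3 (sub_dvd_eval_sub ((z p : ℕ) : ℤ) (w : ℤ) (derivative f))
  have := dvd_add h4 hd
  rwa [sub_add_cancel] at this

/-! ### the structure at the tiny primes -/

/-- the substitution is nonsingular at the tiny primes -/
structure TinyD (f : ℤ[X]) (T : Finset ℕ) (V : ℕ → ℕ) (q1 : ℕ) (z0 : ℤ) : Prop where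
  prime : ∀ p ∈ T, p.Prime
  q1_eq : q1 = ∏ p ∈ T, p ^ (V p + 1)
  ns : ∀ p ∈ T, ¬ ((p ^ (V p + 1) : ℕ) : ℤ) ∣ (derivative f).eval z0

/-- the modulus modulo which the substituted polynomial is constant -/
noncomputable def qnul (f : ℤ[X]) (q1 : ℕ) (z0 : ℤ) : ℕ := q1 * Int.gcd ((derivative f).eval z0) q1

theorem fer_eq_comp (f : ℤ[X]) (m : ℕ) (r : ℤ) : fer f m r = f.comp (C r + C (m : ℤ) * X) := by
  unfold fer
  rw [taylor_apply, comp_assoc]
  congr 1
  rw [add_comp, X_comp, C_comp, add_comm]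

theorem TinyD.q1_pos {f : ℤ[X]} {T : Finset ℕ} {V : ℕ → ℕ} {q1 : ℕ} {z0 : ℤ}
    (h : TinyD f T V q1 z0) : 1 ≤ q1 := by
  rw [h.q1_eq]
  exact Nat.one_le_iff_ne_zero.2 (prod_ne_zero_iff.2 fun p hp => pow_ne_zero _ (h.prime p hp).ne_zero)

theorem qnul_pos {f : ℤ[X]} {q1 : ℕ} (z0 : ℤ) (h : 1 ≤ q1) : 1 ≤ qnul f q1 z0 := by
  unfold qnul
  have : 0 < Int.gcd ((derivative f).eval z0) q1 := by
    rw [Int.gcd_pos_iff]
    right
    have : q1 ≠ 0 := by omega
    exact_mod_cast this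
  exact Nat.mul_pos h this

theorem fer_const (f : ℤ[X]) (q1 : ℕ) (z0 x : ℤ) :
    ((qnul f q1 z0 : ℕ) : ℤ) ∣ (fer f q1 z0).eval x - f.eval z0 := by
  rw [fer_eval]
  obtain ⟨k, hk⟩ := exists_mul_sq_add_linear_part_eq_eval_add f z0 ((q1 : ℤ) * x)
  have h1 : f.eval (q1 * x + z0) - f.eval z0 =
      q1 * (x * (derivative f).eval z0 + q1 * (k * x ^ 2)) := by
    rw [add_comm ((q1 : ℤ) * x) z0, ← hk]
    ring
  rw [h1]
  unfold qnul
  push_cast
  apply mul_dvd_mul_left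
  apply dvd_add
  · exact Dvd.dvd.mul_left (Int.gcd_dvd_left _ _) _
  · exact Dvd.dvd.mul_right (Int.gcd_dvd_right _ _) _

/-- the derivative of the substituted polynomial -/
theorem deriv_fer_eval (f : ℤ[X]) (q1 : ℕ) (z0 x : ℤ) :
    (derivative (fer f q1 z0)).eval x = q1 * (derivative f).eval (q1 * x + z0) := by
  rw [fer_eq_comp, derivative_comp, eval_mul, eval_comp]
  simp [add_comm]

/-- no Fourier coefficients at high powers of tiny primes -/
theorem Wq_zero_tiny {f : ℤ[X]} {T : Finset ℕ} {V : ℕ → ℕ} {q1 : ℕ} {z0 : ℤ}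
    (h : TinyD f T V q1 z0) (PP : Finset ℕ) (hPP : ∀ p ∈ PP, p.Prime) (hdis : Disjoint T PP)
    (a : ℤ) (D p v : ℕ) (hD : 1 ≤ D) (hp : p ∈ T) (hv : v ≤ V p)
    (hv2 : ¬ ((p ^ (v + 1) : ℕ) : ℤ) ∣ (derivative f).eval z0)
    (hv1 : ((p ^ v : ℕ) : ℤ) ∣ (derivative f).eval z0)
    (hpD : p ^ (V p + v + 2) ∣ D) (ha : IsCoprime a (D : ℤ)) :
    Wq (fer f q1 z0) PP a D = 0 := by
  classical
  have hpp := h.prime p hp
  set g := fer f q1 z0 with hg
  obtain ⟨s, hs⟩ := hpD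
  have hs1 : 1 ≤ s := by
    rcases Nat.eq_zero_or_pos s with h0 | h0
    · rw [h0, mul_zero] at hs
      omega
    · exact h0
  -- the cofactor of `q1`
  obtain ⟨w, hw⟩ : p ^ (V p + 1) ∣ q1 := by
    rw [h.q1_eq]
    exact dvd_prod_of_mem (fun p => p ^ (V p + 1)) hp
  have hwp : ¬ p ∣ w := by
    intro hd
    have h1 : q1 = p ^ (V p + 1) * ∏ l ∈ T.erase p, l ^ (V l + 1) := by
      rw [h.q1_eq, mul_prod_erase T (fun l => l ^ (V l + 1)) hp]
    have h2 : w = ∏ l ∈ T.erase p, l ^ (V l + 1) :=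
      Nat.eq_of_mul_eq_mul_left (pow_pos hpp.pos _) (hw.symm.trans h1)
    rw [h2] at hd
    obtain ⟨l, hl, hdl⟩ := (Prime.dvd_finset_prod_iff hpp.prime _).1 hd
    have h3 := hpp.dvd_of_dvd_pow hdl
    exact (ne_of_mem_erase hl) ((Nat.prime_dvd_prime_iff_eq hpp
      (h.prime l (mem_of_mem_erase hl))).1 h3).symm
  -- the derivative along the progression
  have hcong : ∀ x : ℤ, ((p ^ (V p + 1) : ℕ) : ℤ) ∣
      (derivative f).eval (q1 * x + z0) - (derivative f).eval z0 := by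
    intro x
    refine Dvd.dvd.trans ?_ (sub_dvd_eval_sub _ _ _)
    have : ((p ^ (V p + 1) : ℕ) : ℤ) ∣ (q1 : ℤ) := by
      rw [hw]
      push_cast
      exact dvd_mul_right _ _
    have h2 : (q1 : ℤ) * x + z0 - z0 = q1 * x := by ring
    rw [h2]
    exact Dvd.dvd.mul_right this _
  have hdv : ∀ x : ℤ, ((p ^ v : ℕ) : ℤ) ∣ (derivative f).eval (q1 * x + z0) := by
    intro x
    have h1 : ((p ^ v : ℕ) : ℤ) ∣ ((p ^ (V p + 1) : ℕ) : ℤ) := by
      exact_mod_cast pow_dvd_pow p (by omega)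
    have := dvd_add (h1.trans (hcong x)) hv1
    rwa [sub_add_cancel] at this
  choose u hu using hdv
  have hup : ∀ x, ¬ (p : ℤ) ∣ u x := by
    intro x hd
    apply hv2
    have h1 : ((p ^ (v + 1) : ℕ) : ℤ) ∣ ((p ^ (V p + 1) : ℕ) : ℤ) := by
      exact_mod_cast pow_dvd_pow p (by omega)
    have h2 : ((p ^ (v + 1) : ℕ) : ℤ) ∣ (derivative f).eval (q1 * x + z0) := by
      rw [hu x, pow_succ]
      push_cast
      exact mul_dvd_mul_left _ hd
    have h3 := dvd_sub h2 (h1.trans (hcong x))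
    rwa [sub_sub_cancel] at h3
  have hap : ¬ (p : ℤ) ∣ a := by
    intro hd
    have h1 : (p : ℤ) ∣ (D : ℤ) := by
      have : p ∣ D := by
        rw [hs]
        exact Dvd.dvd.mul_right (dvd_pow_self p (by omega)) _
      exact_mod_cast this
    have := ha.isUnit_of_dvd' hd h1
    rw [Int.isUnit_iff] at this
    rcases this with h | h
    · have := hpp.one_lt
      omega
    · have := hpp.pos
      omega
  unfold Wq
  apply avC_zero (p := p) (s := s) hD hpp
    ((om_per g _ D fun l hl => (mem_filter.1 hl).2).mul (ef_per g a D hD))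
    (fun x => a * w * u x)
  · intro z _ hd
    have hpi : Prime (p : ℤ) := Nat.prime_iff_prime_int.1 hpp
    rcases hpi.dvd_or_dvd hd with hd | hd
    · rcases hpi.dvd_or_dvd hd with hd | hd
      · exact hap hd
      · exact hwp (by exact_mod_cast hd)
    · exact hup z hd
  · intro j z
    have hom : (om g (PP.filter (fun l => l ∣ D)) (z + ((s * j : ℕ) : ℤ)) : ℂ) =
        om g (PP.filter (fun l => l ∣ D)) z := by
      have h1 : ∀ l ∈ PP.filter (fun l => l ∣ D), l ∣ s := by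
        intro l hl
        rw [mem_filter] at hl
        have hlp : l ≠ p := by
          rintro rfl
          exact (Finset.disjoint_left.1 hdis hp) hl.1
        have hl2 := hl.2
        rw [hs] at hl2
        refine Nat.Coprime.dvd_of_dvd_mul_left ?_ hl2
        exact Nat.Coprime.pow_right _ ((Nat.coprime_primes (hPP l hl.1) hpp).2 hlp)
      have h2 := (om_per g _ s h1).mul_nat j z
      push_cast at h2 ⊢
      exact h2
    rw [hom, mul_assoc]
    congr 1
    -- the exponential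
    have hdvd : D ∣ (q1 * (s * j)) * (q1 * (s * j)) := by
      rw [hs, hw]
      have h1 : p ^ (V p + v + 2) ∣ p ^ (V p + 1) * p ^ (V p + 1) := by
        rw [← pow_add]
        exact pow_dvd_pow p (by omega)
      obtain ⟨c, hc⟩ := h1
      refine ⟨c * (w * w * s * j * j), ?_⟩
      calc p ^ (V p + 1) * w * (s * j) * (p ^ (V p + 1) * w * (s * j))
          = (p ^ (V p + 1) * p ^ (V p + 1)) * (w * w * s * s * j * j) := by ring
        _ = _ := by
          rw [hc]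
          ring
    obtain ⟨c, hc⟩ := eval_shift f D (q1 * (s * j)) (q1 * z + z0) hdvd
    have h1 : g.eval (z + ((s * j : ℕ) : ℤ)) =
        g.eval z + ((q1 * (s * j) : ℕ) : ℤ) * (derivative f).eval (q1 * z + z0) + D * c := by
      rw [hg, fer_eval, fer_eval, ← hc]
      congr 1
      push_cast
      ring
    rw [h1, hu z]
    have hp0 : (p : ℝ) ≠ 0 := by exact_mod_cast hpp.ne_zero
    have hs0 : (s : ℝ) ≠ 0 := by positivity
    have hDr : (D : ℝ) = (p : ℝ) ^ (V p + v + 2) * s := by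
      rw [hs]
      push_cast
      rfl
    have hqr : (q1 : ℝ) = (p : ℝ) ^ (V p + 1) * w := by
      rw [hw]
      push_cast
      rfl
    have h2 : (a : ℝ) * ((g.eval z + ((q1 * (s * j) : ℕ) : ℤ) * (((p ^ v : ℕ) : ℤ) * u z) +
        D * c : ℤ) : ℝ) / D =
        a * ((g.eval z : ℤ) : ℝ) / D + (((a * w * u z : ℤ) : ℝ) * ((j : ℝ) / p) +
          ((a * c : ℤ) : ℝ)) := by
      push_cast
      rw [hDr, hqr]
      field_simp
      ring
    rw [h2, e_add, e_add, e_int, mul_one]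

/-! ### local values at the tiny primes -/

section TinyVal

variable {f : ℤ[X]} {T : Finset ℕ} {V : ℕ → ℕ} {q1 : ℕ} {z0 : ℤ}

theorem TinyD.mem_of_dvd_qnul (h : TinyD f T V q1 z0) {p : ℕ} (hp : p.Prime)
    (hd : p ∣ qnul f q1 z0) : p ∈ T := by
  have h1 : p ∣ q1 := by
    unfold qnul at hd
    rcases (hp.dvd_mul).1 hd with h2 | h2
    · exact h2
    · have h3 : ((Int.gcd ((derivative f).eval z0) q1 : ℕ) : ℤ) ∣ (q1 : ℤ) := Int.gcd_dvd_right _ _
      exact h2.trans (by exact_mod_cast h3)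
  rw [h.q1_eq] at h1
  obtain ⟨l, hl, hdl⟩ := (Prime.dvd_finset_prod_iff hp.prime _).1 h1
  have h3 := hp.dvd_of_dvd_pow hdl
  rw [(Nat.prime_dvd_prime_iff_eq hp (h.prime l hl)).1 h3]
  exact hl

theorem TinyD.notdvd (h : TinyD f T V q1 z0) {PP : Finset ℕ} (hPP : ∀ p ∈ PP, p.Prime)
    (hdis : Disjoint T PP) {q : ℕ} (hq0 : q ∣ qnul f q1 z0) : ∀ p ∈ PP, ¬ p ∣ q := by
  intro p hp hd
  exact (Finset.disjoint_left.1 hdis (h.mem_of_dvd_qnul (hPP p hp) (hd.trans hq0))) hp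

theorem GamN_tiny (h : TinyD f T V q1 z0) {PP : Finset ℕ} (hPP : NS (fer f q1 z0) PP)
    (hdis : Disjoint T PP) {q : ℕ} (hq : 1 ≤ q) (hq0 : q ∣ qnul f q1 z0) (a : ℤ) :
    GamN (fer f q1 z0) PP a q = e (a * ((f.eval z0 : ℤ) : ℝ) / q) := by
  rw [GamN_coprime (fer f q1 z0) PP hPP a q hq (h.notdvd (fun p hp => (hPP p hp).1) hdis hq0)]
  unfold Gam
  have hqr : (q : ℝ) ≠ 0 := by positivity
  have hqc : (q : ℂ) ≠ 0 := by
    have : q ≠ 0 := by omega
    exact_mod_cast this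
  have h1 : ∀ x ∈ range q, e (a * (((fer f q1 z0).eval (x : ℤ) : ℤ) : ℝ) / q) =
      e (a * ((f.eval z0 : ℤ) : ℝ) / q) := by
    intro x _
    have h2 : ((q : ℕ) : ℤ) ∣ (fer f q1 z0).eval (x : ℤ) - f.eval z0 := by
      refine Dvd.dvd.trans ?_ (fer_const f q1 z0 x)
      exact_mod_cast hq0
    obtain ⟨c, hc⟩ := h2
    have h3 : (fer f q1 z0).eval (x : ℤ) = f.eval z0 + q * c := by linarith
    rw [h3]
    have h4 : (a : ℝ) * ((f.eval z0 + q * c : ℤ) : ℝ) / q =
        a * ((f.eval z0 : ℤ) : ℝ) / q + ((a * c : ℤ) : ℝ) := by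
      push_cast
      field_simp
    rw [h4, e_add, e_int, mul_one]
  rw [sum_congr rfl h1, sum_const, card_range, nsmul_eq_mul]
  field_simp

theorem Ram_tiny (h : TinyD f T V q1 z0) {PP : Finset ℕ} (hPP : NS (fer f q1 z0) PP)
    (hdis : Disjoint T PP) {q : ℕ} (hq : 1 ≤ q) (hq0 : q ∣ qnul f q1 z0) {t : ℤ}
    (ht : ((qnul f q1 z0 : ℕ) : ℤ) ∣ t - f.eval z0) :
    Ram (fer f q1 z0) PP q t = (q.totient : ℂ) := by
  unfold Ram cR
  have hqr : (q : ℝ) ≠ 0 := by positivity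
  obtain ⟨c, hc⟩ : ((q : ℕ) : ℤ) ∣ t - f.eval z0 := Dvd.dvd.trans (by exact_mod_cast hq0) ht
  have h1 : ∀ a ∈ (range q).filter (Nat.Coprime q),
      GamN (fer f q1 z0) PP (a : ℤ) q * e (-((t : ℝ) * ((a : ℝ) / q))) = 1 := by
    intro a _
    rw [GamN_tiny h hPP hdis hq hq0, ← e_add]
    have h3 : t = f.eval z0 + q * c := by linarith
    rw [h3]
    have h4 : ((a : ℤ) : ℝ) * ((f.eval z0 : ℤ) : ℝ) / q +
        -(((f.eval z0 + q * c : ℤ) : ℝ) * ((a : ℝ) / q)) = ((-(a * c) : ℤ) : ℝ) := by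
      push_cast
      field_simp
      ring
    rw [h4, e_int]
  rw [sum_congr rfl h1, sum_const, nsmul_eq_mul, mul_one]
  rfl

/-- a `T`-smooth modulus not dividing `qnul` has a high power of a tiny prime -/
theorem TinyD.exists_pow (h : TinyD f T V q1 z0) {q : ℕ} (hq : 1 ≤ q)
    (hsm : ∀ p, p.Prime → p ∣ q → p ∈ T) (hq0 : ¬ q ∣ qnul f q1 z0) :
    ∃ p ∈ T, ∃ v ≤ V p, ((p ^ v : ℕ) : ℤ) ∣ (derivative f).eval z0 ∧
      ¬ ((p ^ (v + 1) : ℕ) : ℤ) ∣ (derivative f).eval z0 ∧ p ^ (V p + v + 2) ∣ q := by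
  classical
  have hn0 : qnul f q1 z0 ≠ 0 := by
    have := qnul_pos (f := f) z0 h.q1_pos
    omega
  have hq00 : q ≠ 0 := by omega
  have h1 : ¬ q.factorization ≤ (qnul f q1 z0).factorization := by
    intro hle
    exact hq0 ((Nat.factorization_le_iff_dvd hq00 hn0).1 hle)
  have h2 : ∃ p, (qnul f q1 z0).factorization p < q.factorization p := by
    by_contra hcon
    push Not at hcon
    exact h1 (fun p => hcon p)
  obtain ⟨p, hp⟩ := h2
  have hp1 : q.factorization p ≠ 0 := by omega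
  have hpp : p.Prime := by
    by_contra hnp
    exact hp1 (Nat.factorization_eq_zero_of_not_prime q hnp)
  have hpq : p ∣ q := Nat.dvd_of_factorization_pos hp1
  have hpT := hsm p hpp hpq
  -- the exact power in the derivative
  have hex : ∃ v, ¬ ((p ^ (v + 1) : ℕ) : ℤ) ∣ (derivative f).eval z0 := ⟨V p, h.ns p hpT⟩
  set v := Nat.find hex with hv
  have hv1 : ¬ ((p ^ (v + 1) : ℕ) : ℤ) ∣ (derivative f).eval z0 := Nat.find_spec hex
  have hv2 : v ≤ V p := Nat.find_min' hex (h.ns p hpT)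
  have hv3 : ((p ^ v : ℕ) : ℤ) ∣ (derivative f).eval z0 := by
    rcases Nat.eq_zero_or_pos v with h0 | h0
    · rw [h0]
      simp
    · have h4 : v - 1 < Nat.find hex := by omega
      have h5 := Nat.find_min hex h4
      rw [not_not] at h5
      have h6 : v - 1 + 1 = v := by omega
      rwa [h6] at h5
  refine ⟨p, hpT, v, hv2, hv3, hv1, ?_⟩
  have hq1d : p ^ (V p + 1) ∣ q1 := by
    rw [h.q1_eq]
    exact dvd_prod_of_mem (fun p => p ^ (V p + 1)) hpT
  have hgd : p ^ v ∣ Int.gcd ((derivative f).eval z0) q1 := by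
    rw [← Int.natCast_dvd_natCast]
    apply Int.dvd_coe_gcd hv3
    have : p ^ v ∣ q1 := (pow_dvd_pow p (by omega)).trans hq1d
    exact_mod_cast this
  have h5 : p ^ (V p + 1 + v) ∣ qnul f q1 z0 := by
    unfold qnul
    rw [pow_add]
    exact mul_dvd_mul hq1d hgd
  have h6 : V p + 1 + v ≤ (qnul f q1 z0).factorization p :=
    (Nat.Prime.pow_dvd_iff_le_factorization hpp hn0).1 h5
  exact (Nat.Prime.pow_dvd_iff_le_factorization hpp hq00).2 (by omega)

theorem Ram_zero_of_Wq (g : ℤ[X]) (PP : Finset ℕ) (hPP : NS g PP) (D : ℕ) (hD : 1 ≤ D)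
    (hW : ∀ a : ℤ, IsCoprime a (D : ℤ) → Wq g PP a D = 0) (t : ℤ) : Ram g PP D t = 0 := by
  unfold Ram cR
  refine sum_eq_zero fun a ha => ?_
  rw [mem_filter] at ha
  have h1 : IsCoprime ((a : ℕ) : ℤ) (D : ℤ) := Nat.isCoprime_iff_coprime.2 ha.2.symm
  simp only
  rw [GamN_eq g PP hPP _ D hD, hW _ h1, zero_div, zero_mul]

theorem Ram_tiny_zero (h : TinyD f T V q1 z0) {PP : Finset ℕ} (hPP : NS (fer f q1 z0) PP)
    (hdis : Disjoint T PP) {q : ℕ} (hq : 1 ≤ q) (hsm : ∀ p, p.Prime → p ∣ q → p ∈ T)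
    (hq0 : ¬ q ∣ qnul f q1 z0) (t : ℤ) : Ram (fer f q1 z0) PP q t = 0 := by
  obtain ⟨p, hpT, v, hv, hv1, hv2, hpq⟩ := h.exists_pow hq hsm hq0
  exact Ram_zero_of_Wq _ PP hPP q hq (fun a ha =>
    Wq_zero_tiny h PP (fun p hp => (hPP p hp).1) hdis a q p v hq hpT hv hv2 hv1 hpq ha) t

end TinyVal

/-! ### the `T`-part of a modulus -/

/-- the part of `q` composed of primes in `T` -/
def tpart (T : Finset ℕ) (q : ℕ) : ℕ := ∏ p ∈ T, p ^ (q.factorization p)

theorem tpart_pos (T : Finset ℕ) (hT : ∀ p ∈ T, p.Prime) (q : ℕ) : 1 ≤ tpart T q :=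
  Nat.one_le_iff_ne_zero.2 (prod_ne_zero_iff.2 fun p hp => pow_ne_zero _ (hT p hp).ne_zero)

theorem tpart_dvd (T : Finset ℕ) (hT : ∀ p ∈ T, p.Prime) (q : ℕ) : tpart T q ∣ q := by
  unfold tpart
  apply Finset.prod_dvd_of_isRelPrime
  · intro p hp l hl hne
    exact Nat.coprime_iff_isRelPrime.1
      (Nat.Coprime.pow _ _ ((Nat.coprime_primes (hT p hp) (hT l hl)).2 hne))
  · intro p _
    exact Nat.ordProj_dvd q p

theorem tpart_smooth (T : Finset ℕ) (hT : ∀ p ∈ T, p.Prime) (q p : ℕ) (hp : p.Prime)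
    (hd : p ∣ tpart T q) : p ∈ T := by
  unfold tpart at hd
  obtain ⟨l, hl, hdl⟩ := (Prime.dvd_finset_prod_iff hp.prime _).1 hd
  have h3 := hp.dvd_of_dvd_pow hdl
  rw [(Nat.prime_dvd_prime_iff_eq hp (hT l hl)).1 h3]
  exact hl

theorem tpart_factorization (T : Finset ℕ) (hT : ∀ p ∈ T, p.Prime) (q p : ℕ) (hp : p ∈ T) :
    (tpart T q).factorization p = q.factorization p := by
  classical
  unfold tpart
  rw [Nat.factorization_prod fun l hl => pow_ne_zero _ (hT l hl).ne_zero]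
  rw [Finsupp.finset_sum_apply, sum_eq_single p]
  · rw [(hT p hp).factorization_pow]
    simp
  · intro l hl hne
    rw [(hT l hl).factorization_pow]
    simp [hne]
  · intro h
    exact absurd hp h

theorem not_dvd_div_tpart (T : Finset ℕ) (hT : ∀ p ∈ T, p.Prime) (q : ℕ) (hq : 1 ≤ q) (p : ℕ)
    (hp : p ∈ T) : ¬ p ∣ q / tpart T q := by
  intro hd
  obtain ⟨c, hc⟩ := hd
  have h1 : q = tpart T q * (p * c) := by
    rw [← hc]
    exact (Nat.mul_div_cancel' (tpart_dvd T hT q)).symm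
  have hc0 : p * c ≠ 0 := by
    intro h0
    rw [h0, mul_zero] at h1
    omega
  have h2 : q.factorization p = (tpart T q).factorization p + (p * c).factorization p := by
    conv_lhs => rw [h1]
    rw [Nat.factorization_mul (by have := tpart_pos T hT q; omega) hc0]
    rfl
  rw [tpart_factorization T hT q p hp] at h2
  have h3 : 1 ≤ (p * c).factorization p := by
    rw [← (hT p hp).dvd_iff_one_le_factorization hc0]
    exact dvd_mul_right _ _
  omega

theorem coprime_tpart (T : Finset ℕ) (hT : ∀ p ∈ T, p.Prime) (q m : ℕ)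
    (hm : ∀ p ∈ T, ¬ p ∣ m) : Nat.Coprime (tpart T q) m := by
  unfold tpart
  apply Nat.Coprime.prod_left
  intro p hp
  exact Nat.Coprime.pow_left _ (((hT p hp).coprime_iff_not_dvd).2 (hm p hp))

theorem coprime_of_smooth (T : Finset ℕ) (d m : ℕ) (hd : ∀ p, p.Prime → p ∣ d → p ∈ T)
    (hm : ∀ p ∈ T, ¬ p ∣ m) : Nat.Coprime d m := by
  apply Nat.Coprime.symm
  rw [Nat.coprime_iff_gcd_eq_one]
  by_contra hne
  obtain ⟨p, hp, hpd⟩ := Nat.exists_prime_and_dvd hne
  exact hm p (hd p hp (hpd.trans (Nat.gcd_dvd_right _ _))) (hpd.trans (Nat.gcd_dvd_left _ _))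

theorem tpart_mul (T : Finset ℕ) (hT : ∀ p ∈ T, p.Prime) (d m : ℕ) (hd1 : 1 ≤ d) (hm1 : 1 ≤ m)
    (hd : ∀ p, p.Prime → p ∣ d → p ∈ T) (hm : ∀ p ∈ T, ¬ p ∣ m) : tpart T (d * m) = d := by
  classical
  have h1 : ∀ p ∈ T, (d * m).factorization p = d.factorization p := by
    intro p hp
    rw [Nat.factorization_mul (by omega) (by omega), Finsupp.add_apply,
      Nat.factorization_eq_zero_of_not_dvd (hm p hp), add_zero]
  unfold tpart
  rw [prod_congr rfl fun p hp => by rw [h1 p hp]]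
  conv_rhs => rw [← Nat.factorization_prod_pow_eq_self (n := d) (by omega)]
  rw [Finsupp.prod_of_support_subset _ _ _ (by simp)]
  intro p hp
  rw [Nat.support_factorization, Nat.mem_primeFactors] at hp
  exact hd p hp.1 hp.2.1

/-- total sum of the local transforms over `q ≤ Q`, after removal of the tiny primes -/
theorem sum_Ram_tiny {f : ℤ[X]} {T : Finset ℕ} {V : ℕ → ℕ} {q1 : ℕ} {z0 : ℤ}
    (h : TinyD f T V q1 z0) {PP : Finset ℕ} (hPP : NS (fer f q1 z0) PP)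
    (hdis : Disjoint T PP) (Q : ℕ) {t : ℤ} (ht : ((qnul f q1 z0 : ℕ) : ℤ) ∣ t - f.eval z0) :
    ∑ q ∈ Icc 1 Q, Ram (fer f q1 z0) PP q t =
      ∑ d ∈ (qnul f q1 z0).divisors, (d.totient : ℂ) *
        ∑ m ∈ (Icc 1 (Q / d)).filter (fun m => ∀ p ∈ T, ¬ p ∣ m), Ram (fer f q1 z0) PP m t := by
  classical
  have hT := h.prime
  set g := fer f q1 z0 with hg
  have hq0 : qnul f q1 z0 ≠ 0 := by
    have := qnul_pos (f := f) z0 h.q1_pos
    omega
  -- only the moduli with `T`-part dividing `qnul` matter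
  have h1 : ∑ q ∈ Icc 1 Q, Ram g PP q t =
      ∑ q ∈ (Icc 1 Q).filter (fun q => tpart T q ∣ qnul f q1 z0), Ram g PP q t := by
    symm
    apply sum_filter_of_ne
    intro q hq hne
    by_contra hnd
    apply hne
    rw [mem_Icc] at hq
    have h2 : q = tpart T q * (q / tpart T q) := (Nat.mul_div_cancel' (tpart_dvd T hT q)).symm
    have h3 : 1 ≤ q / tpart T q := by
      rcases Nat.eq_zero_or_pos (q / tpart T q) with h0 | h0
      · rw [h0, mul_zero] at h2
        omega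
      · exact h0
    rw [h2, Ram_mul g PP hPP _ _ (tpart_pos T hT q) h3
      (coprime_tpart T hT q _ (not_dvd_div_tpart T hT q hq.1)),
      Ram_tiny_zero h hPP hdis (tpart_pos T hT q) (tpart_smooth T hT q) hnd, zero_mul]
  rw [h1]
  have h2 : ∀ d ∈ (qnul f q1 z0).divisors, (d.totient : ℂ) *
        ∑ m ∈ (Icc 1 (Q / d)).filter (fun m => ∀ p ∈ T, ¬ p ∣ m), Ram g PP m t =
      ∑ m ∈ (Icc 1 (Q / d)).filter (fun m => ∀ p ∈ T, ¬ p ∣ m), Ram g PP (d * m) t := by
    intro d hd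
    rw [Nat.mem_divisors] at hd
    have hd1 : 1 ≤ d := Nat.pos_of_dvd_of_pos hd.1 (by omega)
    rw [mul_sum]
    refine sum_congr rfl fun m hm => ?_
    rw [mem_filter, mem_Icc] at hm
    rw [Ram_mul g PP hPP d m hd1 hm.1.1 (coprime_of_smooth T d m
      (fun p hp hpd => h.mem_of_dvd_qnul hp (hpd.trans hd.1)) hm.2),
      Ram_tiny h hPP hdis hd1 hd.1 ht]
  rw [sum_congr rfl h2, sum_sigma']
  symm
  refine sum_bij' (fun x _ => x.1 * x.2) (fun q _ => ⟨tpart T q, q / tpart T q⟩) ?_ ?_ ?_ ?_ ?_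
  · rintro ⟨d, m⟩ hx
    simp only [mem_sigma, Nat.mem_divisors, mem_filter, mem_Icc] at hx ⊢
    have hd1 : 1 ≤ d := Nat.pos_of_dvd_of_pos hx.1.1 (by omega)
    refine ⟨⟨Nat.mul_pos hd1 hx.2.1.1, ?_⟩, ?_⟩
    · calc d * m ≤ d * (Q / d) := Nat.mul_le_mul_left _ hx.2.1.2
        _ ≤ Q := Nat.mul_div_le _ _
    · rw [tpart_mul T hT d m hd1 hx.2.1.1
        (fun p hp hpd => h.mem_of_dvd_qnul hp (hpd.trans hx.1.1)) hx.2.2]
      exact hx.1.1
  · intro q hq
    simp only [mem_sigma, Nat.mem_divisors, mem_filter, mem_Icc] at hq ⊢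
    have h3 := tpart_pos T hT q
    have h4 := tpart_dvd T hT q
    refine ⟨⟨hq.2, hq0⟩, ⟨?_, Nat.div_le_div_right hq.1.2⟩, not_dvd_div_tpart T hT q hq.1.1⟩
    exact Nat.div_pos (Nat.le_of_dvd (by omega) h4) h3
  · rintro ⟨d, m⟩ hx
    simp only [mem_sigma, Nat.mem_divisors, mem_filter, mem_Icc] at hx
    have hd1 : 1 ≤ d := Nat.pos_of_dvd_of_pos hx.1.1 (by omega)
    have h5 := tpart_mul T hT d m hd1 hx.2.1.1
      (fun p hp hpd => h.mem_of_dvd_qnul hp (hpd.trans hx.1.1)) hx.2.2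
    simp only [h5, Nat.mul_div_cancel_left m hd1]
  · intro q hq
    exact Nat.mul_div_cancel' (tpart_dvd T hT q)
  · rintro ⟨d, m⟩ hx
    rfl

end Vale.Agent.P042.H74
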